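/-
Crouzeix (S0179) — definitions shared by all modules.  See results.approach of row S0179.

A smooth strictly convex closed curve Γ is parametrised by the angle β of its outward normal:
  σ(β) = e^{iβ} (h(β) + i h'(β)),  σ'(β) = i e^{iβ} ρ(β),  ρ = h + h'' > 0,
where h is the support function.  The field `dd` is the divided difference of σ with respect to
e^{iβ}:  σ(β) - σ(β₀) = (e^{iβ} - e^{iβ₀}) dd(β, β₀); it exists as a smooth function because in the
applications σ is a Laurent polynomial in e^{iβ} (see `TrigCurve.lean`).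
-/
import Mathlib

set_option autoImplicit false

open Complex MeasureTheory Set Filter Topology
open scoped Real ComplexConjugate InnerProductSpace

noncomputable section

namespace Crest.Agent.Crouzeix

/-- `e^{iβ}`. -/
abbrev eI (β : ℝ) : ℂ := Complex.exp ((β : ℂ) * Complex.I)

/-- A closed smooth strictly convex curve, by its support function. -/
structure SCurve where
  h : ℝ → ℝ
  dh : ℝ → ℝ
  ρ : ℝ → ℝ
  hasDeriv_h : ∀ β, HasDerivAt h (dh β) β
  hasDeriv_dh : ∀ β, HasDerivAt dh (ρ β - h β) β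
  cont_ρ : Continuous ρ
  per_h : Function.Periodic h (2 * π)
  per_dh : Function.Periodic dh (2 * π)
  per_ρ : Function.Periodic ρ (2 * π)
  ρ_pos : ∀ β, 0 < ρ β
  dd : ℝ → ℝ → ℂ
  smooth_dd : ContDiff ℝ 2 (Function.uncurry dd)
  per_dd_left : ∀ β β₀, dd (β + 2 * π) β₀ = dd β β₀
  per_dd_right : ∀ β β₀, dd β (β₀ + 2 * π) = dd β β₀
  eq_dd : ∀ β β₀, eI β * ((h β : ℂ) + (dh β : ℂ) * I) - eI β₀ * ((h β₀ : ℂ) + (dh β₀ : ℂ) * I)
    = (eI β - eI β₀) * dd β β₀

/-- Lipschitz and `2π`-periodic complex function: the class of densities for which the Cauchy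
transform has boundary values. -/
def LP (g : ℝ → ℂ) : Prop :=
  (∃ L : ℝ, ∀ x y, ‖g x - g y‖ ≤ L * |x - y|) ∧ Function.Periodic g (2 * π)

namespace SCurve

variable (C : SCurve)

/-- The curve. -/
def σ (β : ℝ) : ℂ := eI β * ((C.h β : ℂ) + (C.dh β : ℂ) * I)

/-- Its derivative `i e^{iβ} ρ(β)`. -/
def dσ (β : ℝ) : ℂ := I * eI β * (C.ρ β : ℂ)

/-- Parallel curve at distance `s`; `(β, s) ↦ σs β s` (`s > 0`) foliates the exterior. -/
def σs (β s : ℝ) : ℂ := C.σ β + (s : ℂ) * eI β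

/-- Its `β` derivative `i e^{iβ} (ρ(β) + s)`. -/
def dσs (β s : ℝ) : ℂ := I * eI β * ((C.ρ β : ℂ) + (s : ℂ))

/-- Exterior of the curve: points violating one of the support constraints. Open. -/
def ext : Set ℂ := {z | ∃ β : ℝ, C.h β < (eI (-β) * z).re}

/-- Strict interior of the curve. -/
def inside : Set ℂ := {z | ∀ β : ℝ, (eI (-β) * z).re < C.h β}

/-- `H` is holomorphic on the exterior, extends continuously to the curve with boundary function
`f` (in the cylinder coordinates `(β, s)`), and takes the value `c` at `∞`, with `H = c + O(1/z)`. -/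
def Ext (H : ℂ → ℂ) (f : ℝ → ℂ) (c : ℂ) : Prop :=
  DifferentiableOn ℂ H C.ext ∧
  (∃ F : ℝ → ℝ → ℂ, Continuous (Function.uncurry F) ∧ (∀ β s, 0 < s → F β s = H (C.σs β s)) ∧
      ∀ β, F β 0 = f β) ∧
  ∃ K R : ℝ, 0 < R ∧ ∀ z ∈ C.ext, R ≤ ‖z‖ → ‖H z - c‖ ≤ K / ‖z‖

/-- `∂_β dd`. -/
def dd₁ (β β₀ : ℝ) : ℂ := deriv (fun b => C.dd b β₀) β

/-- The Neumann–Poincaré (double layer) kernel, in smooth form:
`k(β₀, β) = (1/π) Im (σ'(β) / (σ(β) - σ(β₀)))` off the diagonal, see `SCurve.k_eq`. -/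
def k (β₀ β : ℝ) : ℝ := π⁻¹ * (1 / 2 + (C.dd₁ β β₀ / C.dd β β₀).im)

/-- The double layer operator. -/
def K (g : ℝ → ℂ) (β₀ : ℝ) : ℂ := ∫ β in (0 : ℝ)..(2 * π), (C.k β₀ β : ℂ) * g β

/-- Exterior Cauchy transform `(1/2πi) ∫ g(ξ) dξ / (ξ - z)`. -/
def Ce (g : ℝ → ℂ) (z : ℂ) : ℂ :=
  (2 * π * I)⁻¹ * ∫ β in (0 : ℝ)..(2 * π), g β * C.dσ β / (C.σ β - z)

/-- Boundary value of `Ce g` from the exterior (at `σ β₀`), for Lipschitz `g`. -/
def bv (g : ℝ → ℂ) (β₀ : ℝ) : ℂ :=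
  (2 * π * I)⁻¹ * ∫ β in (0 : ℝ)..(2 * π), (g β - g β₀) * C.dσ β / (C.σ β - C.σ β₀)

end SCurve

end Crest.Agent.Crouzeix
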