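/-
Auxiliary lemmas for `Approx.lean`: the support function of a compact set, the kernel `(1 + cos u)^n`,
smoothing.
-/
import Crest.Agent.Crouzeix.Defs

set_option autoImplicit false

open Complex MeasureTheory Set Filter Topology
open scoped Real ComplexConjugate InnerProductSpace

noncomputable section

namespace Crest.Agent.Crouzeix

/-! ### Second derivative test in the form needed. -/

/-- If `f` is `C²` and `f(β+δ) + f(β-δ) ≥ 2 cos δ f(β)` for all `δ`, then `f + f'' ≥ 0`. -/
theorem add_deriv2_nonneg_of_sublinear {f : ℝ → ℝ} (hf : ContDiff ℝ 2 f) (β : ℝ)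
    (hs : ∀ δ : ℝ, 2 * Real.cos δ * f β ≤ f (β + δ) + f (β - δ)) :
    0 ≤ f β + deriv (deriv f) β := by
  by_contra hneg
  push Not at hneg
  -- the function `g`
  let g : ℝ → ℝ := fun δ => f (β + δ) + f (β - δ) - 2 * Real.cos δ * f β
  have hg0 : g 0 = 0 := by simp [g]; ring
  have hgnn : ∀ δ, 0 ≤ g δ := fun δ => by simp only [g]; linarith [hs δ]
  have hd1 : Differentiable ℝ f := hf.differentiable (by norm_num)
  have hd2c : ContDiff ℝ 1 (deriv f) := by
    have h2 : ContDiff ℝ (1 + 1) f := by rwa [one_add_one_eq_two]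
    exact (contDiff_succ_iff_deriv.mp h2).2.2
  have hd2 : Differentiable ℝ (deriv f) := hd2c.differentiable (by norm_num)
  have hg1 : ∀ δ, HasDerivAt g (deriv f (β + δ) - deriv f (β - δ) + 2 * Real.sin δ * f β) δ := by
    intro δ
    have h1 : HasDerivAt (fun δ => f (β + δ)) (deriv f (β + δ)) δ := by
      simpa using (hd1 (β + δ)).hasDerivAt.comp_const_add β δ
    have h2 : HasDerivAt (fun δ => f (β - δ)) (-deriv f (β - δ)) δ := by
      simpa using (hd1 (β - δ)).hasDerivAt.comp_const_sub β δ
    have h3 : HasDerivAt (fun δ => 2 * Real.cos δ * f β) (2 * (-Real.sin δ) * f β) δ :=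
      ((Real.hasDerivAt_cos δ).const_mul 2).mul_const (f β)
    have := (h1.fun_add h2).fun_sub h3
    exact this.congr_deriv (by ring)
  have hg1' : deriv g = fun δ => deriv f (β + δ) - deriv f (β - δ) + 2 * Real.sin δ * f β :=
    funext fun δ => (hg1 δ).deriv
  have hg2 : HasDerivAt (fun δ => deriv f (β + δ) - deriv f (β - δ) + 2 * Real.sin δ * f β)
      (deriv (deriv f) β + deriv (deriv f) β + 2 * f β) 0 := by
    have h1 : HasDerivAt (fun δ => deriv f (β + δ)) (deriv (deriv f) (β + 0)) 0 := by
      simpa using (hd2 (β + 0)).hasDerivAt.comp_const_add β 0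
    have h2 : HasDerivAt (fun δ => deriv f (β - δ)) (-deriv (deriv f) (β - 0)) 0 := by
      simpa using (hd2 (β - 0)).hasDerivAt.comp_const_sub β 0
    have h3 : HasDerivAt (fun δ => 2 * Real.sin δ * f β) (2 * Real.cos 0 * f β) 0 :=
      ((Real.hasDerivAt_sin 0).const_mul 2).mul_const (f β)
    have := (h1.fun_sub h2).fun_add h3
    refine this.congr_deriv ?_
    simp
  have hg2' : deriv (deriv g) 0 = 2 * (f β + deriv (deriv f) β) := by
    rw [hg1', hg2.deriv]; ring
  have hd0 : deriv g 0 = 0 := by rw [hg1']; simp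
  have hmax : IsLocalMax g 0 :=
    isLocalMax_of_deriv_deriv_neg (by rw [hg2']; linarith) hd0 (hg1 0).continuousAt
  -- so `g = 0` near `0`
  have hzero : g =ᶠ[𝓝 0] fun _ => 0 := by
    filter_upwards [hmax] with δ hδ
    exact le_antisymm (by rw [hg0] at hδ; exact hδ) (hgnn δ)
  have hd : deriv g =ᶠ[𝓝 0] fun _ => 0 := by
    have := hzero.deriv
    simpa using this
  have hdd : deriv (deriv g) 0 = 0 := by
    have := hd.deriv_eq
    simpa using this
  rw [hg2'] at hdd
  linarith

/-! ### The kernel -/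

/-- The kernel. -/
def kerF (n : ℕ) (u : ℝ) : ℝ := (1 + Real.cos u) ^ n

lemma kerF_nonneg (n : ℕ) (u : ℝ) : 0 ≤ kerF n u :=
  pow_nonneg (by linarith [Real.neg_one_le_cos u]) n

lemma kerF_cont (n : ℕ) : Continuous (kerF n) := by
  unfold kerF; fun_prop

lemma kerF_per (n : ℕ) : Function.Periodic (kerF n) (2 * π) := by
  intro u; simp [kerF, Real.cos_add_two_pi]

/-- The total mass. -/
def kerI (n : ℕ) : ℝ := ∫ u in (0 : ℝ)..(2 * π), kerF n u

lemma kerI_pos (n : ℕ) : 0 < kerI n := by
  unfold kerI
  apply intervalIntegral.integral_pos (by positivity) (kerF_cont n).continuousOn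
  · intro x _; exact kerF_nonneg n x
  · refine ⟨0, ⟨le_rfl, by positivity⟩, ?_⟩
    simp [kerF]

/-- `∫ (1 - cos u) (1 + cos u)^n = I_n / (n+1)`. -/
lemma kerJ_eq (n : ℕ) :
    (n + 1 : ℝ) * ∫ u in (0 : ℝ)..(2 * π), (1 - Real.cos u) * kerF n u = kerI n := by
  -- `d/du [sin u (1 + cos u)^n] = cos u (1+cos u)^n - n (1 - cos u) (1 + cos u)^n`
  have hint : ∫ u in (0 : ℝ)..(2 * π),
      (Real.cos u * kerF n u - n * ((1 - Real.cos u) * kerF n u)) = 0 := by
    have hder : ∀ u ∈ Set.uIcc (0 : ℝ) (2 * π), HasDerivAt (fun u => Real.sin u * kerF n u)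
        (Real.cos u * kerF n u - n * ((1 - Real.cos u) * kerF n u)) u := by
      intro u _
      have h1 : HasDerivAt (fun u => (1 + Real.cos u) ^ n)
          ((n : ℝ) * (1 + Real.cos u) ^ (n - 1) * (-Real.sin u)) u := by
        simpa using ((Real.hasDerivAt_cos u).const_add 1).fun_pow n
      have := (Real.hasDerivAt_sin u).fun_mul h1
      refine this.congr_deriv ?_
      rcases n with _ | m
      · simp [kerF]
      · simp only [kerF, Nat.add_sub_cancel, pow_succ]
        have hs : Real.sin u * Real.sin u = 1 - Real.cos u * Real.cos u := by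
          have := Real.sin_sq_add_cos_sq u; nlinarith
        push_cast
        have : Real.sin u * (((m : ℝ) + 1) * (1 + Real.cos u) ^ m * -Real.sin u)
          = -((m : ℝ) + 1) * (1 + Real.cos u) ^ m * (Real.sin u * Real.sin u) := by ring
        rw [this, hs]; ring
    rw [intervalIntegral.integral_eq_sub_of_hasDerivAt hder]
    · simp [kerF]
    · apply Continuous.intervalIntegrable
      have := kerF_cont n
      fun_prop
  have hc := kerF_cont n
  have hi1 : IntervalIntegrable (fun u => Real.cos u * kerF n u) volume 0 (2 * π) := by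
    apply Continuous.intervalIntegrable; fun_prop
  have hi2 : IntervalIntegrable (fun u => (1 - Real.cos u) * kerF n u) volume 0 (2 * π) := by
    apply Continuous.intervalIntegrable; fun_prop
  rw [intervalIntegral.integral_sub hi1 (hi2.const_mul _), intervalIntegral.integral_const_mul] at hint
  have hI : kerI n = (∫ u in (0 : ℝ)..(2 * π), (1 - Real.cos u) * kerF n u)
      + ∫ u in (0 : ℝ)..(2 * π), Real.cos u * kerF n u := by
    unfold kerI
    rw [← intervalIntegral.integral_add hi2 hi1]
    congr 1; ext u; ring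
  rw [hI]; linarith

/-! ### The support function of a compact set -/

/-- The support function. -/
def suppF (W : Set ℂ) (β : ℝ) : ℝ := sSup ((fun w : ℂ => (eI (-β) * w).re) '' W)

section supp

variable {W : Set ℂ}

lemma cont_re_mul (β : ℝ) : Continuous (fun w : ℂ => (eI (-β) * w).re) := by fun_prop

lemma suppF_le (hW : IsCompact W) (β : ℝ) {w : ℂ} (hw : w ∈ W) : (eI (-β) * w).re ≤ suppF W β :=
  le_csSup (hW.image (cont_re_mul β)).bddAbove (mem_image_of_mem _ hw)

lemma exists_suppF (hW : IsCompact W) (hne : W.Nonempty) (β : ℝ) :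
    ∃ w ∈ W, (eI (-β) * w).re = suppF W β := by
  have := (hW.image (cont_re_mul β)).sSup_mem (hne.image _)
  obtain ⟨w, hw, h⟩ := this
  exact ⟨w, hw, h⟩

lemma eI_add_aux (a b : ℝ) : eI (a + b) = eI a * eI b := by
  simp only [eI]; push_cast; rw [← Complex.exp_add]; ring_nf

lemma eI_neg_add_conj (δ : ℝ) : eI (-δ) + eI δ = 2 * (Real.cos δ : ℂ) := by
  simp only [eI]
  push_cast
  rw [Complex.cos]
  have : Complex.exp (-(δ : ℂ) * I) = Complex.exp (-(δ : ℂ) * I) := rfl
  ring_nf

lemma suppF_sublin (hW : IsCompact W) (hne : W.Nonempty) (β δ : ℝ) :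
    2 * Real.cos δ * suppF W β ≤ suppF W (β + δ) + suppF W (β - δ) := by
  obtain ⟨w, hw, hβ⟩ := exists_suppF hW hne β
  have h1 := suppF_le hW (β + δ) hw
  have h2 := suppF_le hW (β - δ) hw
  have key : (eI (-(β + δ)) * w).re + (eI (-(β - δ)) * w).re = 2 * Real.cos δ * (eI (-β) * w).re := by
    have e1 : eI (-(β + δ)) = eI (-β) * eI (-δ) := by rw [← eI_add_aux]; congr 1; ring
    have e2 : eI (-(β - δ)) = eI (-β) * eI δ := by rw [← eI_add_aux]; congr 1; ring
    rw [e1, e2, ← Complex.add_re, ← add_mul, ← mul_add, mul_comm (eI (-β)) (eI (-δ) + eI δ),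
      eI_neg_add_conj]
    have : (2 * (Real.cos δ : ℂ) * eI (-β) * w) = ((2 * Real.cos δ : ℝ) : ℂ) * (eI (-β) * w) := by
      push_cast; ring
    rw [this, Complex.re_ofReal_mul]
  rw [← hβ]
  linarith

lemma eI_periodic (β : ℝ) : eI (β + 2 * π) = eI β := by
  simp only [eI]; push_cast
  rw [add_mul, Complex.exp_add, Complex.exp_two_pi_mul_I, mul_one]

lemma suppF_per (W : Set ℂ) : Function.Periodic (suppF W) (2 * π) := by
  intro β
  unfold suppF
  have : eI (-(β + 2 * π)) = eI (-β) := by
    have := eI_periodic (-(β + 2 * π))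
    rw [← this]; congr 1; ring
  rw [this]

lemma suppF_lip (hW : IsCompact W) (hne : W.Nonempty) {R : ℝ} (hR : ∀ w ∈ W, ‖w‖ ≤ R) (β β' : ℝ) :
    |suppF W β - suppF W β'| ≤ R * ‖eI (-β) - eI (-β')‖ := by
  have key : ∀ a b : ℝ, suppF W a - suppF W b ≤ R * ‖eI (-a) - eI (-b)‖ := by
    intro a b
    obtain ⟨w, hw, ha⟩ := exists_suppF hW hne a
    have h2 := suppF_le hW b hw
    have h3 : (eI (-a) * w).re - (eI (-b) * w).re ≤ ‖eI (-a) - eI (-b)‖ * ‖w‖ := by
      rw [← Complex.sub_re, ← sub_mul, ← norm_mul]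
      exact Complex.re_le_norm _
    have h4 : ‖eI (-a) - eI (-b)‖ * ‖w‖ ≤ R * ‖eI (-a) - eI (-b)‖ := by
      rw [mul_comm]; exact mul_le_mul_of_nonneg_right (hR w hw) (norm_nonneg _)
    linarith
  rw [abs_le]
  constructor
  · have := key β' β
    rw [norm_sub_rev] at this
    linarith
  · exact key β β'

lemma norm_eI_sub_one_sq (u : ℝ) : ‖eI u - 1‖ ^ 2 = 2 * (1 - Real.cos u) := by
  rw [← Complex.normSq_eq_norm_sq, Complex.normSq_apply]
  have hre : (eI u).re = Real.cos u := by simp [eI, Complex.exp_ofReal_mul_I_re]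
  have him : (eI u).im = Real.sin u := by simp [eI, Complex.exp_ofReal_mul_I_im]
  simp only [Complex.sub_re, Complex.sub_im, Complex.one_re, Complex.one_im, hre, him]
  have := Real.sin_sq_add_cos_sq u
  nlinarith

lemma norm_eI_sub (a b : ℝ) : ‖eI a - eI b‖ = ‖eI (a - b) - 1‖ := by
  have : eI a - eI b = eI b * (eI (a - b) - 1) := by
    rw [mul_sub, ← eI_add_aux, mul_one]; congr 2; ring
  rw [this, norm_mul]
  simp [eI, Complex.norm_exp_ofReal_mul_I]

lemma norm_eI_sub_one_le (u : ℝ) : ‖eI u - 1‖ ≤ |u| := by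
  have := Real.norm_exp_I_mul_ofReal_sub_one_le (x := u)
  simpa [eI, mul_comm] using this

lemma suppF_cont (hW : IsCompact W) (hne : W.Nonempty) : Continuous (suppF W) := by
  obtain ⟨R, hR⟩ := hW.isBounded.exists_norm_le
  have hR0 : 0 ≤ R := by
    obtain ⟨w, hw⟩ := hne
    exact (norm_nonneg w).trans (hR w hw)
  have : LipschitzWith (Real.toNNReal R) (suppF W) := by
    apply LipschitzWith.of_dist_le_mul
    intro a b
    rw [Real.dist_eq, Real.coe_toNNReal _ hR0, Real.dist_eq]
    refine (suppF_lip hW hne hR a b).trans ?_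
    apply mul_le_mul_of_nonneg_left _ hR0
    rw [norm_eI_sub]
    refine (norm_eI_sub_one_le _).trans (le_of_eq ?_)
    rw [show -a - -b = -(a - b) by ring, abs_neg]
  exact this.continuous

end supp

/-! ### Smoothing -/

/-- The smoothed support function. -/
def smoothF (W : Set ℂ) (n : ℕ) (β : ℝ) : ℝ :=
  (kerI n)⁻¹ * ∫ u in (0 : ℝ)..(2 * π), suppF W (β - u) * kerF n u

section smooth

variable {W : Set ℂ}

lemma intble_supp (hW : IsCompact W) (hne : W.Nonempty) (n : ℕ) (β : ℝ) :
    IntervalIntegrable (fun u => suppF W (β - u) * kerF n u) volume 0 (2 * π) := by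
  apply Continuous.intervalIntegrable
  have := suppF_cont hW hne
  have := kerF_cont n
  fun_prop

lemma smoothF_sublin (hW : IsCompact W) (hne : W.Nonempty) (n : ℕ) (β δ : ℝ) :
    2 * Real.cos δ * smoothF W n β ≤ smoothF W n (β + δ) + smoothF W n (β - δ) := by
  unfold smoothF
  have hI := (inv_pos.mpr (kerI_pos n))
  rw [← mul_add, mul_left_comm]
  apply mul_le_mul_of_nonneg_left _ hI.le
  rw [← intervalIntegral.integral_add (intble_supp hW hne n _) (intble_supp hW hne n _),
    ← intervalIntegral.integral_const_mul]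
  apply intervalIntegral.integral_mono_on (by positivity)
  · exact (intble_supp hW hne n _).const_mul _
  · exact (intble_supp hW hne n _).add (intble_supp hW hne n _)
  · intro u _
    have := suppF_sublin hW hne (β - u) δ
    have e1 : β - u + δ = β + δ - u := by ring
    have e2 : β - u - δ = β - δ - u := by ring
    rw [e1, e2] at this
    have h := mul_le_mul_of_nonneg_right this (kerF_nonneg n u)
    calc 2 * Real.cos δ * (suppF W (β - u) * kerF n u)
        = 2 * Real.cos δ * suppF W (β - u) * kerF n u := by ring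
      _ ≤ _ := h
      _ = _ := by ring

lemma smoothF_close (hW : IsCompact W) (hne : W.Nonempty) {R : ℝ} (hR : ∀ w ∈ W, ‖w‖ ≤ R)
    (n : ℕ) (β : ℝ) {η : ℝ} (hη : 0 < η) :
    |smoothF W n β - suppF W β| ≤ R * (η + 2 / (η * (n + 1))) := by
  have hR0 : 0 ≤ R := by
    obtain ⟨w, hw⟩ := hne
    exact (norm_nonneg w).trans (hR w hw)
  have hIpos := kerI_pos n
  have hker := kerF_cont n
  have hs := suppF_cont hW hne
  -- rewrite the difference as one integral
  have e : smoothF W n β - suppF W β
      = (kerI n)⁻¹ * ∫ u in (0 : ℝ)..(2 * π), (suppF W (β - u) - suppF W β) * kerF n u := by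
    have : ∫ u in (0 : ℝ)..(2 * π), (suppF W (β - u) - suppF W β) * kerF n u
        = (∫ u in (0 : ℝ)..(2 * π), suppF W (β - u) * kerF n u) - suppF W β * kerI n := by
      unfold kerI
      rw [← intervalIntegral.integral_const_mul, ← intervalIntegral.integral_sub]
      · congr 1; ext u; ring
      · exact intble_supp hW hne n β
      · exact (hker.intervalIntegrable _ _).const_mul _
    rw [this, mul_sub]
    unfold smoothF
    field_simp
  rw [e, abs_mul, abs_of_pos (inv_pos.mpr hIpos)]
  -- pointwise bound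
  have hpt : ∀ u : ℝ, |(suppF W (β - u) - suppF W β) * kerF n u|
      ≤ R * (η * kerF n u + (2 / η) * ((1 - Real.cos u) * kerF n u)) := by
    intro u
    rw [abs_mul, abs_of_nonneg (kerF_nonneg n u)]
    have h1 := suppF_lip hW hne hR (β - u) β
    have h2 : ‖eI (-(β - u)) - eI (-β)‖ = ‖eI u - 1‖ := by
      rw [norm_eI_sub]; congr 3; ring
    rw [h2] at h1
    have ht : ‖eI u - 1‖ ≤ η + (2 / η) * (1 - Real.cos u) := by
      have h3 := norm_eI_sub_one_sq u
      set t := ‖eI u - 1‖
      have : (2 / η) * (1 - Real.cos u) = t ^ 2 / η := by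
        rw [h3]; field_simp
      rw [this]
      have : t = (t * η) / η := by field_simp
      have h4 : t * η ≤ η * η + t ^ 2 := by nlinarith [sq_nonneg (t - η), sq_nonneg t, sq_nonneg η]
      rw [show η + t ^ 2 / η = (η * η + t ^ 2) / η by field_simp, le_div_iff₀ hη]
      exact h4
    have hk := kerF_nonneg n u
    calc |suppF W (β - u) - suppF W β| * kerF n u
        ≤ (R * ‖eI u - 1‖) * kerF n u := mul_le_mul_of_nonneg_right h1 hk
      _ ≤ (R * (η + (2 / η) * (1 - Real.cos u))) * kerF n u := by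
          apply mul_le_mul_of_nonneg_right _ hk
          exact mul_le_mul_of_nonneg_left ht hR0
      _ = _ := by ring
  have hJ := kerJ_eq n
  set J := ∫ u in (0 : ℝ)..(2 * π), (1 - Real.cos u) * kerF n u with hJdef
  have hiJ : IntervalIntegrable (fun u => (1 - Real.cos u) * kerF n u) volume 0 (2 * π) := by
    apply Continuous.intervalIntegrable; fun_prop
  have hiI : IntervalIntegrable (kerF n) volume 0 (2 * π) := hker.intervalIntegrable _ _
  have hint : |∫ u in (0 : ℝ)..(2 * π), (suppF W (β - u) - suppF W β) * kerF n u|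
      ≤ R * (η * kerI n + (2 / η) * J) := by
    have h1 := intervalIntegral.abs_integral_le_integral_abs (μ := volume) (a := 0) (b := 2 * π)
      (f := fun u => (suppF W (β - u) - suppF W β) * kerF n u) (by positivity)
    refine h1.trans ?_
    have hc : Continuous fun u => |(suppF W (β - u) - suppF W β) * kerF n u| := by fun_prop
    have h2 : ∫ u in (0 : ℝ)..(2 * π), |(suppF W (β - u) - suppF W β) * kerF n u|
        ≤ ∫ u in (0 : ℝ)..(2 * π), R * (η * kerF n u + (2 / η) * ((1 - Real.cos u) * kerF n u)) := by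
      apply intervalIntegral.integral_mono_on (by positivity) (hc.intervalIntegrable _ _)
      · apply Continuous.intervalIntegrable; fun_prop
      · intro u _; exact hpt u
    refine h2.trans (le_of_eq ?_)
    rw [intervalIntegral.integral_const_mul, intervalIntegral.integral_add
      (hiI.const_mul _) (hiJ.const_mul _), intervalIntegral.integral_const_mul,
      intervalIntegral.integral_const_mul]
    rfl
  have hJ' : J = kerI n / (n + 1) := by
    rw [← hJ]; field_simp
  calc (kerI n)⁻¹ * |∫ u in (0 : ℝ)..(2 * π), (suppF W (β - u) - suppF W β) * kerF n u|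
      ≤ (kerI n)⁻¹ * (R * (η * kerI n + (2 / η) * J)) :=
        mul_le_mul_of_nonneg_left hint (inv_pos.mpr hIpos).le
    _ = R * (η + 2 / (η * (n + 1))) := by
        rw [hJ']
        have : (n : ℝ) + 1 ≠ 0 := by positivity
        field_simp

end smooth

end Crest.Agent.Crouzeix
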