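/-
WP: basic geometry of `SCurve` and the double layer kernel. Paper proof in comments.
-/
import Crest.Agent.Crouzeix.Defs

set_option autoImplicit false

open Complex MeasureTheory Set Filter Topology
open scoped Real ComplexConjugate InnerProductSpace

noncomputable section

namespace Crest.Agent.Crouzeix

lemma eI_add (a b : ℝ) : eI (a + b) = eI a * eI b := by
  simp only [eI]; push_cast; rw [add_mul, Complex.exp_add]

lemma eI_zero : eI 0 = 1 := by simp [eI]

lemma eI_neg_mul_self (a : ℝ) : eI (-a) * eI a = 1 := by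
  rw [← eI_add]; simp [eI]

lemma eI_per (β : ℝ) : eI (β + 2 * π) = eI β := by
  rw [eI_add]
  have : eI (2 * π) = 1 := by
    simp only [eI]; push_cast; exact Complex.exp_two_pi_mul_I
  rw [this, mul_one]

lemma norm_eI (β : ℝ) : ‖eI β‖ = 1 := by
  exact Complex.norm_exp_ofReal_mul_I β

lemma eI_ne_zero (β : ℝ) : eI β ≠ 0 := Complex.exp_ne_zero _

lemma hasDerivAt_eI (β : ℝ) : HasDerivAt (fun x : ℝ => eI x) (I * eI β) β := by
  have h1 : HasDerivAt (fun x : ℝ => (x : ℂ) * I) I β := by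
    simpa using (Complex.ofRealCLM.hasDerivAt (x := β)).mul_const I
  have := h1.cexp
  simpa [eI, mul_comm] using this

lemma continuous_eI : Continuous (fun x : ℝ => eI x) := by
  unfold eI; fun_prop

lemma eI_re (β : ℝ) : (eI β).re = Real.cos β := by
  simp [eI, Complex.exp_ofReal_mul_I_re]

lemma eI_im (β : ℝ) : (eI β).im = Real.sin β := by
  simp [eI, Complex.exp_ofReal_mul_I_im]

/-- `e^{iβ} - e^{iβ₀} = i e^{im} 2 sin((β-β₀)/2)`, `m = (β+β₀)/2`. -/
lemma eI_sub_eI (β β₀ : ℝ) :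
    eI β - eI β₀ = I * eI ((β + β₀) / 2) * ((2 * Real.sin ((β - β₀) / 2) : ℝ) : ℂ) := by
  have h1 : eI β = eI ((β + β₀) / 2) * eI ((β - β₀) / 2) := by
    rw [← eI_add]; congr 1; ring
  have h2 : eI β₀ = eI ((β + β₀) / 2) * eI (-((β - β₀) / 2)) := by
    rw [← eI_add]; congr 1; ring
  have h3 : ∀ d : ℝ, eI d - eI (-d) = I * ((2 * Real.sin d : ℝ) : ℂ) := by
    intro d
    apply Complex.ext
    · simp only [Complex.sub_re, eI_re, Complex.mul_re, I_re, I_im, ofReal_re, ofReal_im]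
      rw [Real.cos_neg]; ring
    · simp only [Complex.sub_im, eI_im, Complex.mul_im, I_re, I_im, ofReal_re, ofReal_im]
      rw [Real.sin_neg]; ring
  rw [h1, h2]
  rw [show eI ((β + β₀) / 2) * eI ((β - β₀) / 2) - eI ((β + β₀) / 2) * eI (-((β - β₀) / 2))
    = eI ((β + β₀) / 2) * (eI ((β - β₀) / 2) - eI (-((β - β₀) / 2))) by ring, h3]
  ring

/-- `e^{iβ} = e^{iβ₀}` fails for `0 < |β-β₀| ≤ π`. -/
lemma eI_sub_ne_zero {β β₀ : ℝ} (h1 : 0 < β - β₀) (h2 : β - β₀ ≤ π) : eI β - eI β₀ ≠ 0 := by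
  rw [eI_sub_eI]
  have hs : 0 < Real.sin ((β - β₀) / 2) :=
    Real.sin_pos_of_pos_of_lt_pi (by linarith) (by linarith [Real.pi_pos])
  have : ((2 * Real.sin ((β - β₀) / 2) : ℝ) : ℂ) ≠ 0 := by
    exact_mod_cast (by positivity : (2 * Real.sin ((β - β₀) / 2) : ℝ) ≠ 0)
  exact mul_ne_zero (mul_ne_zero I_ne_zero (eI_ne_zero _)) this

/-- Continuous doubly periodic functions are bounded. -/
lemma exists_bound_of_per₂ {E : Type*} [NormedAddCommGroup E] {f : ℝ → ℝ → E}
    (hf : Continuous (Function.uncurry f))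
    (h1 : ∀ x y, f (x + 2 * π) y = f x y) (h2 : ∀ x y, f x (y + 2 * π) = f x y) :
    ∃ D : ℝ, 0 ≤ D ∧ ∀ x y, ‖f x y‖ ≤ D := by
  have hcomp : IsCompact (Icc (0 : ℝ) (2 * π) ×ˢ Icc (0 : ℝ) (2 * π)) := isCompact_Icc.prod isCompact_Icc
  obtain ⟨D, hD⟩ := hcomp.exists_bound_of_continuousOn (f := Function.uncurry f) hf.continuousOn
  have hpos : (0 : ℝ) < 2 * π := by positivity
  have h1' : ∀ y, Function.Periodic (fun x => f x y) (2 * π) := fun y x => h1 x y
  have h2' : ∀ x, Function.Periodic (f x) (2 * π) := fun x y => h2 x y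
  refine ⟨max D 0, le_max_right _ _, fun x y => ?_⟩
  obtain ⟨x', hx', hxx⟩ := (h1' y).exists_mem_Ico₀ hpos x
  obtain ⟨y', hy', hyy⟩ := (h2' x').exists_mem_Ico₀ hpos y
  have : f x y = f x' y' := by
    have e1 : f x y = f x' y := hxx
    have e2 : f x' y = f x' y' := hyy
    rw [e1, e2]
  rw [this]
  exact (hD (x', y') ⟨⟨hx'.1, hx'.2.le⟩, ⟨hy'.1, hy'.2.le⟩⟩).trans (le_max_left _ _)

namespace SCurve

variable (C : SCurve)

lemma cont_h : Continuous C.h :=
  continuous_iff_continuousAt.2 fun β => (C.hasDeriv_h β).continuousAt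

lemma cont_dh : Continuous C.dh :=
  continuous_iff_continuousAt.2 fun β => (C.hasDeriv_dh β).continuousAt

lemma hasDeriv_σ (β : ℝ) : HasDerivAt C.σ (C.dσ β) β := by
  have h1 : HasDerivAt (fun x : ℝ => ((C.h x : ℂ) + (C.dh x : ℂ) * I))
      ((C.dh β : ℂ) + ((C.ρ β - C.h β : ℝ) : ℂ) * I) β := by
    exact (C.hasDeriv_h β).ofReal_comp.add ((C.hasDeriv_dh β).ofReal_comp.mul_const I)
  have h2 : HasDerivAt C.σ (I * eI β * ((C.h β : ℂ) + (C.dh β : ℂ) * I) +
      eI β * ((C.dh β : ℂ) + ((C.ρ β - C.h β : ℝ) : ℂ) * I)) β := (hasDerivAt_eI β).mul h1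
  convert h2 using 1
  simp only [dσ]
  push_cast
  have hI : I * I = -1 := Complex.I_mul_I
  linear_combination (-(eI β * (C.dh β : ℂ))) * hI

lemma per_σ : Function.Periodic C.σ (2 * π) := by
  intro β
  simp only [σ, eI_per, C.per_h β, C.per_dh β]

lemma cont_σ : Continuous C.σ :=
  continuous_iff_continuousAt.2 fun β => (C.hasDeriv_σ β).continuousAt

lemma cont_dσ : Continuous C.dσ := by
  have := C.cont_ρ
  have h2 := continuous_eI
  unfold dσ
  fun_prop

lemma per_dσ : Function.Periodic C.dσ (2 * π) := by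
  intro β
  simp only [dσ, eI_per, C.per_ρ β]

lemma re_σ (β : ℝ) : (eI (-β) * C.σ β).re = C.h β := by
  simp only [σ]
  rw [← mul_assoc, eI_neg_mul_self, one_mul]
  simp

/-- Bounds on `ρ`. -/
lemma exists_ρ_bounds : ∃ a b : ℝ, 0 < a ∧ ∀ β, a ≤ C.ρ β ∧ C.ρ β ≤ b := by
  have hpos : (0 : ℝ) < 2 * π := by positivity
  have hcomp : IsCompact (Icc (0 : ℝ) (2 * π)) := isCompact_Icc
  have hne : (Icc (0 : ℝ) (2 * π)).Nonempty := ⟨0, le_rfl, hpos.le⟩
  obtain ⟨x, hx, hmin⟩ := hcomp.exists_isMinOn hne C.cont_ρ.continuousOn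
  obtain ⟨y, hy, hmax⟩ := hcomp.exists_isMaxOn hne C.cont_ρ.continuousOn
  refine ⟨C.ρ x, C.ρ y, C.ρ_pos x, fun β => ?_⟩
  obtain ⟨β', hβ', hββ⟩ := C.per_ρ.exists_mem_Ico₀ hpos β
  rw [hββ]
  exact ⟨hmin ⟨hβ'.1, hβ'.2.le⟩, hmax ⟨hβ'.1, hβ'.2.le⟩⟩

/-- Gap lower bound. By periodicity reduce to `|β₀-β| ≤ π`; with `β` fixed,
`ψ(b) = h(β) - Re(e^{-iβ} σ(b)) - a (1 - cos (b-β))` has `ψ(β) = 0`, `ψ'(b) = sin(b-β) (ρ(b)-a)`. -/
lemma gap_lower {a : ℝ} (ha : ∀ β, a ≤ C.ρ β) (hapos : 0 < a) (β β₀ : ℝ) :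
    a * (1 - Real.cos (β - β₀)) ≤ C.h β - (eI (-β) * C.σ β₀).re := by
  set ψ : ℝ → ℝ := fun b => C.h β - (eI (-β) * C.σ b).re - a * (1 - Real.cos (b - β)) with hψ
  have hψ0 : ψ β = 0 := by
    simp only [hψ]; rw [C.re_σ]; simp
  have hder : ∀ b, HasDerivAt ψ (Real.sin (b - β) * (C.ρ b - a)) b := by
    intro b
    have h1 : HasDerivAt (fun b => (eI (-β) * C.σ b).re) ((eI (-β) * C.dσ b).re) b := by
      have := ((C.hasDeriv_σ b).const_mul (eI (-β)))
      exact (Complex.reCLM.hasFDerivAt.comp_hasDerivAt b this)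
    have h2 : HasDerivAt (fun b => a * (1 - Real.cos (b - β))) (a * Real.sin (b - β)) b := by
      have h3 : HasDerivAt (fun b : ℝ => Real.cos (b - β)) (-Real.sin (b - β) * 1) b :=
        ((hasDerivAt_id' b).sub_const β).cos
      have := (h3.const_sub 1).const_mul a
      simpa using this
    have h4 : HasDerivAt ψ (-(eI (-β) * C.dσ b).re - a * Real.sin (b - β)) b :=
      ((h1.const_sub (C.h β)).sub h2)
    convert h4 using 1
    have h5 : (eI (-β) * C.dσ b).re = - Real.sin (b - β) * C.ρ b := by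
      have : eI (-β) * C.dσ b = I * eI (b - β) * (C.ρ b : ℂ) := by
        simp only [dσ]
        rw [show b - β = -β + b by ring, eI_add]; ring
      rw [this]
      simp [eI_re, eI_im]
    rw [h5]; ring
  have hper : Function.Periodic ψ (2 * π) := by
    intro b
    simp only [hψ, C.per_σ b]
    rw [show b + 2 * π - β = (b - β) + 2 * π by ring, Real.cos_add_two_pi]
  -- reduce to the fundamental domain
  have hmain : ∀ b ∈ Icc (β - π) (β + π), 0 ≤ ψ b := by
    intro b hb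
    rcases le_total β b with hbb | hbb
    · -- monotone on [β, β + π]
      have hmono : MonotoneOn ψ (Icc β (β + π)) := by
        apply monotoneOn_of_deriv_nonneg (convex_Icc _ _)
        · exact (continuous_iff_continuousAt.2 fun x => (hder x).continuousAt).continuousOn
        · exact fun x _ => (hder x).differentiableAt.differentiableWithinAt
        · intro x hx
          rw [interior_Icc] at hx
          rw [(hder x).deriv]
          exact mul_nonneg (Real.sin_nonneg_of_nonneg_of_le_pi (by linarith [hx.1]) (by linarith [hx.2]))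
            (by linarith [ha x])
      have := hmono ⟨le_rfl, by linarith [Real.pi_pos]⟩ ⟨hbb, hb.2⟩ hbb
      rwa [hψ0] at this
    · have hanti : AntitoneOn ψ (Icc (β - π) β) := by
        apply antitoneOn_of_deriv_nonpos (convex_Icc _ _)
        · exact (continuous_iff_continuousAt.2 fun x => (hder x).continuousAt).continuousOn
        · exact fun x _ => (hder x).differentiableAt.differentiableWithinAt
        · intro x hx
          rw [interior_Icc] at hx
          rw [(hder x).deriv]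
          apply mul_nonpos_of_nonpos_of_nonneg
          · have := Real.sin_nonneg_of_nonneg_of_le_pi (x := β - x) (by linarith [hx.2]) (by linarith [hx.1])
            rw [show β - x = -(x - β) by ring, Real.sin_neg] at this
            linarith
          · linarith [ha x]
      have := hanti ⟨hb.1, hbb⟩ ⟨by linarith [Real.pi_pos], le_rfl⟩ hbb
      rwa [hψ0] at this
  have hpos : (0 : ℝ) < 2 * π := by positivity
  obtain ⟨b, hb, hbb⟩ := hper.exists_mem_Ico hpos β₀ (β - π)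
  have hb' : b ∈ Icc (β - π) (β + π) := ⟨hb.1, by have := hb.2; linarith⟩
  have := hmain b hb'
  rw [← hbb] at this
  simp only [hψ] at this
  rw [show β₀ - β = -(β - β₀) by ring, Real.cos_neg] at this
  linarith

/-- The support property: the curve lies in each of its supporting half-planes. -/
lemma support (β β₀ : ℝ) : (eI (-β) * C.σ β₀).re ≤ C.h β := by
  obtain ⟨a, b, ha, hab⟩ := C.exists_ρ_bounds
  have := C.gap_lower (fun β => (hab β).1) ha β β₀
  have h2 : 0 ≤ a * (1 - Real.cos (β - β₀)) :=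
    mul_nonneg ha.le (by linarith [Real.cos_le_one (β - β₀)])
  linarith

lemma σ_sub_σ (β β₀ : ℝ) : C.σ β - C.σ β₀ = (eI β - eI β₀) * C.dd β β₀ := C.eq_dd β β₀

lemma dd_symm_of_ne {β β₀ : ℝ} (hne : eI β - eI β₀ ≠ 0) : C.dd β₀ β = C.dd β β₀ := by
  have h1 := C.σ_sub_σ β β₀
  have h2 := C.σ_sub_σ β₀ β
  apply mul_left_cancel₀ hne
  linear_combination h1 + h2

lemma cont_dd : Continuous (Function.uncurry C.dd) := C.smooth_dd.continuous

lemma re_dd_lower_aux {a : ℝ} (ha : ∀ β, a ≤ C.ρ β) {β β₀ : ℝ} (h1 : 0 < β - β₀) (h2 : β - β₀ ≤ π) :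
    a ≤ (C.dd β β₀).re := by
  set m : ℝ := (β + β₀) / 2 with hm
  set Δ : ℝ := (β - β₀) / 2 with hΔ
  have hsin : 0 < Real.sin Δ := Real.sin_pos_of_pos_of_lt_pi (by positivity)
    (by rw [hΔ]; linarith [Real.pi_pos])
  -- the monotone function
  set G : ℝ → ℝ := fun α => (C.σ α * (-I * eI (-m))).re - a * Real.sin (α - m) with hG
  have hder : ∀ α, HasDerivAt G (Real.cos (α - m) * (C.ρ α - a)) α := by
    intro α
    have h3 : HasDerivAt (fun b => (C.σ b * (-I * eI (-m))).re) ((C.dσ α * (-I * eI (-m))).re) α :=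
      Complex.reCLM.hasFDerivAt.comp_hasDerivAt α ((C.hasDeriv_σ α).mul_const _)
    have h4 : HasDerivAt (fun b : ℝ => a * Real.sin (b - m)) (a * (Real.cos (α - m) * 1)) α :=
      ((hasDerivAt_id' α).sub_const m).sin.const_mul a
    have h6 : HasDerivAt G ((C.dσ α * (-I * eI (-m))).re - a * (Real.cos (α - m) * 1)) α := h3.sub h4
    convert h6 using 1
    have h5 : (C.dσ α * (-I * eI (-m))).re = Real.cos (α - m) * C.ρ α := by
      have : C.dσ α * (-I * eI (-m)) = eI (α - m) * (C.ρ α : ℂ) := by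
        simp only [dσ]
        rw [show α - m = α + -m by ring, eI_add]
        have hI : I * I = -1 := Complex.I_mul_I
        linear_combination (-(eI α * eI (-m) * (C.ρ α : ℂ))) * hI
      rw [this]
      simp [eI_re]
    rw [h5]; ring
  have hmono : MonotoneOn G (Icc β₀ β) := by
    apply monotoneOn_of_deriv_nonneg (convex_Icc _ _)
    · exact (continuous_iff_continuousAt.2 fun x => (hder x).continuousAt).continuousOn
    · exact fun x _ => (hder x).differentiableAt.differentiableWithinAt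
    · intro x hx
      rw [interior_Icc] at hx
      rw [(hder x).deriv]
      apply mul_nonneg
      · apply Real.cos_nonneg_of_mem_Icc
        constructor
        · rw [hm]; linarith [hx.1]
        · rw [hm]; linarith [hx.2]
      · linarith [ha x]
  have hle := hmono ⟨le_rfl, by linarith⟩ ⟨by linarith, le_rfl⟩ (by linarith : β₀ ≤ β)
  simp only [hG] at hle
  have hβ : β - m = Δ := by rw [hm, hΔ]; ring
  have hβ₀ : β₀ - m = -Δ := by rw [hm, hΔ]; ring
  rw [hβ, hβ₀, Real.sin_neg] at hle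
  -- `T = i e^{im} 2 sin Δ · dd`
  have hT : (C.σ β - C.σ β₀) * (-I * eI (-m)) = ((2 * Real.sin Δ : ℝ) : ℂ) * C.dd β β₀ := by
    rw [C.σ_sub_σ, eI_sub_eI, ← hm, ← hΔ]
    have hI : I * I = -1 := Complex.I_mul_I
    have he : eI (-m) * eI m = 1 := eI_neg_mul_self m
    linear_combination (-(eI m * eI (-m)) * ((2 * Real.sin Δ : ℝ) : ℂ) * C.dd β β₀) * hI
      + (((2 * Real.sin Δ : ℝ) : ℂ) * C.dd β β₀) * he
  have hre : ((C.σ β - C.σ β₀) * (-I * eI (-m))).re = 2 * Real.sin Δ * (C.dd β β₀).re := by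
    rw [hT, Complex.re_ofReal_mul]
  have hsub : ((C.σ β - C.σ β₀) * (-I * eI (-m))).re
      = (C.σ β * (-I * eI (-m))).re - (C.σ β₀ * (-I * eI (-m))).re := by
    rw [sub_mul, Complex.sub_re]
  have hfin : 2 * Real.sin Δ * a ≤ 2 * Real.sin Δ * (C.dd β β₀).re := by
    rw [← hre, hsub]; linarith
  exact le_of_mul_le_mul_left hfin (by positivity)

/-- `Re dd ≥ ρmin`. -/
lemma re_dd_lower {a : ℝ} (ha : ∀ β, a ≤ C.ρ β) (β β₀ : ℝ) :
    a ≤ (C.dd β β₀).re := by
  have hpos : (0 : ℝ) < 2 * π := by positivity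
  have hper : Function.Periodic (fun b => C.dd b β₀) (2 * π) := fun b => C.per_dd_left b β₀
  obtain ⟨b, hb, hbb⟩ := hper.exists_mem_Ico hpos β (β₀ - π)
  have hbb' : C.dd β β₀ = C.dd b β₀ := hbb
  rw [hbb']
  have hI : b < β₀ + π := by have := hb.2; linarith
  have hJ : β₀ - π ≤ b := hb.1
  rcases lt_trichotomy b β₀ with hlt | heq | hgt
  · have h1 : 0 < β₀ - b := by linarith
    have h2 : β₀ - b ≤ π := by linarith
    have := C.re_dd_lower_aux ha h1 h2
    rw [C.dd_symm_of_ne (eI_sub_ne_zero h1 h2)]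
    exact this
  · -- limit from the right
    subst heq
    have hcont : ContinuousAt (fun x : ℝ => (C.dd x b).re) b := by
      have : Continuous (fun x : ℝ => (C.dd x b).re) :=
        Complex.continuous_re.comp (C.cont_dd.comp (Continuous.prodMk continuous_id continuous_const))
      exact this.continuousAt
    have hlim : Tendsto (fun x : ℝ => (C.dd x b).re) (𝓝[>] b) (𝓝 (C.dd b b).re) :=
      hcont.tendsto.mono_left nhdsWithin_le_nhds
    refine ge_of_tendsto hlim ?_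
    filter_upwards [Ioo_mem_nhdsGT (by linarith [Real.pi_pos] : b < b + π)] with x hx
    exact C.re_dd_lower_aux ha (by linarith [hx.1]) (by linarith [hx.2])
  · exact C.re_dd_lower_aux ha (by linarith) (by linarith)

/-- Chord bound. -/
lemma chord_lower {a : ℝ} (ha : ∀ β, a ≤ C.ρ β) (hapos : 0 < a) (β β₀ : ℝ) :
    a * ‖eI β - eI β₀‖ ≤ ‖C.σ β - C.σ β₀‖ := by
  rw [C.σ_sub_σ, norm_mul, mul_comm]
  refine mul_le_mul_of_nonneg_left ?_ (norm_nonneg _)
  exact (C.re_dd_lower ha β β₀).trans (Complex.re_le_norm _)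

/-- `dd` takes values in the right half plane. -/
lemma dd_re_pos (β β₀ : ℝ) : 0 < (C.dd β β₀).re := by
  obtain ⟨a, b, ha, hab⟩ := C.exists_ρ_bounds
  exact ha.trans_le (C.re_dd_lower (fun β => (hab β).1) β β₀)

/-- `dd` never vanishes. -/
lemma dd_ne_zero (β β₀ : ℝ) : C.dd β β₀ ≠ 0 := by
  intro h
  have := C.dd_re_pos β β₀
  rw [h] at this
  simp at this

lemma differentiableAt_dd (p : ℝ × ℝ) : DifferentiableAt ℝ (Function.uncurry C.dd) p :=
  (C.smooth_dd.differentiable (by norm_num)).differentiableAt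

lemma dd₁_eq (β β₀ : ℝ) :
    C.dd₁ β β₀ = fderiv ℝ (Function.uncurry C.dd) (β, β₀) (1, 0) := by
  have h1 : HasDerivAt (fun b : ℝ => (b, β₀)) ((1 : ℝ), (0 : ℝ)) β :=
    (hasDerivAt_id β).prodMk (hasDerivAt_const β β₀)
  have h2 := (C.differentiableAt_dd (β, β₀)).hasFDerivAt.comp_hasDerivAt β h1
  exact h2.deriv

lemma hasDeriv_dd (β β₀ : ℝ) : HasDerivAt (fun b => C.dd b β₀) (C.dd₁ β β₀) β := by
  rw [C.dd₁_eq]
  have h1 : HasDerivAt (fun b : ℝ => (b, β₀)) ((1 : ℝ), (0 : ℝ)) β :=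
    (hasDerivAt_id β).prodMk (hasDerivAt_const β β₀)
  exact (C.differentiableAt_dd (β, β₀)).hasFDerivAt.comp_hasDerivAt β h1

lemma contDiff_dd₁ : ContDiff ℝ 1 (Function.uncurry C.dd₁) := by
  have h : Function.uncurry C.dd₁ = fun p : ℝ × ℝ => fderiv ℝ (Function.uncurry C.dd) p (1, 0) := by
    funext p
    obtain ⟨a, b⟩ := p
    exact C.dd₁_eq a b
  rw [h]
  exact (C.smooth_dd.fderiv_right (m := 1) (by norm_num)).clm_apply contDiff_const

lemma cont_dd₁ : Continuous (Function.uncurry C.dd₁) := C.contDiff_dd₁.continuous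

/-- `Q = ∂_β dd / dd`. -/
def Qq (β β₀ : ℝ) : ℂ := C.dd₁ β β₀ / C.dd β β₀

lemma contDiff_Qq : ContDiff ℝ 1 (Function.uncurry C.Qq) := by
  have h2 : ContDiff ℝ 1 (Function.uncurry C.dd) := C.smooth_dd.of_le (by norm_num)
  have : Function.uncurry C.Qq = fun p : ℝ × ℝ => Function.uncurry C.dd₁ p * (Function.uncurry C.dd p)⁻¹ := by
    funext p
    simp [Function.uncurry, Qq, div_eq_mul_inv]
  rw [this]
  exact C.contDiff_dd₁.mul (h2.inv (fun p : ℝ × ℝ => C.dd_ne_zero p.1 p.2))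

lemma cont_Qq : Continuous (Function.uncurry C.Qq) := C.contDiff_Qq.continuous

lemma per_dd₁_left (β β₀ : ℝ) : C.dd₁ (β + 2 * π) β₀ = C.dd₁ β β₀ := by
  have h1 := C.hasDeriv_dd (β + 2 * π) β₀
  have h2 : HasDerivAt (fun b => C.dd (b + 2 * π) β₀) (C.dd₁ (β + 2 * π) β₀) β :=
    HasDerivAt.comp_add_const β (2 * π) h1
  have h3 : (fun b => C.dd (b + 2 * π) β₀) = fun b => C.dd b β₀ := by
    funext b; exact C.per_dd_left b β₀
  rw [h3] at h2
  exact h2.unique (C.hasDeriv_dd β β₀)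

lemma per_dd₁_right (β β₀ : ℝ) : C.dd₁ β (β₀ + 2 * π) = C.dd₁ β β₀ := by
  have h3 : (fun b => C.dd b (β₀ + 2 * π)) = fun b => C.dd b β₀ := by
    funext b; exact C.per_dd_right b β₀
  have h1 := C.hasDeriv_dd β (β₀ + 2 * π)
  rw [h3] at h1
  exact h1.unique (C.hasDeriv_dd β β₀)

lemma per_Qq_left (β β₀ : ℝ) : C.Qq (β + 2 * π) β₀ = C.Qq β β₀ := by
  simp only [Qq, per_dd₁_left, per_dd_left]

lemma per_Qq_right (β β₀ : ℝ) : C.Qq β (β₀ + 2 * π) = C.Qq β β₀ := by
  simp only [Qq, per_dd₁_right, per_dd_right]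

lemma k_eq_Qq (β₀ β : ℝ) : C.k β₀ β = π⁻¹ * (1 / 2 + (C.Qq β β₀).im) := rfl

lemma cont_k : Continuous (Function.uncurry C.k) := by
  have h : Continuous (fun p : ℝ × ℝ => C.Qq p.2 p.1) := C.cont_Qq.comp continuous_swap
  have : Function.uncurry C.k = fun p : ℝ × ℝ => π⁻¹ * (1 / 2 + (C.Qq p.2 p.1).im) := rfl
  rw [this]
  have := Complex.continuous_im.comp h
  simp only [Function.comp_def] at this
  fun_prop

lemma per_k₁ (β₀ β : ℝ) : C.k (β₀ + 2 * π) β = C.k β₀ β := by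
  simp only [k_eq_Qq, per_Qq_right]

lemma per_k₂ (β₀ β : ℝ) : C.k β₀ (β + 2 * π) = C.k β₀ β := by
  simp only [k_eq_Qq, per_Qq_left]

/-- `σ' = i ζ dd + (ζ - ζ₀) ∂_β dd`. -/
lemma dσ_eq (β β₀ : ℝ) : C.dσ β = I * eI β * C.dd β β₀ + (eI β - eI β₀) * C.dd₁ β β₀ := by
  have h1 : HasDerivAt (fun b => C.σ b - C.σ β₀) (C.dσ β) β := (C.hasDeriv_σ β).sub_const _
  have h2 : HasDerivAt (fun b => (eI b - eI β₀) * C.dd b β₀)
      (I * eI β * C.dd β β₀ + (eI β - eI β₀) * C.dd₁ β β₀) β :=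
    ((hasDerivAt_eI β).sub_const _).mul (C.hasDeriv_dd β β₀)
  have h3 : (fun b => C.σ b - C.σ β₀) = fun b => (eI b - eI β₀) * C.dd b β₀ := by
    funext b; exact C.σ_sub_σ b β₀
  rw [h3] at h1
  exact h1.unique h2

/-- `Re (ζ / (ζ - ζ₀)) = 1/2`. -/
lemma re_eI_div (β β₀ : ℝ) (hne : eI β - eI β₀ ≠ 0) : (eI β / (eI β - eI β₀)).re = 1 / 2 := by
  have hs : Real.sin ((β - β₀) / 2) ≠ 0 := by
    intro h
    apply hne
    rw [eI_sub_eI, h]; simp
  have h1 : eI β = eI ((β + β₀) / 2) * eI ((β - β₀) / 2) := by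
    rw [← eI_add]; congr 1; ring
  have hne2 : eI ((β + β₀) / 2) ≠ 0 := eI_ne_zero _
  have : eI β / (eI β - eI β₀) = eI ((β - β₀) / 2) / (I * ((2 * Real.sin ((β - β₀) / 2) : ℝ) : ℂ)) := by
    rw [eI_sub_eI, h1]
    have : I * ((2 * Real.sin ((β - β₀) / 2) : ℝ) : ℂ) ≠ 0 := by
      apply mul_ne_zero I_ne_zero
      exact_mod_cast mul_ne_zero two_ne_zero hs
    have hh : I * eI ((β + β₀) / 2) * ((2 * Real.sin ((β - β₀) / 2) : ℝ) : ℂ)
        = eI ((β + β₀) / 2) * (I * ((2 * Real.sin ((β - β₀) / 2) : ℝ) : ℂ)) := by ring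
    rw [hh, mul_div_mul_left _ _ hne2]
  rw [this]
  have h2 : ∀ (z : ℂ) (s : ℝ), s ≠ 0 → (z / (I * (s : ℂ))).re = z.im / s := by
    intro z s hs
    have : z / (I * (s : ℂ)) = -I * z / (s : ℂ) := by
      have hs' : (s : ℂ) ≠ 0 := by exact_mod_cast hs
      field_simp
      rw [Complex.I_sq]; ring
    rw [this, Complex.div_ofReal_re]
    simp
  rw [h2 _ _ (mul_ne_zero two_ne_zero hs), eI_im]
  field_simp

/-- Off the diagonal `k` is the double layer kernel. -/
lemma k_eq {β₀ β : ℝ} (hne : eI β - eI β₀ ≠ 0) :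
    C.k β₀ β = π⁻¹ * (C.dσ β / (C.σ β - C.σ β₀)).im := by
  have hdd := C.dd_ne_zero β β₀
  have h1 : C.dσ β / (C.σ β - C.σ β₀) = I * (eI β / (eI β - eI β₀)) + C.Qq β β₀ := by
    rw [C.σ_sub_σ, C.dσ_eq β β₀, Qq]
    field_simp
  rw [h1, Complex.add_im, Complex.I_mul_im, k_eq_Qq, re_eI_div β β₀ hne]

/-- `k = (1/π) ρ(β) gap / |T|²` off the diagonal. -/
lemma k_eq_gap {β₀ β : ℝ} (hne : eI β - eI β₀ ≠ 0) :
    C.k β₀ β = π⁻¹ * (C.ρ β * (C.h β - (eI (-β) * C.σ β₀).re) / ‖C.σ β - C.σ β₀‖ ^ 2) := by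
  rw [C.k_eq hne]
  congr 1
  set T := C.σ β - C.σ β₀ with hT
  have hTne : T ≠ 0 := by
    rw [hT, C.σ_sub_σ]
    exact mul_ne_zero hne (C.dd_ne_zero _ _)
  have hnorm : (‖T‖ ^ 2 : ℝ) ≠ 0 := by positivity
  have hgap : C.h β - (eI (-β) * C.σ β₀).re = (eI (-β) * T).re := by
    rw [hT, mul_sub, Complex.sub_re, C.re_σ]
  rw [hgap]
  -- `dσ / T = i ρ e^{iβ} conj T / |T|²`, `Re (e^{iβ} conj T) = Re (e^{-iβ} T)`.
  have h3 : C.dσ β / T = I * (C.ρ β : ℂ) * (eI β * conj T) / ((‖T‖ ^ 2 : ℝ) : ℂ) := by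
    have hnc : ((‖T‖ ^ 2 : ℝ) : ℂ) = T * conj T := by
      rw [Complex.mul_conj, Complex.normSq_eq_norm_sq]
    have hcne : conj T ≠ 0 := (map_ne_zero _).2 hTne
    rw [hnc]
    simp only [dσ]
    field_simp
  have h4 : (eI β * conj T).re = (eI (-β) * T).re := by
    have : eI β * conj T = conj (eI (-β) * T) := by
      rw [map_mul]
      congr 1
      rw [show eI (-β) = Complex.exp (((-β : ℝ) : ℂ) * I) from rfl, ← Complex.exp_conj]
      simp [eI]
    rw [this, Complex.conj_re]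
  rw [h3, Complex.div_ofReal_im]
  have h5 : (I * (C.ρ β : ℂ) * (eI β * conj T)).im = C.ρ β * (eI β * conj T).re := by
    have : I * (C.ρ β : ℂ) * (eI β * conj T) = (C.ρ β : ℂ) * (I * (eI β * conj T)) := by ring
    rw [this, Complex.im_ofReal_mul, Complex.I_mul_im]
  rw [h5, h4]

/-- Doeblin lower bound. -/
lemma exists_k_lower : ∃ κ : ℝ, 0 < κ ∧ ∀ β₀ β, κ ≤ C.k β₀ β := by
  obtain ⟨a, b, ha, hab⟩ := C.exists_ρ_bounds
  obtain ⟨D, hD0, hD⟩ := exists_bound_of_per₂ C.cont_dd C.per_dd_left C.per_dd_right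
  have hDpos : 0 < D := by
    have h1 := hD 0 0
    have h2 := C.dd_re_pos 0 0
    have h3 := Complex.re_le_norm (C.dd 0 0)
    linarith
  set κ : ℝ := π⁻¹ * (a * a / (2 * D ^ 2)) with hκ
  have hκpos : 0 < κ := by positivity
  refine ⟨κ, hκpos, ?_⟩
  -- off-diagonal
  have hoff : ∀ β₀ β, eI β - eI β₀ ≠ 0 → κ ≤ C.k β₀ β := by
    intro β₀ β hne
    rw [C.k_eq_gap hne, hκ]
    apply mul_le_mul_of_nonneg_left _ (by positivity)
    have hT : ‖C.σ β - C.σ β₀‖ ^ 2 ≤ (2 * (1 - Real.cos (β - β₀))) * D ^ 2 := by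
      rw [C.σ_sub_σ, norm_mul, mul_pow]
      have h1 : ‖eI β - eI β₀‖ ^ 2 = 2 * (1 - Real.cos (β - β₀)) := by
        rw [← Complex.normSq_eq_norm_sq, Complex.normSq_apply]
        simp only [Complex.sub_re, Complex.sub_im, eI_re, eI_im]
        rw [Real.cos_sub]
        nlinarith [Real.sin_sq_add_cos_sq β, Real.sin_sq_add_cos_sq β₀]
      rw [h1]
      apply mul_le_mul_of_nonneg_left _ (by nlinarith [Real.cos_le_one (β - β₀)])
      exact pow_le_pow_left₀ (norm_nonneg _) (hD _ _) 2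
    have hTpos : 0 < ‖C.σ β - C.σ β₀‖ ^ 2 := by
      have : C.σ β - C.σ β₀ ≠ 0 := by
        rw [C.σ_sub_σ]; exact mul_ne_zero hne (C.dd_ne_zero _ _)
      positivity
    have hcos : 0 < 1 - Real.cos (β - β₀) := by
      have h0 : 0 < 2 * (1 - Real.cos (β - β₀)) * D ^ 2 := lt_of_lt_of_le hTpos hT
      by_contra hc
      have : 2 * (1 - Real.cos (β - β₀)) * D ^ 2 ≤ 0 :=
        mul_nonpos_of_nonpos_of_nonneg (by linarith) (by positivity)
      linarith
    rw [div_le_div_iff₀ (by positivity) hTpos]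
    have hgap := C.gap_lower (fun β => (hab β).1) ha β β₀
    have hρ := (hab β).1
    calc a * a * ‖C.σ β - C.σ β₀‖ ^ 2 ≤ a * a * ((2 * (1 - Real.cos (β - β₀))) * D ^ 2) :=
          mul_le_mul_of_nonneg_left hT (by positivity)
      _ = (a * (a * (1 - Real.cos (β - β₀)))) * (2 * D ^ 2) := by ring
      _ ≤ (C.ρ β * (C.h β - (eI (-β) * C.σ β₀).re)) * (2 * D ^ 2) := by
          apply mul_le_mul_of_nonneg_right _ (by positivity)
          exact mul_le_mul hρ hgap (by positivity) (by linarith)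
  intro β₀ β
  by_cases hne : eI β - eI β₀ = 0
  · -- diagonal: continuity from the right
    have hcont : ContinuousAt (fun x : ℝ => C.k β₀ x) β :=
      (C.cont_k.comp (Continuous.prodMk continuous_const continuous_id)).continuousAt
    have hlim : Tendsto (fun x : ℝ => C.k β₀ x) (𝓝[>] β) (𝓝 (C.k β₀ β)) :=
      hcont.tendsto.mono_left nhdsWithin_le_nhds
    refine ge_of_tendsto hlim ?_
    filter_upwards [Ioo_mem_nhdsGT (by linarith [Real.pi_pos] : β < β + π)] with x hx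
    apply hoff
    have h1 : eI x - eI β₀ = eI x - eI β := by
      have : eI β = eI β₀ := sub_eq_zero.1 hne
      rw [this]
    rw [h1]
    exact eI_sub_ne_zero (by linarith [hx.1]) (by linarith [hx.2])
  · exact hoff _ _ hne

lemma k_pos (β₀ β : ℝ) : 0 < C.k β₀ β := by
  obtain ⟨κ, hκ, h⟩ := C.exists_k_lower
  exact hκ.trans_le (h _ _)

/-- `∫ k dβ = 1`. -/
lemma integral_k (β₀ : ℝ) : ∫ β in (0 : ℝ)..(2 * π), C.k β₀ β = 1 := by
  have hcontQ : Continuous (fun β : ℝ => C.Qq β β₀) :=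
    C.cont_Qq.comp (Continuous.prodMk continuous_id continuous_const)
  have hlog : ∀ β ∈ uIcc (0 : ℝ) (2 * π),
      HasDerivAt (fun b => Complex.log (C.dd b β₀)) (C.Qq β β₀) β := by
    intro β _
    exact (C.hasDeriv_dd β β₀).clog_real (Or.inl (C.dd_re_pos β β₀))
  have hint : ∫ β in (0 : ℝ)..(2 * π), C.Qq β β₀ = 0 := by
    rw [intervalIntegral.integral_eq_sub_of_hasDerivAt hlog (hcontQ.intervalIntegrable _ _)]
    have : C.dd (2 * π) β₀ = C.dd 0 β₀ := by simpa using C.per_dd_left 0 β₀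
    rw [this, sub_self]
  have him : ∫ β in (0 : ℝ)..(2 * π), (C.Qq β β₀).im = 0 := by
    have := Complex.imCLM.intervalIntegral_comp_comm (hcontQ.intervalIntegrable (μ := volume) 0 (2 * π))
    simp only [Complex.imCLM_apply] at this
    rw [this, hint]; simp
  have hcim : Continuous fun β : ℝ => (C.Qq β β₀).im := Complex.continuous_im.comp hcontQ
  simp only [k_eq_Qq]
  rw [intervalIntegral.integral_const_mul, intervalIntegral.integral_add
    (intervalIntegrable_const) (hcim.intervalIntegrable _ _), him]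
  simp
  field_simp

/-- `k` is Lipschitz in its first variable. -/
lemma exists_k_lip : ∃ L : ℝ, 0 ≤ L ∧ ∀ β₀ β₁ β, |C.k β₀ β - C.k β₁ β| ≤ L * |β₀ - β₁| := by
  -- bound the derivative of `Qq`
  have hQ := C.contDiff_Qq
  have hder : Continuous (fderiv ℝ (Function.uncurry C.Qq)) := hQ.continuous_fderiv (by norm_num)
  let f : ℝ → ℝ → (ℝ × ℝ →L[ℝ] ℂ) := fun x y => fderiv ℝ (Function.uncurry C.Qq) (x, y)
  have hf : Continuous (Function.uncurry f) := hder
  have hper : ∀ (v : ℝ × ℝ), Function.uncurry C.Qq ∘ (fun p => p + v) = Function.uncurry C.Qq →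
      ∀ p, fderiv ℝ (Function.uncurry C.Qq) (p + v) = fderiv ℝ (Function.uncurry C.Qq) p := by
    intro v hv p
    have := fderiv_comp_add_right (𝕜 := ℝ) (f := Function.uncurry C.Qq) (x := p) v
    rw [← this]
    congr 1
  have h1 : ∀ x y, f (x + 2 * π) y = f x y := by
    intro x y
    have := hper ((2 * π), 0) (by
      funext p
      simp [Function.uncurry, per_Qq_left]) (x, y)
    simpa [f] using this
  have h2 : ∀ x y, f x (y + 2 * π) = f x y := by
    intro x y
    have := hper (0, (2 * π)) (by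
      funext p
      simp [Function.uncurry, per_Qq_right]) (x, y)
    simpa [f] using this
  obtain ⟨D, hD0, hD⟩ := exists_bound_of_per₂ hf h1 h2
  refine ⟨π⁻¹ * D, by positivity, fun β₀ β₁ β => ?_⟩
  have hdiff : Differentiable ℝ (Function.uncurry C.Qq) := hQ.differentiable (by norm_num)
  have hmv : ‖Function.uncurry C.Qq (β, β₀) - Function.uncurry C.Qq (β, β₁)‖ ≤ D * ‖(β, β₀) - (β, β₁)‖ := by
    apply Convex.norm_image_sub_le_of_norm_fderiv_le (s := univ) (fun x _ => hdiff x) _ convex_univ trivial trivial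
    intro x _
    exact hD x.1 x.2
  have hnorm : ‖((β, β₀) : ℝ × ℝ) - (β, β₁)‖ = |β₀ - β₁| := by
    simp [Prod.norm_def, Real.norm_eq_abs]
  rw [hnorm] at hmv
  simp only [k_eq_Qq]
  rw [← mul_sub, abs_mul, abs_of_pos (by positivity : (0:ℝ) < π⁻¹), mul_assoc]
  apply mul_le_mul_of_nonneg_left _ (by positivity)
  have : (1 / 2 + (C.Qq β β₀).im - (1 / 2 + (C.Qq β β₁).im)) = (C.Qq β β₀ - C.Qq β β₁).im := by
    simp
  rw [this]
  exact (Complex.abs_im_le_norm _).trans hmv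

lemma cont_k_right (β₀ : ℝ) : Continuous (fun β => C.k β₀ β) :=
  C.cont_k.comp (Continuous.prodMk continuous_const continuous_id)

/-- Markov + Cauchy–Schwarz: `|K g|² ≤ K |g|²`. -/
lemma norm_K_sq_le {g : ℝ → ℂ} (hg : Continuous g) (β₀ : ℝ) :
    ‖C.K g β₀‖ ^ 2 ≤ ∫ β in (0 : ℝ)..(2 * π), C.k β₀ β * ‖g β‖ ^ 2 := by
  have hpos : (0 : ℝ) ≤ 2 * π := by positivity
  have hk := C.cont_k_right β₀
  have hkpos := C.k_pos β₀
  set c : ℝ := ∫ β in (0 : ℝ)..(2 * π), C.k β₀ β * ‖g β‖ with hc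
  have h1 : ‖C.K g β₀‖ ≤ c := by
    unfold K
    have := intervalIntegral.norm_integral_le_integral_norm (μ := volume)
      (f := fun β => (C.k β₀ β : ℂ) * g β) hpos
    refine this.trans (le_of_eq ?_)
    apply intervalIntegral.integral_congr
    intro β _
    simp only [norm_mul, Complex.norm_real, Real.norm_eq_abs, abs_of_pos (hkpos β)]
  have hcont1 : Continuous fun β => C.k β₀ β * ‖g β‖ := hk.mul hg.norm
  have hcont2 : Continuous fun β => C.k β₀ β * ‖g β‖ ^ 2 := hk.mul (hg.norm.pow 2)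
  have hexp : 0 ≤ ∫ β in (0 : ℝ)..(2 * π), C.k β₀ β * (‖g β‖ - c) ^ 2 :=
    intervalIntegral.integral_nonneg hpos (fun β _ => mul_nonneg (hkpos β).le (sq_nonneg _))
  have hrewrite : (fun β => C.k β₀ β * (‖g β‖ - c) ^ 2) =
      fun β => C.k β₀ β * ‖g β‖ ^ 2 - 2 * c * (C.k β₀ β * ‖g β‖) + c ^ 2 * C.k β₀ β := by
    funext β; ring
  rw [hrewrite, intervalIntegral.integral_add, intervalIntegral.integral_sub,
    intervalIntegral.integral_const_mul, intervalIntegral.integral_const_mul, C.integral_k, ← hc] at hexp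
  · have h0 : 0 ≤ c := (norm_nonneg _).trans h1
    nlinarith [pow_le_pow_left₀ (norm_nonneg _) h1 2]
  · exact hcont2.intervalIntegrable _ _
  · exact (continuous_const.mul hcont1).intervalIntegrable _ _
  · exact ((hcont2.sub (continuous_const.mul hcont1))).intervalIntegrable _ _
  · exact (continuous_const.mul hk).intervalIntegrable _ _

/-- `K g` is LP if `g` is continuous and periodic. -/
lemma LP_K {g : ℝ → ℂ} (hg : Continuous g) (hper : Function.Periodic g (2 * π)) : LP (C.K g) := by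
  constructor
  · obtain ⟨L, hL0, hL⟩ := C.exists_k_lip
    obtain ⟨G, hG0, hG⟩ := exists_bound_of_per₂ (f := fun _ y => g y)
      (hg.comp continuous_snd) (fun _ _ => rfl) (fun _ y => hper y)
    refine ⟨2 * π * (L * G), fun x y => ?_⟩
    unfold K
    have hix : Continuous fun β => (C.k x β : ℂ) * g β :=
      (Complex.continuous_ofReal.comp (C.cont_k_right x)).mul hg
    have hiy : Continuous fun β => (C.k y β : ℂ) * g β :=
      (Complex.continuous_ofReal.comp (C.cont_k_right y)).mul hg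
    rw [← intervalIntegral.integral_sub (hix.intervalIntegrable _ _) (hiy.intervalIntegrable _ _)]
    have hb : ∀ β ∈ Set.uIoc (0 : ℝ) (2 * π),
        ‖(C.k x β : ℂ) * g β - (C.k y β : ℂ) * g β‖ ≤ L * G * |x - y| := by
      intro β _
      have : (C.k x β : ℂ) * g β - (C.k y β : ℂ) * g β = ((C.k x β - C.k y β : ℝ) : ℂ) * g β := by
        push_cast; ring
      rw [this, norm_mul, Complex.norm_real, Real.norm_eq_abs]
      have h1 := hL x y β
      have h2 := hG 0 β
      calc |C.k x β - C.k y β| * ‖g β‖ ≤ (L * |x - y|) * G :=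
            mul_le_mul h1 h2 (norm_nonneg _) (by positivity)
        _ = L * G * |x - y| := by ring
    have := intervalIntegral.norm_integral_le_of_norm_le_const hb
    refine this.trans (le_of_eq ?_)
    rw [sub_zero, abs_of_pos (by positivity : (0 : ℝ) < 2 * π)]
    ring
  · intro x
    simp only [K, C.per_k₁]

end SCurve

end Crest.Agent.Crouzeix
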