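/-
WP: trigonometric polynomials with `h + h'' > 0` give an `SCurve`.
-/
import Crest.Agent.Crouzeix.Defs

set_option autoImplicit false

open Complex MeasureTheory Set Filter Topology
open scoped Real ComplexConjugate InnerProductSpace

noncomputable section

namespace Crest.Agent.Crouzeix

namespace TrigCurveAux

lemma eI_zmul_add (k : ℤ) (β : ℝ) : eI ((k : ℝ) * (β + 2 * π)) = eI ((k : ℝ) * β) := by
  have h1 : (((k : ℝ) * (β + 2 * π) : ℝ) : ℂ) * I = ((k : ℝ) * β : ℝ) * I + (k : ℂ) * (2 * π * I) := by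
    push_cast; ring
  simp only [eI]
  rw [h1, Complex.exp_add, Complex.exp_int_mul_two_pi_mul_I, mul_one]

lemma eI_ne_zero (β : ℝ) : eI β ≠ 0 := Complex.exp_ne_zero _

lemma eI_natCast_mul (n : ℕ) (β : ℝ) : eI ((n : ℝ) * β) = eI β ^ n := by
  simp only [eI]
  rw [← Complex.exp_nat_mul]
  congr 1
  push_cast; ring

lemma eI_neg_natCast_mul (n : ℕ) (β : ℝ) : eI (((-(n : ℤ) : ℤ) : ℝ) * β) = (eI β ^ n)⁻¹ := by
  simp only [eI]
  rw [← Complex.exp_nat_mul, ← Complex.exp_neg]
  congr 1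
  push_cast; ring

lemma hasDerivAt_eI (k : ℝ) (β : ℝ) :
    HasDerivAt (fun b : ℝ => eI (k * b)) ((k : ℂ) * I * eI (k * β)) β := by
  have h1 : HasDerivAt (fun b : ℝ => (((k * b : ℝ) : ℂ)) * I) ((k : ℂ) * I) β := by
    have h0 : HasDerivAt (fun b : ℝ => k * b) k β := by
      simpa using (hasDerivAt_id β).const_mul k
    have := h0.ofReal_comp.mul_const I
    simpa using this
  have h2 := h1.cexp
  simp only [eI]
  convert h2 using 1
  ring

lemma contDiff_eI (k : ℝ) : ContDiff ℝ 2 (fun b : ℝ => eI (k * b)) := by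
  simp only [eI]
  have h1 : ContDiff ℝ 2 (fun b : ℝ => (((k * b : ℝ) : ℂ)) * I) := by
    have : ContDiff ℝ 2 (fun b : ℝ => k * b) := contDiff_const.mul contDiff_id
    exact (Complex.ofRealCLM.contDiff.comp this).mul contDiff_const
  exact Complex.contDiff_exp.comp h1

/-- Divided differences of `e^{inβ}` with respect to `e^{iβ}`, as smooth periodic functions. -/
lemma exists_D (n : ℤ) : ∃ D : ℝ → ℝ → ℂ,
    ContDiff ℝ 2 (Function.uncurry D) ∧
    (∀ β β₀, D (β + 2 * π) β₀ = D β β₀) ∧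
    (∀ β β₀, D β (β₀ + 2 * π) = D β β₀) ∧
    (∀ β β₀, eI ((n : ℝ) * β) - eI ((n : ℝ) * β₀) = (eI β - eI β₀) * D β β₀) := by
  -- natural case first
  have nat_case : ∀ m : ℕ, ∃ D : ℝ → ℝ → ℂ,
      ContDiff ℝ 2 (Function.uncurry D) ∧
      (∀ β β₀, D (β + 2 * π) β₀ = D β β₀) ∧
      (∀ β β₀, D β (β₀ + 2 * π) = D β β₀) ∧
      (∀ β β₀, eI β ^ m - eI β₀ ^ m = (eI β - eI β₀) * D β β₀) := by
    intro m
    refine ⟨fun β β₀ => ∑ j ∈ Finset.range m, eI β ^ j * eI β₀ ^ (m - 1 - j), ?_, ?_, ?_, ?_⟩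
    · have h1 : ContDiff ℝ 2 (fun p : ℝ × ℝ => eI p.1) := by
        have : ContDiff ℝ 2 ((fun b : ℝ => eI ((1 : ℝ) * b)) ∘ (fun p : ℝ × ℝ => p.1)) :=
          (contDiff_eI 1).comp contDiff_fst
        simpa [Function.comp_def] using this
      have h2 : ContDiff ℝ 2 (fun p : ℝ × ℝ => eI p.2) := by
        have : ContDiff ℝ 2 ((fun b : ℝ => eI ((1 : ℝ) * b)) ∘ (fun p : ℝ × ℝ => p.2)) :=
          (contDiff_eI 1).comp contDiff_snd
        simpa [Function.comp_def] using this
      have : Function.uncurry (fun β β₀ : ℝ => ∑ j ∈ Finset.range m, eI β ^ j * eI β₀ ^ (m - 1 - j))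
          = fun p : ℝ × ℝ => ∑ j ∈ Finset.range m, eI p.1 ^ j * eI p.2 ^ (m - 1 - j) := by
        ext p; simp [Function.uncurry]
      rw [this]
      refine ContDiff.sum (fun j _ => ?_)
      exact (h1.pow j).mul (h2.pow _)
    · intro β β₀
      have : eI (β + 2 * π) = eI β := by
        have := eI_zmul_add 1 β
        simpa using this
      simp [this]
    · intro β β₀
      have : eI (β₀ + 2 * π) = eI β₀ := by
        have := eI_zmul_add 1 β₀
        simpa using this
      simp [this]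
    · intro β β₀
      have := geom_sum₂_mul (eI β) (eI β₀) m
      rw [← this]; ring
  obtain ⟨m, rfl | rfl⟩ := n.eq_nat_or_neg
  · obtain ⟨D, h1, h2, h3, h4⟩ := nat_case m
    refine ⟨D, h1, h2, h3, fun β β₀ => ?_⟩
    have e1 : eI (((m : ℤ) : ℝ) * β) = eI β ^ m := by
      simpa using eI_natCast_mul m β
    have e2 : eI (((m : ℤ) : ℝ) * β₀) = eI β₀ ^ m := by
      simpa using eI_natCast_mul m β₀
    rw [e1, e2, h4]
  · obtain ⟨D, h1, h2, h3, h4⟩ := nat_case m
    refine ⟨fun β β₀ => - (eI (((-(m : ℤ) : ℤ) : ℝ) * β) * eI (((-(m : ℤ) : ℤ) : ℝ) * β₀) * D β β₀), ?_, ?_, ?_, ?_⟩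
    · have c1 : ContDiff ℝ 2 (fun p : ℝ × ℝ => eI (((-(m : ℤ) : ℤ) : ℝ) * p.1)) :=
        (contDiff_eI _).comp contDiff_fst
      have c2 : ContDiff ℝ 2 (fun p : ℝ × ℝ => eI (((-(m : ℤ) : ℤ) : ℝ) * p.2)) :=
        (contDiff_eI _).comp contDiff_snd
      have : Function.uncurry (fun β β₀ : ℝ => - (eI (((-(m : ℤ) : ℤ) : ℝ) * β) * eI (((-(m : ℤ) : ℤ) : ℝ) * β₀) * D β β₀))
          = fun p : ℝ × ℝ => - (eI (((-(m : ℤ) : ℤ) : ℝ) * p.1) * eI (((-(m : ℤ) : ℤ) : ℝ) * p.2) * Function.uncurry D p) := by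
        ext p; simp [Function.uncurry]
      rw [this]
      exact ((c1.mul c2).mul h1).neg
    · intro β β₀
      simp only []
      rw [eI_zmul_add, h2]
    · intro β β₀
      simp only []
      rw [eI_zmul_add, h3]
    · intro β β₀
      dsimp only
      rw [eI_neg_natCast_mul, eI_neg_natCast_mul]
      have hx : eI β ^ m ≠ 0 := pow_ne_zero _ (eI_ne_zero β)
      have hy : eI β₀ ^ m ≠ 0 := pow_ne_zero _ (eI_ne_zero β₀)
      have key := h4 β β₀
      field_simp
      linear_combination (-1 : ℂ) * key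

end TrigCurveAux

open TrigCurveAux in
/-- If `h = Σ_{k∈S} c_k e^{ikβ}` is real valued and `h + h'' > 0`, it is the support function of an `SCurve`.
`σ = Σ_k (1-k) c_k e^{i(k+1)β}` and
`dd = Σ_k (1-k) c_k 𝖣_{k+1}` where `𝖣_n(β,β₀) = (e^{inβ} - e^{inβ₀})/(e^{iβ} - e^{iβ₀})` is the Laurent polynomial
`Σ_{j<n} e^{ijβ} e^{i(n-1-j)β₀}` for `n ≥ 0`, and `-Σ_{j<-n} e^{i(n+j)β} e^{-i(j+1)β₀}`
(check!) for `n < 0`. -/
theorem SCurve.exists_of_trig (S : Finset ℤ) (c : ℤ → ℂ) (h : ℝ → ℝ)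
    (hh : ∀ β, (h β : ℂ) = ∑ k ∈ S, c k * eI ((k : ℝ) * β))
    (hρ : ∀ β, 0 < h β + deriv (deriv h) β) :
    ∃ C : SCurve, C.h = h := by
  classical
  -- the complex functions
  set f0 : ℝ → ℂ := fun β => ∑ k ∈ S, c k * eI ((k : ℝ) * β) with hf0
  set f1 : ℝ → ℂ := fun β => ∑ k ∈ S, c k * ((k : ℂ) * I * eI ((k : ℝ) * β)) with hf1
  set f2 : ℝ → ℂ := fun β => ∑ k ∈ S, c k * ((k : ℂ) * I) * ((k : ℂ) * I * eI ((k : ℝ) * β)) with hf2
  have d0 : ∀ β, HasDerivAt f0 (f1 β) β := by
    intro β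
    have : HasDerivAt (fun b : ℝ => ∑ k ∈ S, c k * eI ((k : ℝ) * b))
        (∑ k ∈ S, c k * (((k : ℝ) : ℂ) * I * eI ((k : ℝ) * β))) β :=
      HasDerivAt.fun_sum (fun k _ => (hasDerivAt_eI (k : ℝ) β).const_mul (c k))
    simpa [hf0, hf1] using this
  have d1 : ∀ β, HasDerivAt f1 (f2 β) β := by
    intro β
    have : HasDerivAt (fun b : ℝ => ∑ k ∈ S, c k * ((k : ℂ) * I * eI ((k : ℝ) * b)))
        (∑ k ∈ S, c k * ((k : ℂ) * I * (((k : ℝ) : ℂ) * I * eI ((k : ℝ) * β)))) β :=
      HasDerivAt.fun_sum (fun k _ => ((hasDerivAt_eI (k : ℝ) β).const_mul ((k : ℂ) * I)).const_mul (c k))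
    convert this using 1
    simp only [hf2]
    refine Finset.sum_congr rfl (fun k _ => ?_)
    push_cast; ring
  -- real functions
  have hh' : ∀ β, (h β : ℂ) = f0 β := hh
  set dh : ℝ → ℝ := fun β => (f1 β).re with hdh
  set ddh : ℝ → ℝ := fun β => (f2 β).re with hddh
  have dh_deriv : ∀ β, HasDerivAt h (dh β) β := by
    intro β
    have h1 : HasDerivAt (fun b => (f0 b).re) (f1 β).re β := by
      exact Complex.reCLM.hasFDerivAt.comp_hasDerivAt β (d0 β)
    have h2 : (fun b => (f0 b).re) = h := by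
      ext b; rw [← hh' b]; simp
    rwa [h2] at h1
  have f0_eq : (fun β => (h β : ℂ)) = f0 := funext hh'
  have f1_real : ∀ β, (dh β : ℂ) = f1 β := by
    intro β
    have h1 : HasDerivAt (fun b => (h b : ℂ)) ((dh β : ℝ) : ℂ) β := (dh_deriv β).ofReal_comp
    rw [f0_eq] at h1
    exact h1.unique (d0 β)
  have ddh_deriv : ∀ β, HasDerivAt dh (ddh β) β := by
    intro β
    exact Complex.reCLM.hasFDerivAt.comp_hasDerivAt β (d1 β)
  have deriv_h : deriv h = dh := funext fun β => (dh_deriv β).deriv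
  have deriv_dh : ∀ β, deriv (deriv h) β = ddh β := by
    intro β
    rw [deriv_h]; exact (ddh_deriv β).deriv
  have f0_per : ∀ β, f0 (β + 2 * π) = f0 β := by
    intro β; simp only [hf0]
    refine Finset.sum_congr rfl (fun k _ => ?_)
    rw [eI_zmul_add]
  have f1_per : ∀ β, f1 (β + 2 * π) = f1 β := by
    intro β; simp only [hf1]
    refine Finset.sum_congr rfl (fun k _ => ?_)
    rw [eI_zmul_add]
  have f2_per : ∀ β, f2 (β + 2 * π) = f2 β := by
    intro β; simp only [hf2]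
    refine Finset.sum_congr rfl (fun k _ => ?_)
    rw [eI_zmul_add]
  have per_h : Function.Periodic h (2 * π) := by
    intro β
    have : ((h (β + 2 * π) : ℝ) : ℂ) = (h β : ℂ) := by rw [hh', hh', f0_per]
    exact_mod_cast this
  have per_dh : Function.Periodic dh (2 * π) := by
    intro β; simp only [hdh, f1_per]
  have per_ddh : Function.Periodic ddh (2 * π) := by
    intro β; simp only [hddh, f2_per]
  have cont_h : Continuous h := continuous_iff_continuousAt.2 fun β => (dh_deriv β).continuousAt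
  have cont_ddh : Continuous ddh := by
    have : Continuous f2 := by
      simp only [hf2]
      refine continuous_finsetSum _ (fun k _ => ?_)
      refine Continuous.mul continuous_const (Continuous.mul continuous_const ?_)
      exact (contDiff_eI (k : ℝ)).continuous
    exact Complex.continuous_re.comp this
  -- the divided differences
  choose D D_smooth D_per1 D_per2 D_eq using exists_D
  let dd : ℝ → ℝ → ℂ := fun β β₀ => ∑ k ∈ S, ((1 : ℂ) - k) * c k * D (k + 1) β β₀
  have σ_eq : ∀ β, eI β * ((h β : ℂ) + (dh β : ℂ) * I)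
      = ∑ k ∈ S, ((1 : ℂ) - k) * c k * eI (((k + 1 : ℤ) : ℝ) * β) := by
    intro β
    rw [hh', f1_real]
    simp only [hf0, hf1]
    rw [Finset.sum_mul, ← Finset.sum_add_distrib, Finset.mul_sum]
    refine Finset.sum_congr rfl (fun k _ => ?_)
    have e1 : eI (((k + 1 : ℤ) : ℝ) * β) = eI β * eI ((k : ℝ) * β) := by
      simp only [eI]
      rw [← Complex.exp_add]
      congr 1
      push_cast; ring
    rw [e1]
    linear_combination (eI β * c k * (k : ℂ) * eI ((k : ℝ) * β)) * Complex.I_sq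
  refine ⟨{ h := h, dh := dh, ρ := fun β => h β + ddh β,
            hasDeriv_h := dh_deriv,
            hasDeriv_dh := ?_,
            cont_ρ := cont_h.add cont_ddh,
            per_h := per_h, per_dh := per_dh,
            per_ρ := ?_,
            ρ_pos := ?_,
            dd := dd,
            smooth_dd := ?_,
            per_dd_left := ?_,
            per_dd_right := ?_,
            eq_dd := ?_ }, rfl⟩
  · intro β
    have : h β + ddh β - h β = ddh β := by ring
    rw [this]; exact ddh_deriv β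
  · intro β; simp only [per_h β, per_ddh β]
  · intro β
    have := hρ β
    rwa [deriv_dh] at this
  · have : Function.uncurry dd = fun p : ℝ × ℝ =>
        ∑ k ∈ S, ((1 : ℂ) - k) * c k * Function.uncurry (D (k + 1)) p := by
      ext p; simp [Function.uncurry, dd]
    rw [this]
    refine ContDiff.sum (fun k _ => ?_)
    exact contDiff_const.mul (D_smooth (k + 1))
  · intro β β₀
    simp only [dd]
    refine Finset.sum_congr rfl (fun k _ => ?_)
    rw [D_per1]
  · intro β β₀
    simp only [dd]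
    refine Finset.sum_congr rfl (fun k _ => ?_)
    rw [D_per2]
  · intro β β₀
    rw [σ_eq, σ_eq]
    simp only [dd]
    rw [← Finset.sum_sub_distrib, Finset.mul_sum]
    refine Finset.sum_congr rfl (fun k _ => ?_)
    have := D_eq (k + 1) β β₀
    linear_combination ((1 : ℂ) - k) * c k * this

end Crest.Agent.Crouzeix
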