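/-
WP: approximation of a compact convex set from outside by `SCurve`s.
-/
import Crest.Agent.Crouzeix.TrigCurve
import Crest.Agent.Crouzeix.Kernel
import Crest.Agent.Crouzeix.ApproxAux

set_option autoImplicit false

open Complex MeasureTheory Set Filter Topology
open scoped Real ComplexConjugate InnerProductSpace

noncomputable section

namespace Crest.Agent.Crouzeix

/-- The kernel as a trigonometric polynomial. -/
lemma kerF_trig (n : ℕ) (x : ℝ) :
    ((kerF n x : ℝ) : ℂ) = ∑ j ∈ Finset.range (2 * n + 1),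
      ((Nat.choose (2 * n) j : ℂ) / 2 ^ n) * eI ((((j : ℤ) - n : ℤ) : ℝ) * x) := by
  set z : ℂ := Complex.exp ((x / 2 : ℝ) * I) with hz
  set z' : ℂ := Complex.exp (-((x / 2 : ℝ) : ℂ) * I) with hz'
  have hzz : z * z' = 1 := by
    rw [hz, hz', ← Complex.exp_add]; simp
  have h1 : ((1 + Real.cos x : ℝ) : ℂ) = (z + z') ^ 2 / 2 := by
    have h2 : z ^ 2 = Complex.exp ((x : ℂ) * I) := by
      rw [hz, ← Complex.exp_nat_mul]; congr 1; push_cast; ring
    have h3 : z' ^ 2 = Complex.exp (-(x : ℂ) * I) := by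
      rw [hz', ← Complex.exp_nat_mul]; congr 1; push_cast; ring
    have h4 : (Real.cos x : ℂ) = (Complex.exp ((x : ℂ) * I) + Complex.exp (-(x : ℂ) * I)) / 2 := by
      rw [Complex.ofReal_cos, Complex.cos]
    push_cast
    rw [show (z + z') ^ 2 = z ^ 2 + z' ^ 2 + 2 * (z * z') by ring, h2, h3, hzz]
    rw [show ((Real.cos x : ℝ) : ℂ) = Complex.cos x by push_cast; rfl] at h4
    rw [h4]; ring
  have h5 : ((kerF n x : ℝ) : ℂ) = (z + z') ^ (2 * n) / 2 ^ n := by
    unfold kerF
    push_cast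
    have : ((1 : ℂ) + Complex.cos (x : ℂ)) = (z + z') ^ 2 / 2 := by
      rw [← h1]; push_cast; rfl
    rw [this, div_pow, ← pow_mul]
  rw [h5, add_pow, Finset.sum_div]
  apply Finset.sum_congr rfl
  intro j hj
  have hj' : j ≤ 2 * n := Nat.lt_succ_iff.mp (Finset.mem_range.mp hj)
  have e : z ^ j * z' ^ (2 * n - j) = eI ((((j : ℤ) - n : ℤ) : ℝ) * x) := by
    rw [hz, hz', ← Complex.exp_nat_mul, ← Complex.exp_nat_mul, ← Complex.exp_add]
    simp only [eI]
    congr 1
    push_cast [Nat.cast_sub hj']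
    ring
  rw [e]
  ring

/-- Conversion of a sum over `range` with integer exponents to a sum over a `Finset ℤ`. -/
lemma sum_range_to_finset (N n : ℕ) (c : ℕ → ℂ) (e : ℤ → ℂ) :
    ∑ j ∈ Finset.range N, c j * e ((j : ℤ) - n)
      = ∑ k ∈ (Finset.range N).image (fun j : ℕ => (j : ℤ) - n), c ((k + n).toNat) * e k := by
  rw [Finset.sum_image]
  · apply Finset.sum_congr rfl
    intro j _
    simp
  · intro a _ b _ h
    simpa using h

variable {W : Set ℂ}

lemma smoothF_eq (hW : IsCompact W) (hne : W.Nonempty) (n : ℕ) (β : ℝ) :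
    smoothF W n β = (kerI n)⁻¹ * ∫ u in (0 : ℝ)..(2 * π), suppF W u * kerF n (β - u) := by
  unfold smoothF
  congr 1
  have hper : Function.Periodic (fun u => suppF W u * kerF n (β - u)) (2 * π) := by
    intro u
    simp only
    rw [suppF_per W u]
    have : β - (u + 2 * π) + 2 * π = β - u := by ring
    rw [← kerF_per n (β - (u + 2 * π)), this]
  have h1 : ∫ u in (0 : ℝ)..(2 * π), suppF W (β - u) * kerF n u
      = ∫ u in (0 : ℝ)..(2 * π), (fun v => suppF W v * kerF n (β - v)) (β - u) := by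
    congr 1; ext u
    simp only
    congr 2; ring
  rw [h1, intervalIntegral.integral_comp_sub_left (fun v => suppF W v * kerF n (β - v)) β]
  have := hper.intervalIntegral_add_eq (β - 2 * π) 0
  rw [show β - 2 * π + 2 * π = β by ring] at this
  rw [show β - 0 = β by ring, this, zero_add]

/-- The smoothed support function is a trigonometric polynomial. -/
lemma smoothF_trig (hW : IsCompact W) (hne : W.Nonempty) (n : ℕ) :
    ∃ (S : Finset ℤ) (c : ℤ → ℂ), ∀ β : ℝ, ((smoothF W n β : ℝ) : ℂ) = ∑ k ∈ S, c k * eI ((k : ℝ) * β) := by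
  let a : ℕ → ℂ := fun j => (Nat.choose (2 * n) j : ℂ) / 2 ^ n
  let b : ℕ → ℂ := fun j => ∫ u in (0 : ℝ)..(2 * π),
    ((suppF W u : ℝ) : ℂ) * eI (-(((j : ℤ) - n : ℤ) : ℝ) * u)
  let c₀ : ℕ → ℂ := fun j => ((kerI n)⁻¹ : ℝ) * (a j * b j)
  have hs := suppF_cont hW hne
  have key : ∀ β : ℝ, ((smoothF W n β : ℝ) : ℂ)
      = ∑ j ∈ Finset.range (2 * n + 1), c₀ j * (fun k : ℤ => eI ((k : ℝ) * β)) ((j : ℤ) - n) := by
    intro β
    rw [smoothF_eq hW hne]
    push_cast
    rw [← intervalIntegral.integral_ofReal]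
    have h1 : ∀ u : ℝ, (((suppF W u * kerF n (β - u) : ℝ)) : ℂ)
        = ∑ j ∈ Finset.range (2 * n + 1), (a j * eI ((((j : ℤ) - n : ℤ) : ℝ) * β)) *
            (((suppF W u : ℝ) : ℂ) * eI (-(((j : ℤ) - n : ℤ) : ℝ) * u)) := by
      intro u
      rw [Complex.ofReal_mul, kerF_trig, Finset.mul_sum]
      apply Finset.sum_congr rfl
      intro j _
      have e : eI ((((j : ℤ) - n : ℤ) : ℝ) * (β - u))
          = eI ((((j : ℤ) - n : ℤ) : ℝ) * β) * eI (-(((j : ℤ) - n : ℤ) : ℝ) * u) := by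
        rw [← eI_add]; congr 1; ring
      rw [e]
      generalize eI ((((j : ℤ) - n : ℤ) : ℝ) * β) = E1
      generalize eI (-(((j : ℤ) - n : ℤ) : ℝ) * u) = E2
      simp only [a]
      ring
    simp_rw [h1]
    rw [intervalIntegral.integral_finsetSum]
    · rw [Finset.mul_sum]
      apply Finset.sum_congr rfl
      intro j _
      rw [intervalIntegral.integral_const_mul]
      simp only [c₀, b]
      push_cast
      ring
    · intro j _
      apply Continuous.intervalIntegrable
      have hc : Continuous fun u : ℝ => eI (-(((j : ℤ) - n : ℤ) : ℝ) * u) := by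
        simp only [eI]; fun_prop
      have hs' : Continuous fun u : ℝ => ((suppF W u : ℝ) : ℂ) := Complex.continuous_ofReal.comp hs
      exact continuous_const.mul (hs'.mul hc)
  refine ⟨(Finset.range (2 * n + 1)).image (fun j : ℕ => (j : ℤ) - n),
    fun k => c₀ ((k + n).toNat), fun β => ?_⟩
  rw [key β]
  exact sum_range_to_finset _ _ c₀ (fun k : ℤ => eI ((k : ℝ) * β))

/-- Adding a constant to a trigonometric polynomial. -/
lemma trig_add_const {f : ℝ → ℝ} {S : Finset ℤ} {c : ℤ → ℂ}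
    (hf : ∀ β : ℝ, ((f β : ℝ) : ℂ) = ∑ k ∈ S, c k * eI ((k : ℝ) * β)) (a : ℝ) :
    ∃ (S' : Finset ℤ) (c' : ℤ → ℂ),
      ∀ β : ℝ, ((f β + a : ℝ) : ℂ) = ∑ k ∈ S', c' k * eI ((k : ℝ) * β) := by
  classical
  refine ⟨insert 0 S, fun k => (if k ∈ S then c k else 0) + (if k = 0 then (a : ℂ) else 0), fun β => ?_⟩
  push_cast
  rw [hf β]
  simp only [add_mul, ite_mul, zero_mul]
  rw [Finset.sum_add_distrib]
  congr 1
  · rw [Finset.sum_ite_mem, Finset.inter_eq_right.mpr (Finset.subset_insert _ _)]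
  · rw [Finset.sum_ite_eq' (insert 0 S) 0]
    simp [eI]

/-- `C²` regularity of real trigonometric polynomials. -/
lemma contDiff_of_trig {f : ℝ → ℝ} {S : Finset ℤ} {c : ℤ → ℂ}
    (hf : ∀ β : ℝ, ((f β : ℝ) : ℂ) = ∑ k ∈ S, c k * eI ((k : ℝ) * β)) : ContDiff ℝ 2 f := by
  have h1 : f = fun β => (∑ k ∈ S, c k * eI ((k : ℝ) * β)).re := by
    ext β; rw [← hf β]; simp
  rw [h1]
  apply Complex.reCLM.contDiff.comp
  apply ContDiff.sum
  intro k _
  apply contDiff_const.mul
  simp only [eI]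
  apply Complex.contDiff_exp.comp
  apply ContDiff.mul _ contDiff_const
  exact Complex.ofRealCLM.contDiff.comp (contDiff_const.mul contDiff_id)

/-- Distance to a compact convex set from the support function. -/
lemma exists_near_of_support (hW : IsCompact W) (hconv : Convex ℝ W) (hne : W.Nonempty) {z : ℂ} {a : ℝ}
    (ha : 0 ≤ a) (hz : ∀ γ : ℝ, (eI (-γ) * z).re ≤ suppF W γ + a) : ∃ w ∈ W, ‖z - w‖ ≤ a := by
  have hcomplete : IsComplete W := hW.isComplete
  obtain ⟨w, hw, hmin⟩ := exists_norm_eq_iInf_of_complete_convex hne hcomplete hconv z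
  refine ⟨w, hw, ?_⟩
  have hin := (norm_eq_iInf_iff_real_inner_le_zero hconv hw).mp hmin
  by_cases hzw : z = w
  · rw [hzw]; simpa using ha
  set d := z - w with hd
  have hd0 : d ≠ 0 := sub_ne_zero.mpr hzw
  set γ := Complex.arg d with hγ
  have hpol : (‖d‖ : ℂ) * eI γ = d := by
    simp only [eI, hγ]; exact Complex.norm_mul_exp_arg_mul_I d
  have hinv : eI (-γ) * eI γ = 1 := by
    rw [← eI_add]; simp [eI]
  have hdre : eI (-γ) * d = (‖d‖ : ℂ) := by
    calc eI (-γ) * d = eI (-γ) * ((‖d‖ : ℂ) * eI γ) := by rw [hpol]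
      _ = (‖d‖ : ℂ) * (eI (-γ) * eI γ) := by ring
      _ = _ := by rw [hinv, mul_one]
  -- the maximiser of `Re (e^{-iγ} ·)` on `W` is `w`
  have hmax : suppF W γ ≤ (eI (-γ) * w).re := by
    obtain ⟨v, hv, hv'⟩ := exists_suppF hW hne γ
    rw [← hv']
    have h2 := hin v hv
    rw [Complex.inner] at h2
    have e : conj d = (‖d‖ : ℂ) * eI (-γ) := by
      nth_rewrite 1 [← hpol]
      simp only [map_mul, Complex.conj_ofReal, eI]
      rw [← Complex.exp_conj]
      simp
    rw [e, show (v - w) * ((‖d‖ : ℂ) * eI (-γ)) = (‖d‖ : ℂ) * (eI (-γ) * (v - w)) by ring,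
      Complex.re_ofReal_mul] at h2
    have hdpos : 0 < ‖d‖ := norm_pos_iff.mpr hd0
    have h3 : (eI (-γ) * (v - w)).re ≤ 0 := by
      by_contra hc
      push Not at hc
      have := mul_pos hdpos hc
      linarith
    rw [mul_sub, Complex.sub_re] at h3
    linarith
  have h1 := hz γ
  have h2 : (eI (-γ) * z).re = (eI (-γ) * w).re + ‖d‖ := by
    have : z = w + d := by rw [hd]; ring
    rw [this, mul_add, Complex.add_re, hdre, Complex.ofReal_re]
  linarith

/-- Let `h_W(β) = sup_{w∈W} Re (e^{-iβ} w)`, continuous, periodic, with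
`h_W(β+δ) + h_W(β-δ) ≥ 2 cos δ h_W(β)`.  Let `F_n(δ) = c_n (1 + cos δ)^n` (a nonnegative
trigonometric polynomial, mean 1, mass concentrating at `0`), `f = h_W * F_n`.  Then `f` is a trigonometric
polynomial, `‖f - h_W‖_∞ ≤ ε/4` for `n` large; it satisfies the same inequality, so expanding at `δ → 0`,
`f + f'' ≥ 0`.  `h = f + ε/2`: trigonometric polynomial, `h + h'' ≥ ε/2 > 0`, `h_W + ε/4 ≤ h ≤ h_W + 3ε/4`. So `W` is
inside the curve. For a point `z = σ(β)` of the curve: `Re (e^{-iγ} z) ≤ h(γ) ≤ h_W(γ) + 3ε/4` for all `γ`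
(`SCurve.support`), so by the separation theorem (projection on the compact convex `W`) `dist(z, W) ≤ 3ε/4`. -/
theorem exists_curve_near {W : Set ℂ} (hW : IsCompact W) (hconv : Convex ℝ W) (hne : W.Nonempty)
    {ε : ℝ} (hε : 0 < ε) :
    ∃ C : SCurve, W ⊆ C.inside ∧ ∀ β, ∃ w ∈ W, ‖C.σ β - w‖ ≤ ε := by
  obtain ⟨R, hR⟩ := hW.isBounded.exists_norm_le
  have hR0 : 0 ≤ R := by
    obtain ⟨w, hw⟩ := hne
    exact (norm_nonneg w).trans (hR w hw)
  have hR1 : 0 < R + 1 := by linarith
  set τ : ℝ := ε / (8 * (R + 1)) with hτ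
  have hτpos : 0 < τ := by positivity
  obtain ⟨n, hn⟩ := exists_nat_gt (2 / (τ * τ))
  have hclose : ∀ β, |smoothF W n β - suppF W β| ≤ ε / 4 := by
    intro β
    refine (smoothF_close hW hne hR n β hτpos).trans ?_
    have h1 : 2 / (τ * (n + 1)) ≤ τ := by
      rw [div_le_iff₀ (by positivity)]
      have h2 : 2 / (τ * τ) < (n : ℝ) + 1 := by linarith
      rw [div_lt_iff₀ (by positivity)] at h2
      nlinarith
    have h3 : R * (τ + 2 / (τ * (n + 1))) ≤ R * (2 * τ) :=
      mul_le_mul_of_nonneg_left (by linarith) hR0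
    refine h3.trans ?_
    have h4 : R * (2 * τ) = (ε / 4) * (R / (R + 1)) := by
      rw [hτ]; field_simp; ring
    rw [h4]
    have h5 : R / (R + 1) ≤ 1 := by
      rw [div_le_one hR1]; linarith
    have : 0 < ε / 4 := by positivity
    nlinarith
  obtain ⟨S, c, hf⟩ := smoothF_trig hW hne n
  obtain ⟨S', c', hh⟩ := trig_add_const hf (ε / 2)
  let h : ℝ → ℝ := fun β => smoothF W n β + ε / 2
  have hder : deriv h = deriv (smoothF W n) := by
    funext β
    exact deriv_add_const _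
  have hρ : ∀ β, 0 < h β + deriv (deriv h) β := by
    intro β
    rw [hder]
    have := add_deriv2_nonneg_of_sublinear (contDiff_of_trig hf) β
      (fun δ => smoothF_sublin hW hne n β δ)
    simp only [h]
    linarith
  obtain ⟨C, hC⟩ := SCurve.exists_of_trig S' c' h hh hρ
  refine ⟨C, ?_, ?_⟩
  · intro w hw β
    have h1 := suppF_le hW β hw
    have h2 := abs_le.mp (hclose β)
    rw [hC]
    simp only [h]
    linarith [h2.1]
  · intro β
    apply exists_near_of_support hW hconv hne hε.le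
    intro γ
    have h1 := C.support γ β
    have h2 := abs_le.mp (hclose γ)
    rw [hC] at h1
    simp only [h] at h1
    linarith [h2.2]

end Crest.Agent.Crouzeix
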