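import Mathlib

set_option autoImplicit false

open Complex MeasureTheory Set Filter Topology
open scoped Real ComplexConjugate InnerProductSpace ComplexOrder

noncomputable section

namespace Crest.Agent.Crouzeix

/-- Abstract data: a curve `σ`, a measure `ϖ dβ` on `[0,2π]`, the boundary values `ν` of the "normal function",
the kernel `D = ν (σ - A)⁻¹`, a class `𝓑` of boundary values of exterior analytic functions `(f, c)` (`c` the
value at `∞`), a dense class `𝓡` of densities and the exterior Cauchy transform `Hh`. -/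
structure CoreData {H : Type*} [NormedAddCommGroup H] [InnerProductSpace ℂ H] (A : H →L[ℂ] H) where
  σ : ℝ → ℂ
  ν : ℝ → ℂ
  ϖ : ℝ → ℝ
  D : ℝ → (H →L[ℂ] H)
  cont_σ : Continuous σ
  cont_ν : Continuous ν
  cont_ϖ : Continuous ϖ
  cont_D : Continuous D
  per_D : Function.Periodic D (2 * π)
  ϖ_nonneg : ∀ β, 0 ≤ ϖ β
  /-- `D (σ - A) = ν`. -/
  D_res : ∀ β, D β * ((σ β) • (1 : H →L[ℂ] H) - A) = (ν β) • (1 : H →L[ℂ] H)
  D_comm : ∀ β, D β * A = A * D β
  /-- `Re D ≥ 0`. -/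
  D_pos : ∀ β u, 0 ≤ (inner ℂ u (D β u)).re
  𝓑 : (ℝ → ℂ) → ℂ → Prop
  𝓑_cont : ∀ {f c}, 𝓑 f c → Continuous f
  𝓑_mul : ∀ {f g c d}, 𝓑 f c → 𝓑 g d → 𝓑 (fun β => f β * g β) (c * d)
  𝓑_int : ∀ {f c}, 𝓑 f c → ∫ β in (0 : ℝ)..(2 * π), f β * (ϖ β : ℂ) = c
  𝓑_D : ∀ u v, 𝓑 (fun β => inner ℂ v (D β u)) (inner ℂ v u)
  moment_ν : ∀ j : ℕ, ∫ β in (0 : ℝ)..(2 * π), σ β ^ j * ν β * (ϖ β : ℂ) = 0
  𝓡 : (ℝ → ℂ) → Prop
  𝓡_cont : ∀ {g}, 𝓡 g → Continuous g
  𝓡_add : ∀ {g g'}, 𝓡 g → 𝓡 g' → 𝓡 (fun β => g β + g' β)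
  𝓡_smul : ∀ {g} (a : ℂ), 𝓡 g → 𝓡 (fun β => a * g β)
  𝓡_conj : ∀ {g}, 𝓡 g → 𝓡 (fun β => conj (g β))
  𝓡_dense : ∀ (f : ℝ → ℂ), Continuous f → Function.Periodic f (2 * π) → ∀ ε : ℝ, 0 < ε →
    ∃ g, 𝓡 g ∧ ∀ β, ‖f β - g β‖ ≤ ε
  Hh : (ℝ → ℂ) → ℝ → ℂ
  Hh_𝓑 : ∀ {g}, 𝓡 g → 𝓑 (Hh g) 0
  /-- `K g := g + Hh g + conj (Hh ḡ)` is an `L²(ϖ)` contraction. -/
  Hh_K : ∀ {g}, 𝓡 g → ∫ β in (0 : ℝ)..(2 * π), ‖g β + Hh g β + conj (Hh (fun b => conj (g b)) β)‖ ^ 2 * ϖ β
      ≤ ∫ β in (0 : ℝ)..(2 * π), ‖g β‖ ^ 2 * ϖ β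
  Hh_moment : ∀ {g}, 𝓡 g → ∀ j : ℕ,
    ∫ β in (0 : ℝ)..(2 * π), σ β ^ j * (g β + Hh g β) * ν β * (ϖ β : ℂ) = 0


namespace CoreAux

/-- Columns under a matrix of operator norm at most one. -/
lemma op_sum_sq {m : ℕ} (V : Matrix (Fin m) (Fin m) ℂ)
    (hV : ‖Matrix.toEuclideanCLM (n := Fin m) (𝕜 := ℂ) V‖ ≤ 1) (c : Fin m → ℂ) :
    ∑ l, ‖∑ j, V l j * c j‖ ^ 2 ≤ ∑ j, ‖c j‖ ^ 2 := by
  set w : EuclideanSpace ℂ (Fin m) := WithLp.toLp 2 c with hw
  have h1 : ‖Matrix.toEuclideanCLM (n := Fin m) (𝕜 := ℂ) V w‖ ≤ ‖w‖ := by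
    calc _ ≤ ‖Matrix.toEuclideanCLM (n := Fin m) (𝕜 := ℂ) V‖ * ‖w‖ :=
          ContinuousLinearMap.le_opNorm _ _
      _ ≤ 1 * ‖w‖ := by gcongr
      _ = _ := one_mul _
  have h2 : ‖Matrix.toEuclideanCLM (n := Fin m) (𝕜 := ℂ) V w‖ ^ 2 ≤ ‖w‖ ^ 2 := by gcongr
  rw [EuclideanSpace.norm_sq_eq, EuclideanSpace.norm_sq_eq] at h2
  simpa [hw, Matrix.toEuclideanCLM_toLp, Matrix.mulVec, dotProduct] using h2

lemma mul_norm_le_amgm (x y : ℝ) {t : ℝ} (ht : 0 < t) :
    x * y ≤ t / 2 * x ^ 2 + 1 / (2 * t) * y ^ 2 := by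
  have : 0 ≤ (t * x - y) ^ 2 := sq_nonneg _
  have h2 : t / 2 * x ^ 2 + 1 / (2 * t) * y ^ 2 - x * y = (t * x - y) ^ 2 / (2 * t) := by
    field_simp
    ring
  have h3 : 0 ≤ (t * x - y) ^ 2 / (2 * t) := by positivity
  linarith

lemma tr_bound1 {m : ℕ} (V : Matrix (Fin m) (Fin m) ℂ)
    (hV : ‖Matrix.toEuclideanCLM (n := Fin m) (𝕜 := ℂ) V‖ ≤ 1)
    (P a : Fin m → Fin m → ℂ) {t : ℝ} (ht : 0 < t) :
    ‖∑ i, ∑ l, ∑ j, P i l * V l j * a j i‖ ≤
      t / 2 * ∑ i, ∑ l, ‖P i l‖ ^ 2 + 1 / (2 * t) * ∑ j, ∑ i, ‖a j i‖ ^ 2 := by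
  have h0 : ∑ i, ∑ l, ∑ j, P i l * V l j * a j i =
      ∑ i, ∑ l, P i l * ∑ j, V l j * a j i := by
    refine Finset.sum_congr rfl fun i _ => Finset.sum_congr rfl fun l _ => ?_
    rw [Finset.mul_sum]
    exact Finset.sum_congr rfl fun j _ => by ring
  rw [h0]
  have hW : ∑ i, ∑ l, ‖∑ j, V l j * a j i‖ ^ 2 ≤ ∑ j, ∑ i, ‖a j i‖ ^ 2 := by
    rw [Finset.sum_comm (f := fun j i => ‖a j i‖ ^ 2)]
    exact Finset.sum_le_sum fun i _ => op_sum_sq V hV (fun j => a j i)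
  calc ‖∑ i, ∑ l, P i l * ∑ j, V l j * a j i‖
      ≤ ∑ i, ∑ l, ‖P i l‖ * ‖∑ j, V l j * a j i‖ := by
        refine (norm_sum_le _ _).trans (Finset.sum_le_sum fun i _ => ?_)
        refine (norm_sum_le _ _).trans (Finset.sum_le_sum fun l _ => ?_)
        exact (norm_mul _ _).le
    _ ≤ ∑ i, ∑ l, (t / 2 * ‖P i l‖ ^ 2 + 1 / (2 * t) * ‖∑ j, V l j * a j i‖ ^ 2) :=
        Finset.sum_le_sum fun i _ => Finset.sum_le_sum fun l _ => mul_norm_le_amgm _ _ ht
    _ = t / 2 * ∑ i, ∑ l, ‖P i l‖ ^ 2 + 1 / (2 * t) * ∑ i, ∑ l, ‖∑ j, V l j * a j i‖ ^ 2 := by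
        simp only [Finset.sum_add_distrib, Finset.mul_sum]
    _ ≤ _ := by
        have : 0 ≤ 1 / (2 * t) := by positivity
        gcongr

lemma tr_bound2 {m : ℕ} (V : Matrix (Fin m) (Fin m) ℂ)
    (hV : ‖Matrix.toEuclideanCLM (n := Fin m) (𝕜 := ℂ) V‖ ≤ 1)
    (P a : Fin m → Fin m → ℂ) {t : ℝ} (ht : 0 < t) :
    ‖∑ i, ∑ l, ∑ j, V i l * P l j * a j i‖ ≤
      t / 2 * ∑ i, ∑ l, ‖P i l‖ ^ 2 + 1 / (2 * t) * ∑ j, ∑ i, ‖a j i‖ ^ 2 := by
  have h0 : ∑ i, ∑ l, ∑ j, V i l * P l j * a j i =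
      ∑ j, ∑ i, (∑ l, V i l * P l j) * a j i := by
    rw [Finset.sum_comm (s := Finset.univ) (t := Finset.univ)
      (f := fun j i => (∑ l, V i l * P l j) * a j i)]
    refine Finset.sum_congr rfl fun i _ => ?_
    rw [Finset.sum_comm]
    refine Finset.sum_congr rfl fun j _ => ?_
    rw [Finset.sum_mul]
  rw [h0]
  have hW : ∑ j, ∑ i, ‖∑ l, V i l * P l j‖ ^ 2 ≤ ∑ i, ∑ l, ‖P i l‖ ^ 2 := by
    rw [Finset.sum_comm (f := fun i l => ‖P i l‖ ^ 2)]
    exact Finset.sum_le_sum fun j _ => op_sum_sq V hV (fun l => P l j)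
  calc ‖∑ j, ∑ i, (∑ l, V i l * P l j) * a j i‖
      ≤ ∑ j, ∑ i, ‖∑ l, V i l * P l j‖ * ‖a j i‖ := by
        refine (norm_sum_le _ _).trans (Finset.sum_le_sum fun i _ => ?_)
        refine (norm_sum_le _ _).trans (Finset.sum_le_sum fun l _ => ?_)
        exact (norm_mul _ _).le
    _ ≤ ∑ j, ∑ i, (t / 2 * ‖∑ l, V i l * P l j‖ ^ 2 + 1 / (2 * t) * ‖a j i‖ ^ 2) :=
        Finset.sum_le_sum fun i _ => Finset.sum_le_sum fun l _ => mul_norm_le_amgm _ _ ht
    _ = t / 2 * ∑ j, ∑ i, ‖∑ l, V i l * P l j‖ ^ 2 + 1 / (2 * t) * ∑ j, ∑ i, ‖a j i‖ ^ 2 := by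
        simp only [Finset.sum_add_distrib, Finset.mul_sum]
    _ ≤ _ := by gcongr

/-- Trace positivity `tr (G J G J) ≥ 0` for a positive semidefinite Gram matrix `G`. -/
lemma gram_sign_nonneg {α : Type*} [Fintype α] [DecidableEq α] (G : Matrix α α ℂ)
    (hG : G.PosSemidef) (J : α → ℝ) :
    0 ≤ ∑ a, ∑ b, J a * J b * ‖G a b‖ ^ 2 := by
  obtain ⟨k, A, hA⟩ := Matrix.posSemidef_iff_eq_sum_vecMulVec.mp hG
  have hG' : ∀ a b, G a b = ∑ r : Fin k, A r a * conj (A r b) := by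
    intro a b
    rw [hA, Matrix.sum_apply]
    simp [Matrix.vecMulVec_apply]
  set T : Fin k → Fin k → ℂ := fun r r' => ∑ a, (J a : ℂ) * (A r a * conj (A r' a)) with hT
  have hnn : 0 ≤ ∑ r, ∑ r', ‖T r r'‖ ^ 2 := by positivity
  have key : ((∑ r, ∑ r', ‖T r r'‖ ^ 2 : ℝ) : ℂ) = ((∑ a, ∑ b, J a * J b * ‖G a b‖ ^ 2 : ℝ) : ℂ) := by
    push_cast
    have hGb : ∀ a b, ((‖G a b‖ : ℝ) : ℂ) ^ 2 = G a b * G b a := by
      intro a b
      have : G b a = conj (G a b) := by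
        rw [hG', hG', map_sum]
        exact Finset.sum_congr rfl fun r _ => by simp [mul_comm]
      rw [this, Complex.mul_conj']
    simp_rw [hGb]
    have hTb : ∀ r r', ((‖T r r'‖ : ℝ) : ℂ) ^ 2 =
        ∑ a, ∑ b, (J a : ℂ) * (J b : ℂ) * (A r a * conj (A r b) * (A r' b * conj (A r' a))) := by
      intro r r'
      rw [← Complex.mul_conj']
      simp only [hT, map_sum, map_mul, Complex.conj_conj, Complex.conj_ofReal]
      rw [Finset.sum_mul_sum]
      refine Finset.sum_congr rfl fun a _ => Finset.sum_congr rfl fun b _ => ?_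
      ring
    simp_rw [hTb]
    -- swap the order of summation
    set F : Fin k → Fin k → α → α → ℂ := fun r r' a b =>
      (J a : ℂ) * (J b : ℂ) * (A r a * conj (A r b) * (A r' b * conj (A r' a))) with hF
    calc ∑ r, ∑ r', ∑ a, ∑ b, F r r' a b
        = ∑ r, ∑ a, ∑ r', ∑ b, F r r' a b := Finset.sum_congr rfl fun r _ => Finset.sum_comm
      _ = ∑ a, ∑ r, ∑ r', ∑ b, F r r' a b := Finset.sum_comm
      _ = ∑ a, ∑ r, ∑ b, ∑ r', F r r' a b :=
          Finset.sum_congr rfl fun a _ => Finset.sum_congr rfl fun r _ => Finset.sum_comm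
      _ = ∑ a, ∑ b, ∑ r, ∑ r', F r r' a b := Finset.sum_congr rfl fun a _ => Finset.sum_comm
      _ = _ := by
          refine Finset.sum_congr rfl fun a _ => Finset.sum_congr rfl fun b _ => ?_
          rw [hG' a b, hG' b a, Finset.sum_mul_sum, Finset.mul_sum]
          refine Finset.sum_congr rfl fun r _ => ?_
          rw [Finset.mul_sum]
  have key' : ∑ r, ∑ r', ‖T r r'‖ ^ 2 = ∑ a, ∑ b, J a * J b * ‖G a b‖ ^ 2 := by
    exact_mod_cast key
  rw [← key']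
  exact hnn


/-- The form `q(u,v) = ⟨u, D v⟩ + ⟨D u, v⟩` (that is `⟨u, (D + D*) v⟩`). -/
def qf {H : Type*} [NormedAddCommGroup H] [InnerProductSpace ℂ H] (D : H →L[ℂ] H) (u v : H) : ℂ :=
  inner ℂ u (D v) + inner ℂ (D u) v

lemma qf_conj {H : Type*} [NormedAddCommGroup H] [InnerProductSpace ℂ H] (D : H →L[ℂ] H)
    (u v : H) : conj (qf D u v) = qf D v u := by
  simp only [qf, map_add, inner_conj_symm]
  ring

/-- The Gram matrix inequality: `2 Σ |q(y_i,x_j)|² ≤ Σ |q(x_j,x_l)|² + Σ |q(y_i,y_l)|²`. -/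
lemma gram_ineq {H : Type*} [NormedAddCommGroup H] [InnerProductSpace ℂ H] {m : ℕ}
    (D : H →L[ℂ] H) (hD : ∀ u, 0 ≤ (inner ℂ u (D u)).re) (x y : Fin m → H) :
    2 * ∑ j, ∑ i, ‖qf D (y i) (x j)‖ ^ 2 ≤
      ∑ j, ∑ l, ‖qf D (x j) (x l)‖ ^ 2 + ∑ i, ∑ l, ‖qf D (y i) (y l)‖ ^ 2 := by
  classical
  set z : Fin m ⊕ Fin m → H := Sum.elim x y with hz
  set G : Matrix (Fin m ⊕ Fin m) (Fin m ⊕ Fin m) ℂ := Matrix.of fun a b => qf D (z a) (z b) with hG
  have hPSD : G.PosSemidef := by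
    rw [Matrix.posSemidef_iff_dotProduct_mulVec]
    refine ⟨?_, ?_⟩
    · ext a b
      simp only [hG, Matrix.conjTranspose_apply, Matrix.of_apply]
      exact qf_conj D _ _
    · intro w
      set u : H := ∑ a, w a • z a with hu
      have e1 : ∀ v, inner ℂ u v = ∑ a, conj (w a) * inner ℂ (z a) v := by
        intro v; rw [hu, sum_inner]; simp [inner_smul_left]
      have e2 : ∀ v, inner ℂ v (D u) = ∑ b, w b * inner ℂ v (D (z b)) := by
        intro v; rw [hu, map_sum, inner_sum]; simp [inner_smul_right]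
      have e3 : ∀ v, inner ℂ v u = ∑ b, w b * inner ℂ v (z b) := by
        intro v; rw [hu, inner_sum]; simp [inner_smul_right]
      have e4 : ∀ v, inner ℂ (D u) v = ∑ a, conj (w a) * inner ℂ (D (z a)) v := by
        intro v; rw [hu, map_sum, sum_inner]; simp [inner_smul_left]
      have h1 : star w ⬝ᵥ (G.mulVec w) = qf D u u := by
        simp only [qf]
        rw [e1, e4, ← Finset.sum_add_distrib]
        simp only [dotProduct, Matrix.mulVec, hG, Matrix.of_apply, qf, Pi.star_apply]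
        refine Finset.sum_congr rfl fun a _ => ?_
        rw [e2, e3, ← mul_add, ← Finset.sum_add_distrib]
        congr 1
        refine Finset.sum_congr rfl fun b _ => ?_
        ring
      rw [h1]
      have h2 : qf D u u = ((2 * (inner ℂ u (D u)).re : ℝ) : ℂ) := by
        apply Complex.ext
        · simp only [qf, Complex.add_re, Complex.ofReal_re]
          rw [← inner_conj_symm (D u) u, Complex.conj_re]
          ring
        · simp only [qf, Complex.add_im, Complex.ofReal_im]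
          rw [← inner_conj_symm (D u) u, Complex.conj_im]
          ring
      rw [h2]
      have := hD u
      exact_mod_cast (by positivity : (0:ℝ) ≤ 2 * (inner ℂ u (D u)).re)
  have hkey := gram_sign_nonneg G hPSD (Sum.elim (fun _ => (1:ℝ)) (fun _ => (-1:ℝ)))
  simp only [Fintype.sum_sum_type, Sum.elim_inl, Sum.elim_inr, hG, Matrix.of_apply, hz] at hkey
  have hsym : ∑ j, ∑ i, ‖qf D (x j) (y i)‖ ^ 2 = ∑ j, ∑ i, ‖qf D (y i) (x j)‖ ^ 2 := by
    refine Finset.sum_congr rfl fun j _ => Finset.sum_congr rfl fun i _ => ?_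
    rw [← qf_conj D (y i) (x j), Complex.norm_conj]
  have hsym' : ∑ i, ∑ j, ‖qf D (y i) (x j)‖ ^ 2 = ∑ j, ∑ i, ‖qf D (y i) (x j)‖ ^ 2 :=
    Finset.sum_comm
  simp only [one_mul, neg_mul, mul_neg, neg_neg, Finset.sum_neg_distrib, Finset.sum_add_distrib] at hkey
  linarith [hsym, hsym', hkey]

end CoreAux


namespace CoreData

open CoreAux

variable {H : Type*} [NormedAddCommGroup H] [InnerProductSpace ℂ H] {A : H →L[ℂ] H} (d : CoreData A)

/-- Complex weighted integral. -/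
def Iw (f : ℝ → ℂ) : ℂ := ∫ β in (0 : ℝ)..(2 * π), f β * (d.ϖ β : ℂ)

/-- Real weighted integral. -/
def Jw (f : ℝ → ℝ) : ℝ := ∫ β in (0 : ℝ)..(2 * π), f β * d.ϖ β

lemma cont_cϖ : Continuous (fun β => (d.ϖ β : ℂ)) := Complex.continuous_ofReal.comp d.cont_ϖ

lemma ii {f : ℝ → ℂ} (hf : Continuous f) :
    IntervalIntegrable (fun β => f β * (d.ϖ β : ℂ)) volume 0 (2 * π) :=
  (hf.mul d.cont_cϖ).intervalIntegrable _ _

lemma ji {f : ℝ → ℝ} (hf : Continuous f) :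
    IntervalIntegrable (fun β => f β * d.ϖ β) volume 0 (2 * π) :=
  (hf.mul d.cont_ϖ).intervalIntegrable _ _

lemma Iw_add {f g : ℝ → ℂ} (hf : Continuous f) (hg : Continuous g) :
    d.Iw (fun β => f β + g β) = d.Iw f + d.Iw g := by
  simp only [Iw, add_mul]
  exact intervalIntegral.integral_add (d.ii hf) (d.ii hg)

lemma Iw_const_mul (c : ℂ) (f : ℝ → ℂ) : d.Iw (fun β => c * f β) = c * d.Iw f := by
  simp only [Iw, mul_assoc]
  exact intervalIntegral.integral_const_mul _ _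

lemma Iw_sum {ι : Type*} (s : Finset ι) {f : ι → ℝ → ℂ} (hf : ∀ i ∈ s, Continuous (f i)) :
    d.Iw (fun β => ∑ i ∈ s, f i β) = ∑ i ∈ s, d.Iw (f i) := by
  simp only [Iw, Finset.sum_mul]
  exact intervalIntegral.integral_finsetSum fun i hi => d.ii (hf i hi)

lemma Jw_add {f g : ℝ → ℝ} (hf : Continuous f) (hg : Continuous g) :
    d.Jw (fun β => f β + g β) = d.Jw f + d.Jw g := by
  simp only [Jw, add_mul]
  exact intervalIntegral.integral_add (d.ji hf) (d.ji hg)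

lemma Jw_const_mul (c : ℝ) (f : ℝ → ℝ) : d.Jw (fun β => c * f β) = c * d.Jw f := by
  simp only [Jw, mul_assoc]
  exact intervalIntegral.integral_const_mul _ _

lemma Jw_sum {ι : Type*} (s : Finset ι) {f : ι → ℝ → ℝ} (hf : ∀ i ∈ s, Continuous (f i)) :
    d.Jw (fun β => ∑ i ∈ s, f i β) = ∑ i ∈ s, d.Jw (f i) := by
  simp only [Jw, Finset.sum_mul]
  exact intervalIntegral.integral_finsetSum fun i hi => d.ji (hf i hi)

lemma Jw_mono {f g : ℝ → ℝ} (hf : Continuous f) (hg : Continuous g) (h : ∀ β, f β ≤ g β) :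
    d.Jw f ≤ d.Jw g := by
  have h2π : (0 : ℝ) ≤ 2 * π := by positivity
  exact intervalIntegral.integral_mono_on h2π (d.ji hf) (d.ji hg) fun β _ =>
    mul_le_mul_of_nonneg_right (h β) (d.ϖ_nonneg β)

lemma Jw_nonneg {f : ℝ → ℝ} (hf : Continuous f) (h : ∀ β, 0 ≤ f β) : 0 ≤ d.Jw f := by
  have h2π : (0 : ℝ) ≤ 2 * π := by positivity
  exact intervalIntegral.integral_nonneg h2π fun β _ => mul_nonneg (h β) (d.ϖ_nonneg β)

lemma re_Iw {f : ℝ → ℂ} (hf : Continuous f) : (d.Iw f).re = d.Jw (fun β => (f β).re) := by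
  have := intervalIntegral.intervalIntegral_re (𝕜 := ℂ) (μ := volume) (d.ii hf)
  simp only [Iw, Jw]
  have h2 : ∀ β, RCLike.re (f β * (d.ϖ β : ℂ)) = (f β).re * d.ϖ β := by
    intro β; simp
  simp only [h2] at this
  rw [this]
  rfl

lemma conj_Iw (f : ℝ → ℂ) : conj (d.Iw f) = d.Iw (fun β => conj (f β)) := by
  simp only [Iw]
  rw [← intervalIntegral.intervalIntegral_conj]
  simp

lemma re_Iw_le {f : ℝ → ℂ} (hf : Continuous f) : (d.Iw f).re ≤ d.Jw (fun β => ‖f β‖) := by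
  rw [d.re_Iw hf]
  exact d.Jw_mono (Complex.continuous_re.comp hf) hf.norm fun β => Complex.re_le_norm _

lemma cont_in (u v : H) : Continuous (fun β => inner ℂ v (d.D β u)) :=
  continuous_const.inner (d.cont_D.clm_apply continuous_const)

lemma cont_ni (u v : H) : Continuous (fun β => inner ℂ (d.D β u) v) :=
  (d.cont_D.clm_apply continuous_const).inner continuous_const

lemma cont_Hh {g : ℝ → ℂ} (hg : d.𝓡 g) : Continuous (d.Hh g) := d.𝓑_cont (d.Hh_𝓑 hg)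

lemma cont_Pi {g : ℝ → ℂ} (hg : d.𝓡 g) : Continuous (fun β => g β + d.Hh g β) :=
  (d.𝓡_cont hg).add (d.cont_Hh hg)

lemma cont_qf (u v : H) : Continuous (fun β => qf (d.D β) u v) :=
  (d.cont_in v u).add (d.cont_ni u v)

lemma per_qf (u v : H) : Function.Periodic (fun β => qf (d.D β) u v) (2 * π) := by
  intro β
  simp only [qf, d.per_D β]

/-- Vanishing of the exterior part against `D`. -/
lemma Iw_Hh_inner {g : ℝ → ℂ} (hg : d.𝓡 g) (u v : H) :
    d.Iw (fun β => d.Hh g β * inner ℂ v (d.D β u)) = 0 := by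
  have := d.𝓑_int (d.𝓑_mul (d.Hh_𝓑 hg) (d.𝓑_D u v))
  simpa [Iw] using this

lemma Iw_Pi_inner {g : ℝ → ℂ} (hg : d.𝓡 g) (u v : H) :
    d.Iw (fun β => (g β + d.Hh g β) * inner ℂ v (d.D β u)) =
      d.Iw (fun β => g β * inner ℂ v (d.D β u)) := by
  have h : ∀ β, (g β + d.Hh g β) * inner ℂ v (d.D β u) =
      g β * inner ℂ v (d.D β u) + d.Hh g β * inner ℂ v (d.D β u) := fun β => by ring
  simp only [h]
  have hc1 : Continuous (fun β => g β * inner ℂ v (d.D β u)) := (d.𝓡_cont hg).mul (d.cont_in u v)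
  have hc2 : Continuous (fun β => d.Hh g β * inner ℂ v (d.D β u)) :=
    (d.cont_Hh hg).mul (d.cont_in u v)
  rw [d.Iw_add hc1 hc2, d.Iw_Hh_inner hg, add_zero]

/-- The moment identity. -/
lemma moment {g : ℝ → ℂ} (hg : d.𝓡 g) (j : ℕ) (u v : H) :
    d.Iw (fun β => d.σ β ^ j * (g β + d.Hh g β) * inner ℂ v (d.D β u)) =
      d.Iw (fun β => (g β + d.Hh g β) * inner ℂ v (d.D β ((A ^ j) u))) := by
  induction j generalizing u with
  | zero => simp
  | succ j ih =>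
    have hres : ∀ β, d.σ β * inner ℂ v (d.D β u) =
        inner ℂ v (d.D β (A u)) + d.ν β * inner ℂ v u := by
      intro β
      have h := congrArg (fun T : H →L[ℂ] H => inner ℂ v (T u)) (d.D_res β)
      simp only [ContinuousLinearMap.mul_apply, ContinuousLinearMap.sub_apply,
        ContinuousLinearMap.smul_apply, ContinuousLinearMap.one_apply, map_sub, map_smul,
        inner_sub_right, inner_smul_right] at h
      linear_combination h
    have hpt : ∀ β, d.σ β ^ (j + 1) * (g β + d.Hh g β) * inner ℂ v (d.D β u) =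
        d.σ β ^ j * (g β + d.Hh g β) * inner ℂ v (d.D β (A u)) +
          inner ℂ v u * (d.σ β ^ j * (g β + d.Hh g β) * d.ν β) := by
      intro β
      have := hres β
      calc _ = d.σ β ^ j * (g β + d.Hh g β) * (d.σ β * inner ℂ v (d.D β u)) := by ring
        _ = _ := by rw [this]; ring
    simp only [hpt]
    have hc1 : Continuous (fun β => d.σ β ^ j * (g β + d.Hh g β) * inner ℂ v (d.D β (A u))) :=
      ((d.cont_σ.pow j).mul (d.cont_Pi hg)).mul (d.cont_in _ _)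
    have hc2 : Continuous (fun β => inner ℂ v u * (d.σ β ^ j * (g β + d.Hh g β) * d.ν β)) :=
      continuous_const.mul (((d.cont_σ.pow j).mul (d.cont_Pi hg)).mul d.cont_ν)
    rw [d.Iw_add hc1 hc2, ih (A u), d.Iw_const_mul]
    have h0 : d.Iw (fun β => d.σ β ^ j * (g β + d.Hh g β) * d.ν β) = 0 := d.Hh_moment hg j
    rw [h0, mul_zero, add_zero, pow_succ]
    rfl

lemma D_pow (β : ℝ) (k : ℕ) (u : H) : d.D β ((A ^ k) u) = (A ^ k) (d.D β u) := by
  have hc : Commute (d.D β) A := d.D_comm β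
  have := (hc.pow_right k).eq
  exact congrArg (fun T : H →L[ℂ] H => T u) this

/-- The functional `u ↦ ∫ Π ⟨v, D u⟩ ϖ`, linear in `u`. -/
def LamL {g : ℝ → ℂ} (hg : d.𝓡 g) (v : H) : H →ₗ[ℂ] ℂ where
  toFun u := d.Iw (fun β => (g β + d.Hh g β) * inner ℂ v (d.D β u))
  map_add' u u' := by
    have h : ∀ β, (g β + d.Hh g β) * inner ℂ v (d.D β (u + u')) =
        (g β + d.Hh g β) * inner ℂ v (d.D β u) + (g β + d.Hh g β) * inner ℂ v (d.D β u') := by
      intro β; rw [map_add, inner_add_right, mul_add]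
    simp only [h]
    exact d.Iw_add ((d.cont_Pi hg).mul (d.cont_in _ _)) ((d.cont_Pi hg).mul (d.cont_in _ _))
  map_smul' c u := by
    have h : ∀ β, (g β + d.Hh g β) * inner ℂ v (d.D β (c • u)) =
        c * ((g β + d.Hh g β) * inner ℂ v (d.D β u)) := by
      intro β; rw [map_smul, inner_smul_right]; ring
    simp only [h]
    exact d.Iw_const_mul _ _

@[simp] lemma LamL_apply {g : ℝ → ℂ} (hg : d.𝓡 g) (v u : H) :
    d.LamL hg v u = d.Iw (fun β => (g β + d.Hh g β) * inner ℂ v (d.D β u)) := rfl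

/-- Hermitian families. -/
def Herm {m : ℕ} (R : Fin m → Fin m → ℝ → ℂ) : Prop :=
  ∀ i l, R l i = fun β => conj (R i l β)

/-- `∫ Hh g * Hh g' ϖ = 0`. -/
lemma Iw_Hh_Hh {g g' : ℝ → ℂ} (hg : d.𝓡 g) (hg' : d.𝓡 g') :
    d.Iw (fun β => d.Hh g β * d.Hh g' β) = 0 := by
  have := d.𝓑_int (d.𝓑_mul (d.Hh_𝓑 hg) (d.Hh_𝓑 hg'))
  simpa [Iw] using this

end CoreData

namespace CoreAux

/-- Pointwise identity behind `|Cr|² = ½|r|² + ½|Kr|²`. -/
lemma pi_identity {m : ℕ} (r h : Fin m → Fin m → ℂ) (hr : ∀ i l, r l i = conj (r i l)) :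
    ∑ i, ∑ l, ‖r i l + h i l‖ ^ 2 + ∑ i, ∑ l, (h i l * h l i).re =
      (1 / 2) * ∑ i, ∑ l, ‖r i l‖ ^ 2 +
        (1 / 2) * ∑ i, ∑ l, ‖r i l + h i l + conj (h l i)‖ ^ 2 := by
  have e1 : ∀ i l, ‖r i l + h i l‖ ^ 2 = ‖r i l‖ ^ 2 + ‖h i l‖ ^ 2 + 2 * (r i l * conj (h i l)).re := by
    intro i l
    simp only [Complex.sq_norm, Complex.normSq_apply, Complex.add_re, Complex.add_im, Complex.mul_re,
      Complex.conj_re, Complex.conj_im]
    ring
  have e2 : ∀ i l, ‖r i l + h i l + conj (h l i)‖ ^ 2 =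
      ‖r i l‖ ^ 2 + ‖h i l‖ ^ 2 + ‖h l i‖ ^ 2 + 2 * (r i l * conj (h i l)).re +
        2 * (r i l * h l i).re + 2 * (h i l * h l i).re := by
    intro i l
    simp only [Complex.sq_norm, Complex.normSq_apply, Complex.add_re, Complex.add_im, Complex.mul_re,
      Complex.conj_re, Complex.conj_im]
    ring
  have s1 : ∑ i, ∑ l, ‖h l i‖ ^ 2 = ∑ i, ∑ l, ‖h i l‖ ^ 2 := Finset.sum_comm
  have s2 : ∑ i, ∑ l, (r i l * h l i).re = ∑ i, ∑ l, (r i l * conj (h i l)).re := by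
    rw [Finset.sum_comm]
    refine Finset.sum_congr rfl fun i _ => Finset.sum_congr rfl fun l _ => ?_
    rw [hr i l]
    simp only [Complex.mul_re, Complex.conj_re, Complex.conj_im]
    ring
  simp only [e1, e2, Finset.sum_add_distrib, ← Finset.mul_sum]
  rw [s1, s2]
  ring

lemma forall_eps_le {a b K : ℝ} (h : ∀ ε : ℝ, 0 < ε → ε ≤ 1 → a ≤ b + ε * K) (hK : 0 ≤ K) : a ≤ b := by
  by_contra hab
  have hab := not_le.mp hab
  set δ := a - b with hδ
  have hδ0 : 0 < δ := by linarith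
  set ε := min 1 (δ / (2 * (K + 1))) with hε
  have hK1 : 0 < K + 1 := by linarith
  have hε0 : 0 < ε := lt_min one_pos (by positivity)
  have hε1 : ε ≤ 1 := min_le_left _ _
  have hε2 : ε ≤ δ / (2 * (K + 1)) := min_le_right _ _
  have h3 := h ε hε0 hε1
  have h4 : ε * K ≤ δ / (2 * (K + 1)) * (K + 1) := by
    apply mul_le_mul hε2 (by linarith) hK (by positivity)
  have h5 : δ / (2 * (K + 1)) * (K + 1) = δ / 2 := by
    field_simp
  rw [h5] at h4
  linarith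

end CoreAux


namespace CoreData

open CoreAux

variable {H : Type*} [NormedAddCommGroup H] [InnerProductSpace ℂ H] {A : H →L[ℂ] H} (d : CoreData A)

lemma cont_sum2 {m : ℕ} {f : Fin m → Fin m → ℝ → ℝ} (hf : ∀ i l, Continuous (f i l)) :
    Continuous (fun β => ∑ i, ∑ l, f i l β) :=
  continuous_finset_sum _ fun i _ => continuous_finset_sum _ fun l _ => hf i l

lemma Jw_sum2 {m : ℕ} {f : Fin m → Fin m → ℝ → ℝ} (hf : ∀ i l, Continuous (f i l)) :
    d.Jw (fun β => ∑ i, ∑ l, f i l β) = ∑ i, ∑ l, d.Jw (f i l) := by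
  rw [d.Jw_sum _ fun i _ => continuous_finset_sum _ fun l _ => hf i l]
  exact Finset.sum_congr rfl fun i _ => d.Jw_sum _ fun l _ => hf i l

/-- `‖C R‖₂ ≤ ‖R‖₂` for Hermitian `R`. -/
lemma pi_contract {m : ℕ} (R : Fin m → Fin m → ℝ → ℂ) (hR : ∀ i l, d.𝓡 (R i l)) (hH : Herm R) :
    d.Jw (fun β => ∑ i, ∑ l, ‖R i l β + d.Hh (R i l) β‖ ^ 2) ≤
      d.Jw (fun β => ∑ i, ∑ l, ‖R i l β‖ ^ 2) := by
  have hcR : ∀ i l, Continuous (R i l) := fun i l => d.𝓡_cont (hR i l)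
  have hch : ∀ i l, Continuous (d.Hh (R i l)) := fun i l => d.cont_Hh (hR i l)
  have cA : ∀ i l, Continuous (fun β => ‖R i l β + d.Hh (R i l) β‖ ^ 2) :=
    fun i l => ((hcR i l).add (hch i l)).norm.pow 2
  have cB : ∀ i l, Continuous (fun β => (d.Hh (R i l) β * d.Hh (R l i) β).re) :=
    fun i l => Complex.continuous_re.comp ((hch i l).mul (hch l i))
  have cC : ∀ i l, Continuous (fun β => ‖R i l β‖ ^ 2) := fun i l => (hcR i l).norm.pow 2
  have cE : ∀ i l, Continuous (fun β => ‖R i l β + d.Hh (R i l) β + conj (d.Hh (R l i) β)‖ ^ 2) :=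
    fun i l => (((hcR i l).add (hch i l)).add (Complex.continuous_conj.comp (hch l i))).norm.pow 2
  have hpt : ∀ β, (∑ i, ∑ l, ‖R i l β + d.Hh (R i l) β‖ ^ 2) +
      ∑ i, ∑ l, (d.Hh (R i l) β * d.Hh (R l i) β).re =
      (1 / 2) * ∑ i, ∑ l, ‖R i l β‖ ^ 2 +
        (1 / 2) * ∑ i, ∑ l, ‖R i l β + d.Hh (R i l) β + conj (d.Hh (R l i) β)‖ ^ 2 := by
    intro β
    refine pi_identity (fun i l => R i l β) (fun i l => d.Hh (R i l) β) fun i l => ?_
    exact congrFun (hH i l) β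
  have hint := congrArg d.Jw (funext hpt)
  have cCm : Continuous (fun β => (1 / 2 : ℝ) * ∑ i, ∑ l, ‖R i l β‖ ^ 2) :=
    continuous_const.mul (cont_sum2 cC)
  have cEm : Continuous (fun β => (1 / 2 : ℝ) *
      ∑ i, ∑ l, ‖R i l β + d.Hh (R i l) β + conj (d.Hh (R l i) β)‖ ^ 2) :=
    continuous_const.mul (cont_sum2 cE)
  rw [d.Jw_add (cont_sum2 cA) (cont_sum2 cB), d.Jw_add cCm cEm,
    d.Jw_const_mul, d.Jw_const_mul] at hint
  have hB : d.Jw (fun β => ∑ i, ∑ l, (d.Hh (R i l) β * d.Hh (R l i) β).re) = 0 := by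
    rw [d.Jw_sum2 cB]
    refine Finset.sum_eq_zero fun i _ => Finset.sum_eq_zero fun l _ => ?_
    have hc : Continuous (fun β => d.Hh (R i l) β * d.Hh (R l i) β) := (hch i l).mul (hch l i)
    have h0 : d.Iw (fun β => d.Hh (R i l) β * d.Hh (R l i) β) = 0 := d.Iw_Hh_Hh (hR i l) (hR l i)
    rw [← d.re_Iw hc, h0]
    rfl
  have hE : d.Jw (fun β => ∑ i, ∑ l, ‖R i l β + d.Hh (R i l) β + conj (d.Hh (R l i) β)‖ ^ 2) ≤
      d.Jw (fun β => ∑ i, ∑ l, ‖R i l β‖ ^ 2) := by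
    rw [d.Jw_sum2 cE, d.Jw_sum2 cC]
    refine Finset.sum_le_sum fun i _ => Finset.sum_le_sum fun l _ => ?_
    have := d.Hh_K (hR i l)
    rw [← hH i l] at this
    exact this
  rw [hB, add_zero] at hint
  linarith

/-- Real part of the form. -/
lemma re_form {m : ℕ} (z : Fin m → H) (R : Fin m → Fin m → ℝ → ℂ) (hc : ∀ i l, Continuous (R i l))
    (hH : Herm R) :
    2 * (∑ i, ∑ l, d.Iw (fun β => R i l β * inner ℂ (z i) (d.D β (z l)))).re =
      d.Jw (fun β => ∑ i, ∑ l, (R i l β * qf (d.D β) (z i) (z l)).re) := by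
  set X := ∑ i, ∑ l, d.Iw (fun β => R i l β * inner ℂ (z i) (d.D β (z l))) with hX
  have hconj : conj X = ∑ i, ∑ l, d.Iw (fun β => R i l β * inner ℂ (d.D β (z i)) (z l)) := by
    rw [hX, map_sum, Finset.sum_comm]
    refine Finset.sum_congr rfl fun i _ => ?_
    rw [map_sum]
    refine Finset.sum_congr rfl fun l _ => ?_
    rw [d.conj_Iw]
    congr 1
    funext β
    rw [map_mul, inner_conj_symm, congrFun (hH l i) β]
    simp
  have hsum : X + conj X = ∑ i, ∑ l, d.Iw (fun β => R i l β * qf (d.D β) (z i) (z l)) := by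
    rw [hconj, hX, ← Finset.sum_add_distrib]
    refine Finset.sum_congr rfl fun i _ => ?_
    rw [← Finset.sum_add_distrib]
    refine Finset.sum_congr rfl fun l _ => ?_
    have hc1 : Continuous (fun β => R i l β * inner ℂ (z i) (d.D β (z l))) :=
      (hc i l).mul (d.cont_in _ _)
    have hc2 : Continuous (fun β => R i l β * inner ℂ (d.D β (z i)) (z l)) :=
      (hc i l).mul (d.cont_ni _ _)
    rw [← d.Iw_add hc1 hc2]
    congr 1
    funext β
    simp only [qf]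
    ring
  have hre : 2 * X.re = (X + conj X).re := by
    simp only [Complex.add_re, Complex.conj_re]
    ring
  rw [hre, hsum]
  have cq : ∀ i l, Continuous (fun β => R i l β * qf (d.D β) (z i) (z l)) :=
    fun i l => (hc i l).mul (d.cont_qf _ _)
  have cq' : ∀ i l, Continuous (fun β => (R i l β * qf (d.D β) (z i) (z l)).re) :=
    fun i l => Complex.continuous_re.comp (cq i l)
  rw [d.Jw_sum2 cq']
  simp only [Complex.re_sum]
  refine Finset.sum_congr rfl fun i _ => Finset.sum_congr rfl fun l _ => ?_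
  exact d.re_Iw (cq i l)

/-- Hermitian approximation from `𝓡`. -/
lemma exists_herm_approx {m : ℕ} (W : Fin m → Fin m → ℝ → ℂ) (hc : ∀ i l, Continuous (W i l))
    (hp : ∀ i l, Function.Periodic (W i l) (2 * π)) (hH : ∀ i l β, W l i β = conj (W i l β))
    {ε : ℝ} (hε : 0 < ε) :
    ∃ R : Fin m → Fin m → ℝ → ℂ, (∀ i l, d.𝓡 (R i l)) ∧ Herm R ∧
      ∀ i l β, ‖W i l β - R i l β‖ ≤ ε := by
  have h := fun i l => d.𝓡_dense (W i l) (hc i l) (hp i l) ε hε
  choose g hg hgε using h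
  refine ⟨fun i l β => (1 / 2 : ℂ) * g i l β + (1 / 2 : ℂ) * conj (g l i β), ?_, ?_, ?_⟩
  · intro i l
    exact d.𝓡_add (d.𝓡_smul _ (hg i l)) (d.𝓡_smul _ (d.𝓡_conj (hg l i)))
  · intro i l
    funext β
    simp only [map_add, map_mul, Complex.conj_conj]
    have : conj (1 / 2 : ℂ) = 1 / 2 := by
      apply Complex.ext <;> simp
    rw [this]
    ring
  · intro i l β
    have e : W i l β - ((1 / 2 : ℂ) * g i l β + (1 / 2 : ℂ) * conj (g l i β)) =
        (1 / 2 : ℂ) * (W i l β - g i l β) + (1 / 2 : ℂ) * conj (W l i β - g l i β) := by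
      rw [map_sub, hH i l β, Complex.conj_conj]
      ring
    rw [e]
    have h1 := hgε i l β
    have h2 := hgε l i β
    calc _ ≤ ‖(1 / 2 : ℂ) * (W i l β - g i l β)‖ + ‖(1 / 2 : ℂ) * conj (W l i β - g l i β)‖ :=
          norm_add_le _ _
      _ = (1 / 2) * ‖W i l β - g i l β‖ + (1 / 2) * ‖W l i β - g l i β‖ := by
          have h12 : ‖(1 / 2 : ℂ)‖ = 1 / 2 := by norm_num
          rw [norm_mul, norm_mul, Complex.norm_conj, h12]
      _ ≤ ε := by linarith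

/-- The key estimate from a chain inequality. -/
lemma key_bound {m : ℕ} (z : Fin m → H) (s Z : ℝ) (hs : 0 < s)
    (hchain : ∀ R : Fin m → Fin m → ℝ → ℂ, (∀ i l, d.𝓡 (R i l)) → Herm R →
      s * (∑ i, ∑ l, d.Iw (fun β => R i l β * inner ℂ (z i) (d.D β (z l)))).re ≤
        s / 4 * d.Jw (fun β => ∑ i, ∑ l, ‖R i l β + d.Hh (R i l) β‖ ^ 2) + 1 / s * Z) :
    s ^ 2 * d.Jw (fun β => ∑ i, ∑ l, ‖qf (d.D β) (z i) (z l)‖ ^ 2) ≤ 4 * Z := by
  set F : Fin m → Fin m → ℝ → ℂ := fun i l β => qf (d.D β) (z i) (z l) with hF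
  have cF : ∀ i l, Continuous (F i l) := fun i l => d.cont_qf _ _
  have cF2 : ∀ i l, Continuous (fun β => ‖F i l β‖ ^ 2) := fun i l => (cF i l).norm.pow 2
  have cF1 : ∀ i l, Continuous (fun β => ‖F i l β‖) := fun i l => (cF i l).norm
  set Y := d.Jw (fun β => ∑ i, ∑ l, ‖F i l β‖ ^ 2) with hY
  set C1 := d.Jw (fun β => ∑ i, ∑ l, ‖F i l β‖) with hC1
  set C0 := d.Jw (fun _ => ∑ _i : Fin m, ∑ _l : Fin m, (1 : ℝ)) with hC0
  have hC1nn : 0 ≤ C1 := d.Jw_nonneg (cont_sum2 cF1) fun β => by positivity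
  have hC0nn : 0 ≤ C0 := d.Jw_nonneg continuous_const fun β => by positivity
  have hmain : ∀ ε : ℝ, 0 < ε → ε ≤ 1 → s / 4 * Y ≤ 1 / s * Z + ε * (s * C1 + s / 4 * C0) := by
    intro ε hε hε1
    obtain ⟨R, hR, hH, hRε⟩ := d.exists_herm_approx (fun i l β => conj (F i l β))
      (fun i l => Complex.continuous_conj.comp (cF i l))
      (fun i l β => by
        show conj (F i l (β + 2 * π)) = conj (F i l β)
        exact congrArg _ (d.per_qf (z i) (z l) β))
      (fun i l β => by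
        simp only [Complex.conj_conj, hF]
        exact (qf_conj (d.D β) (z l) (z i))) hε
    have hcR : ∀ i l, Continuous (R i l) := fun i l => d.𝓡_cont (hR i l)
    have h1 := hchain R hR hH
    have h2 := d.pi_contract R hR hH
    have h3 := d.re_form z R hcR hH
    -- pointwise bounds
    have hlow : ∀ i l β, ‖F i l β‖ ^ 2 - ε * ‖F i l β‖ ≤ (R i l β * F i l β).re := by
      intro i l β
      have hb := hRε i l β
      set e := conj (F i l β) - R i l β with he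
      have hRe : R i l β = conj (F i l β) - e := by rw [he]; ring
      rw [hRe, sub_mul, Complex.sub_re]
      have h5 : (conj (F i l β) * F i l β).re = ‖F i l β‖ ^ 2 := by
        rw [mul_comm, Complex.mul_conj']
        norm_cast
      have h6 : (e * F i l β).re ≤ ε * ‖F i l β‖ := by
        calc (e * F i l β).re ≤ ‖e * F i l β‖ := Complex.re_le_norm _
          _ = ‖e‖ * ‖F i l β‖ := norm_mul _ _
          _ ≤ ε * ‖F i l β‖ := by gcongr
      rw [h5]
      linarith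
    have hup : ∀ i l β, ‖R i l β‖ ^ 2 ≤ ‖F i l β‖ ^ 2 + 2 * ε * ‖F i l β‖ + ε * 1 := by
      intro i l β
      have hb := hRε i l β
      have h7 : ‖R i l β‖ ≤ ‖F i l β‖ + ε := by
        have : R i l β = conj (F i l β) - (conj (F i l β) - R i l β) := by ring
        calc ‖R i l β‖ = ‖conj (F i l β) - (conj (F i l β) - R i l β)‖ := by rw [← this]
          _ ≤ ‖conj (F i l β)‖ + ‖conj (F i l β) - R i l β‖ := norm_sub_le _ _
          _ ≤ ‖F i l β‖ + ε := by rw [Complex.norm_conj]; linarith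
      have hn : 0 ≤ ‖R i l β‖ := norm_nonneg _
      nlinarith [norm_nonneg (F i l β)]
    -- integrate
    have h4 : Y - ε * C1 ≤ d.Jw (fun β => ∑ i, ∑ l, (R i l β * F i l β).re) := by
      have e1 : Y - ε * C1 = d.Jw (fun β => (∑ i, ∑ l, ‖F i l β‖ ^ 2) + (-ε) * ∑ i, ∑ l, ‖F i l β‖) := by
        have c1 : Continuous (fun β => ∑ i, ∑ l, ‖F i l β‖ ^ 2) := cont_sum2 cF2
        have c2 : Continuous (fun β => (-ε) * ∑ i, ∑ l, ‖F i l β‖) :=
          continuous_const.mul (cont_sum2 cF1)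
        rw [hY, hC1, d.Jw_add c1 c2, d.Jw_const_mul]
        ring
      rw [e1]
      have c3 : Continuous (fun β => (∑ i, ∑ l, ‖F i l β‖ ^ 2) + (-ε) * ∑ i, ∑ l, ‖F i l β‖) :=
        (cont_sum2 cF2).add (continuous_const.mul (cont_sum2 cF1))
      have c4 : ∀ i l, Continuous (fun β => (R i l β * F i l β).re) :=
        fun i l => Complex.continuous_re.comp ((hcR i l).mul (cF i l))
      refine d.Jw_mono c3 (cont_sum2 c4) fun β => ?_
      rw [Finset.mul_sum, ← Finset.sum_add_distrib]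
      refine Finset.sum_le_sum fun i _ => ?_
      rw [Finset.mul_sum, ← Finset.sum_add_distrib]
      refine Finset.sum_le_sum fun l _ => ?_
      have := hlow i l β
      linarith
    have h5 : d.Jw (fun β => ∑ i, ∑ l, ‖R i l β‖ ^ 2) ≤ Y + 2 * ε * C1 + ε * C0 := by
      have e1 : Y + 2 * ε * C1 + ε * C0 = d.Jw (fun β => (∑ i, ∑ l, ‖F i l β‖ ^ 2) +
          (2 * ε) * (∑ i, ∑ l, ‖F i l β‖) + ε * ∑ _i : Fin m, ∑ _l : Fin m, (1 : ℝ)) := by
        have c1 : Continuous (fun β => ∑ i, ∑ l, ‖F i l β‖ ^ 2) := cont_sum2 cF2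
        have c2 : Continuous (fun β => (2 * ε) * ∑ i, ∑ l, ‖F i l β‖) :=
          continuous_const.mul (cont_sum2 cF1)
        have c3 : Continuous (fun β => (∑ i, ∑ l, ‖F i l β‖ ^ 2) + (2 * ε) * ∑ i, ∑ l, ‖F i l β‖) :=
          c1.add c2
        have c5 : Continuous (fun _ : ℝ => ε * ∑ _i : Fin m, ∑ _l : Fin m, (1 : ℝ)) :=
          continuous_const
        rw [hY, hC1, hC0, d.Jw_add c3 c5, d.Jw_add c1 c2, d.Jw_const_mul, d.Jw_const_mul]
      rw [e1]
      have c3 : Continuous (fun β => (∑ i, ∑ l, ‖F i l β‖ ^ 2) + (2 * ε) * (∑ i, ∑ l, ‖F i l β‖) +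
          ε * ∑ _i : Fin m, ∑ _l : Fin m, (1 : ℝ)) :=
        ((cont_sum2 cF2).add (continuous_const.mul (cont_sum2 cF1))).add continuous_const
      have c4 : ∀ i l, Continuous (fun β => ‖R i l β‖ ^ 2) := fun i l => (hcR i l).norm.pow 2
      refine d.Jw_mono (cont_sum2 c4) c3 fun β => ?_
      simp only [Finset.mul_sum, ← Finset.sum_add_distrib]
      refine Finset.sum_le_sum fun i _ => Finset.sum_le_sum fun l _ => ?_
      have := hup i l β
      linarith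
    have hsq : 0 < s / 4 := by positivity
    have h6 : s / 4 * d.Jw (fun β => ∑ i, ∑ l, ‖R i l β + d.Hh (R i l) β‖ ^ 2) ≤
        s / 4 * (Y + 2 * ε * C1 + ε * C0) :=
      mul_le_mul_of_nonneg_left (h2.trans h5) hsq.le
    have h7 : s * (∑ i, ∑ l, d.Iw (fun β => R i l β * inner ℂ (z i) (d.D β (z l)))).re =
        s / 2 * d.Jw (fun β => ∑ i, ∑ l, (R i l β * F i l β).re) := by
      have : d.Jw (fun β => ∑ i, ∑ l, (R i l β * F i l β).re) =
          2 * (∑ i, ∑ l, d.Iw (fun β => R i l β * inner ℂ (z i) (d.D β (z l)))).re := h3.symm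
      rw [this]
      ring
    have h8 : s / 2 * (Y - ε * C1) ≤ s / 2 * d.Jw (fun β => ∑ i, ∑ l, (R i l β * F i l β).re) :=
      mul_le_mul_of_nonneg_left h4 (by positivity)
    rw [h7] at h1
    nlinarith [h1, h6, h8]
  have hK : 0 ≤ s * C1 + s / 4 * C0 := by positivity
  have hfin := forall_eps_le hmain hK
  have h9 : s ^ 2 * Y = (s / 4 * Y) * (4 * s) := by ring
  have h10 : 4 * Z = (1 / s * Z) * (4 * s) := by
    field_simp
  rw [h9, h10]
  exact mul_le_mul_of_nonneg_right hfin (by positivity)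

end CoreData

namespace CoreData

open CoreAux

variable {H : Type*} [NormedAddCommGroup H] [InnerProductSpace ℂ H] {A : H →L[ℂ] H} (d : CoreData A)

lemma V_apply {m N : ℕ} (B : Fin N → Matrix (Fin m) (Fin m) ℂ) (σ : ℂ) (l j : Fin m) :
    (∑ k : Fin N, σ ^ (k : ℕ) • B k) l j = ∑ k : Fin N, σ ^ (k : ℕ) * B k l j := by
  simp [Matrix.sum_apply, Matrix.smul_apply]

lemma cont_V {m N : ℕ} (B : Fin N → Matrix (Fin m) (Fin m) ℂ) (l j : Fin m) :
    Continuous (fun β => (∑ k : Fin N, d.σ β ^ (k : ℕ) • B k) l j) := by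
  simp only [V_apply]
  exact continuous_finset_sum _ fun k _ => (d.cont_σ.pow _).mul continuous_const

/-- Moment expansion: the `V`-entry in front moves to powers of `A`. -/
lemma Iw_V {m N : ℕ} (B : Fin N → Matrix (Fin m) (Fin m) ℂ) {g : ℝ → ℂ} (hg : d.𝓡 g)
    (l j : Fin m) (u v : H) :
    d.Iw (fun β => (g β + d.Hh g β) * (∑ k : Fin N, d.σ β ^ (k : ℕ) • B k) l j *
        inner ℂ v (d.D β u)) =
      ∑ k : Fin N, B k l j * d.LamL hg v ((A ^ (k : ℕ)) u) := by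
  have hpt : ∀ β, (g β + d.Hh g β) * (∑ k : Fin N, d.σ β ^ (k : ℕ) • B k) l j *
        inner ℂ v (d.D β u) =
      ∑ k : Fin N, B k l j * (d.σ β ^ (k : ℕ) * (g β + d.Hh g β) * inner ℂ v (d.D β u)) := by
    intro β
    rw [V_apply, Finset.mul_sum, Finset.sum_mul]
    exact Finset.sum_congr rfl fun k _ => by ring
  simp only [hpt]
  have hc : ∀ k ∈ (Finset.univ : Finset (Fin N)), Continuous (fun β => B k l j *
      (d.σ β ^ (k : ℕ) * (g β + d.Hh g β) * inner ℂ v (d.D β u))) := fun k _ =>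
    continuous_const.mul (((d.cont_σ.pow _).mul (d.cont_Pi hg)).mul (d.cont_in _ _))
  rw [d.Iw_sum _ hc]
  refine Finset.sum_congr rfl fun k _ => ?_
  rw [d.Iw_const_mul, d.moment hg, LamL_apply]

/-- First chain: uses `V[A] x = s y`. -/
lemma chain_y {m N : ℕ} (B : Fin N → Matrix (Fin m) (Fin m) ℂ)
    (hV : ∀ β, ‖Matrix.toEuclideanCLM (n := Fin m) (𝕜 := ℂ) (∑ k : Fin N, d.σ β ^ (k : ℕ) • B k)‖ ≤ 1)
    (x y : Fin m → H) (s : ℝ) (hs : 0 < s)
    (hT : ∀ i, ∑ j, ∑ k : Fin N, B k i j • (A ^ (k : ℕ)) (x j) = (s : ℂ) • y i)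
    (R : Fin m → Fin m → ℝ → ℂ) (hR : ∀ i l, d.𝓡 (R i l)) :
    s * (∑ i, ∑ l, d.Iw (fun β => R i l β * inner ℂ (y i) (d.D β (y l)))).re ≤
      s / 4 * d.Jw (fun β => ∑ i, ∑ l, ‖R i l β + d.Hh (R i l) β‖ ^ 2) +
        1 / s * d.Jw (fun β => ∑ j, ∑ i, ‖inner ℂ (y i) (d.D β (x j))‖ ^ 2) := by
  set P : Fin m → Fin m → ℝ → ℂ := fun i l β => R i l β + d.Hh (R i l) β with hP
  have cP : ∀ i l, Continuous (P i l) := fun i l => d.cont_Pi (hR i l)
  set L : ℝ → ℂ := fun β => ∑ i, ∑ l, ∑ j, P i l β * (∑ k : Fin N, d.σ β ^ (k : ℕ) • B k) l j *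
      inner ℂ (y i) (d.D β (x j)) with hL
  have cL3 : ∀ i l j, Continuous (fun β => P i l β * (∑ k : Fin N, d.σ β ^ (k : ℕ) • B k) l j *
      inner ℂ (y i) (d.D β (x j))) := fun i l j =>
    ((cP i l).mul (d.cont_V B l j)).mul (d.cont_in _ _)
  have cL2 : ∀ i l, Continuous (fun β => ∑ j, P i l β * (∑ k : Fin N, d.σ β ^ (k : ℕ) • B k) l j *
      inner ℂ (y i) (d.D β (x j))) := fun i l => continuous_finset_sum _ fun j _ => cL3 i l j
  have cL : Continuous L := continuous_finset_sum _ fun i _ => continuous_finset_sum _ fun l _ =>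
    cL2 i l
  -- the identity
  have hId : d.Iw L = (s : ℂ) * ∑ i, ∑ l, d.Iw (fun β => R i l β * inner ℂ (y i) (d.D β (y l))) := by
    rw [hL, d.Iw_sum _ fun i _ => continuous_finset_sum _ fun l _ => cL2 i l, Finset.mul_sum]
    refine Finset.sum_congr rfl fun i _ => ?_
    rw [d.Iw_sum _ fun l _ => cL2 i l, Finset.mul_sum]
    refine Finset.sum_congr rfl fun l _ => ?_
    rw [d.Iw_sum _ fun j _ => cL3 i l j]
    have h1 : ∀ j, d.Iw (fun β => P i l β * (∑ k : Fin N, d.σ β ^ (k : ℕ) • B k) l j *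
        inner ℂ (y i) (d.D β (x j))) =
        d.LamL (hR i l) (y i) (∑ k : Fin N, B k l j • (A ^ (k : ℕ)) (x j)) := by
      intro j
      rw [d.Iw_V B (hR i l) l j (x j) (y i), map_sum]
      exact Finset.sum_congr rfl fun k _ => by rw [map_smul, smul_eq_mul]
    simp only [h1]
    rw [← map_sum, hT l, map_smul, smul_eq_mul, LamL_apply, d.Iw_Pi_inner (hR i l)]
  -- the bound
  have hpt : ∀ β, ‖L β‖ ≤ s / 4 * (∑ i, ∑ l, ‖P i l β‖ ^ 2) +
      1 / s * ∑ j, ∑ i, ‖inner ℂ (y i) (d.D β (x j))‖ ^ 2 := by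
    intro β
    have h := tr_bound1 (∑ k : Fin N, d.σ β ^ (k : ℕ) • B k) (hV β) (fun i l => P i l β)
      (fun j i => inner ℂ (y i) (d.D β (x j))) (t := s / 2) (by positivity)
    have e1 : s / 2 / 2 = s / 4 := by ring
    have e2 : 1 / (2 * (s / 2)) = 1 / s := by field_simp
    rw [e1, e2] at h
    exact h
  have c1 : Continuous (fun β => ∑ i, ∑ l, ‖P i l β‖ ^ 2) :=
    cont_sum2 fun i l => (cP i l).norm.pow 2
  have c2 : Continuous (fun β => ∑ j, ∑ i, ‖inner ℂ (y i) (d.D β (x j))‖ ^ 2) :=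
    cont_sum2 fun j i => (d.cont_in _ _).norm.pow 2
  have c3 : Continuous (fun β => s / 4 * ∑ i, ∑ l, ‖P i l β‖ ^ 2) := continuous_const.mul c1
  have c4 : Continuous (fun β => 1 / s * ∑ j, ∑ i, ‖inner ℂ (y i) (d.D β (x j))‖ ^ 2) :=
    continuous_const.mul c2
  have hJ : d.Jw (fun β => ‖L β‖) ≤ s / 4 * d.Jw (fun β => ∑ i, ∑ l, ‖P i l β‖ ^ 2) +
      1 / s * d.Jw (fun β => ∑ j, ∑ i, ‖inner ℂ (y i) (d.D β (x j))‖ ^ 2) := by
    rw [← d.Jw_const_mul, ← d.Jw_const_mul, ← d.Jw_add c3 c4]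
    exact d.Jw_mono cL.norm (c3.add c4) hpt
  have hre := d.re_Iw_le cL
  rw [hId, Complex.re_ofReal_mul] at hre
  exact hre.trans hJ

/-- Second chain: uses `V[A]^* y = s x`. -/
lemma chain_x {m N : ℕ} (B : Fin N → Matrix (Fin m) (Fin m) ℂ)
    (hV : ∀ β, ‖Matrix.toEuclideanCLM (n := Fin m) (𝕜 := ℂ) (∑ k : Fin N, d.σ β ^ (k : ℕ) • B k)‖ ≤ 1)
    (x y : Fin m → H) (s : ℝ) (hs : 0 < s)
    (hT' : ∀ u : Fin m → H, ∑ i, inner ℂ (y i) (∑ j, ∑ k : Fin N, B k i j • (A ^ (k : ℕ)) (u j))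
      = (s : ℂ) * ∑ j, inner ℂ (x j) (u j))
    (R : Fin m → Fin m → ℝ → ℂ) (hR : ∀ i l, d.𝓡 (R i l)) :
    s * (∑ l, ∑ j, d.Iw (fun β => R l j β * inner ℂ (x l) (d.D β (x j)))).re ≤
      s / 4 * d.Jw (fun β => ∑ i, ∑ l, ‖R i l β + d.Hh (R i l) β‖ ^ 2) +
        1 / s * d.Jw (fun β => ∑ j, ∑ i, ‖inner ℂ (y i) (d.D β (x j))‖ ^ 2) := by
  set P : Fin m → Fin m → ℝ → ℂ := fun i l β => R i l β + d.Hh (R i l) β with hP
  have cP : ∀ i l, Continuous (P i l) := fun i l => d.cont_Pi (hR i l)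
  set L : ℝ → ℂ := fun β => ∑ i, ∑ l, ∑ j, (∑ k : Fin N, d.σ β ^ (k : ℕ) • B k) i l * P l j β *
      inner ℂ (y i) (d.D β (x j)) with hL
  have cL3 : ∀ i l j, Continuous (fun β => (∑ k : Fin N, d.σ β ^ (k : ℕ) • B k) i l * P l j β *
      inner ℂ (y i) (d.D β (x j))) := fun i l j =>
    ((d.cont_V B i l).mul (cP l j)).mul (d.cont_in _ _)
  have cL2 : ∀ i l, Continuous (fun β => ∑ j, (∑ k : Fin N, d.σ β ^ (k : ℕ) • B k) i l * P l j β *
      inner ℂ (y i) (d.D β (x j))) := fun i l => continuous_finset_sum _ fun j _ => cL3 i l j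
  have cL : Continuous L := continuous_finset_sum _ fun i _ => continuous_finset_sum _ fun l _ =>
    cL2 i l
  -- pointwise use of the adjoint relation
  have hptT : ∀ (j : Fin m) (β : ℝ),
      ∑ i, ∑ l, ∑ k : Fin N, B k i l * (P l j β * inner ℂ (y i) ((A ^ (k : ℕ)) (d.D β (x j)))) =
        (s : ℂ) * ∑ l, P l j β * inner ℂ (x l) (d.D β (x j)) := by
    intro j β
    have h := hT' (fun l => P l j β • d.D β (x j))
    have e2 : ∑ l, inner ℂ (x l) (P l j β • d.D β (x j)) =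
        ∑ l, P l j β * inner ℂ (x l) (d.D β (x j)) :=
      Finset.sum_congr rfl fun l _ => by rw [inner_smul_right]
    rw [e2] at h
    rw [← h]
    refine Finset.sum_congr rfl fun i _ => ?_
    rw [inner_sum]
    refine Finset.sum_congr rfl fun l _ => ?_
    rw [inner_sum]
    refine Finset.sum_congr rfl fun k _ => ?_
    rw [inner_smul_right, map_smul, inner_smul_right]
  -- continuity of the pieces
  have cAk : ∀ (k : Fin N) (i j : Fin m),
      Continuous (fun β => inner ℂ (y i) ((A ^ (k : ℕ)) (d.D β (x j)))) := fun k i j =>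
    continuous_const.inner ((A ^ (k : ℕ)).continuous.comp (d.cont_D.clm_apply continuous_const))
  have hId : d.Iw L = (s : ℂ) * ∑ l, ∑ j, d.Iw (fun β => R l j β * inner ℂ (x l) (d.D β (x j))) := by
    rw [hL, d.Iw_sum _ fun i _ => continuous_finset_sum _ fun l _ => cL2 i l]
    -- step 1: expand every term by moments
    have h1 : ∀ i l j, d.Iw (fun β => (∑ k : Fin N, d.σ β ^ (k : ℕ) • B k) i l * P l j β *
        inner ℂ (y i) (d.D β (x j))) =
        ∑ k : Fin N, B k i l * d.Iw (fun β => P l j β *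
          inner ℂ (y i) ((A ^ (k : ℕ)) (d.D β (x j)))) := by
      intro i l j
      have h2 := d.Iw_V B (hR l j) i l (x j) (y i)
      have e : (fun β => (∑ k : Fin N, d.σ β ^ (k : ℕ) • B k) i l * P l j β *
          inner ℂ (y i) (d.D β (x j))) = fun β => (R l j β + d.Hh (R l j) β) *
          (∑ k : Fin N, d.σ β ^ (k : ℕ) • B k) i l * inner ℂ (y i) (d.D β (x j)) := by
        funext β
        simp only [hP]
        ring
      rw [e, h2]
      refine Finset.sum_congr rfl fun k _ => ?_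
      rw [LamL_apply]
      congr 2
      funext β
      rw [d.D_pow]
    -- step 2: assemble
    have h3 : ∀ i, d.Iw (fun β => ∑ l, ∑ j, (∑ k : Fin N, d.σ β ^ (k : ℕ) • B k) i l * P l j β *
        inner ℂ (y i) (d.D β (x j))) = ∑ j, ∑ l, ∑ k : Fin N,
          B k i l * d.Iw (fun β => P l j β * inner ℂ (y i) ((A ^ (k : ℕ)) (d.D β (x j)))) := by
      intro i
      rw [d.Iw_sum _ fun l _ => cL2 i l, Finset.sum_comm (s := Finset.univ) (t := Finset.univ)
        (f := fun j l => ∑ k : Fin N, B k i l * d.Iw (fun β => P l j β *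
          inner ℂ (y i) ((A ^ (k : ℕ)) (d.D β (x j)))))]
      refine Finset.sum_congr rfl fun l _ => ?_
      rw [d.Iw_sum _ fun j _ => cL3 i l j]
      exact Finset.sum_congr rfl fun j _ => h1 i l j
    simp only [h3]
    rw [Finset.sum_comm]
    have h4 : ∀ j, ∑ i, ∑ l, ∑ k : Fin N, B k i l * d.Iw (fun β => P l j β *
          inner ℂ (y i) ((A ^ (k : ℕ)) (d.D β (x j)))) =
        d.Iw (fun β => (s : ℂ) * ∑ l, P l j β * inner ℂ (x l) (d.D β (x j))) := by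
      intro j
      have e : (fun β => (s : ℂ) * ∑ l, P l j β * inner ℂ (x l) (d.D β (x j))) =
          fun β => ∑ i, ∑ l, ∑ k : Fin N,
            B k i l * (P l j β * inner ℂ (y i) ((A ^ (k : ℕ)) (d.D β (x j)))) := by
        funext β
        exact (hptT j β).symm
      rw [e]
      have c3 : ∀ (i l : Fin m) (k : Fin N), Continuous (fun β =>
          B k i l * (P l j β * inner ℂ (y i) ((A ^ (k : ℕ)) (d.D β (x j))))) := fun i l k =>
        continuous_const.mul ((cP l j).mul (cAk k i j))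
      rw [d.Iw_sum _ fun i _ => continuous_finset_sum _ fun l _ =>
        continuous_finset_sum _ fun k _ => c3 i l k]
      refine Finset.sum_congr rfl fun i _ => ?_
      rw [d.Iw_sum _ fun l _ => continuous_finset_sum _ fun k _ => c3 i l k]
      refine Finset.sum_congr rfl fun l _ => ?_
      rw [d.Iw_sum _ fun k _ => c3 i l k]
      refine Finset.sum_congr rfl fun k _ => ?_
      rw [d.Iw_const_mul]
    simp only [h4, d.Iw_const_mul]
    rw [← Finset.mul_sum, Finset.sum_comm]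
    congr 1
    refine Finset.sum_congr rfl fun j _ => ?_
    have c5 : ∀ l ∈ (Finset.univ : Finset (Fin m)),
        Continuous (fun β => P l j β * inner ℂ (x l) (d.D β (x j))) := fun l _ =>
      (cP l j).mul (d.cont_in _ _)
    rw [d.Iw_sum _ c5]
    exact Finset.sum_congr rfl fun l _ => d.Iw_Pi_inner (hR l j) _ _
  -- the bound
  have hpt : ∀ β, ‖L β‖ ≤ s / 4 * (∑ i, ∑ l, ‖P i l β‖ ^ 2) +
      1 / s * ∑ j, ∑ i, ‖inner ℂ (y i) (d.D β (x j))‖ ^ 2 := by
    intro β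
    have h := tr_bound2 (∑ k : Fin N, d.σ β ^ (k : ℕ) • B k) (hV β) (fun i l => P i l β)
      (fun j i => inner ℂ (y i) (d.D β (x j))) (t := s / 2) (by positivity)
    have e1 : s / 2 / 2 = s / 4 := by ring
    have e2 : 1 / (2 * (s / 2)) = 1 / s := by field_simp
    rw [e1, e2] at h
    exact h
  have c1 : Continuous (fun β => ∑ i, ∑ l, ‖P i l β‖ ^ 2) :=
    cont_sum2 fun i l => (cP i l).norm.pow 2
  have c2 : Continuous (fun β => ∑ j, ∑ i, ‖inner ℂ (y i) (d.D β (x j))‖ ^ 2) :=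
    cont_sum2 fun j i => (d.cont_in _ _).norm.pow 2
  have c3 : Continuous (fun β => s / 4 * ∑ i, ∑ l, ‖P i l β‖ ^ 2) := continuous_const.mul c1
  have c4 : Continuous (fun β => 1 / s * ∑ j, ∑ i, ‖inner ℂ (y i) (d.D β (x j))‖ ^ 2) :=
    continuous_const.mul c2
  have hJ : d.Jw (fun β => ‖L β‖) ≤ s / 4 * d.Jw (fun β => ∑ i, ∑ l, ‖P i l β‖ ^ 2) +
      1 / s * d.Jw (fun β => ∑ j, ∑ i, ‖inner ℂ (y i) (d.D β (x j))‖ ^ 2) := by
    rw [← d.Jw_const_mul, ← d.Jw_const_mul, ← d.Jw_add c3 c4]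
    exact d.Jw_mono cL.norm (c3.add c4) hpt
  have hre := d.re_Iw_le cL
  rw [hId, Complex.re_ofReal_mul] at hre
  exact hre.trans hJ

end CoreData

open CoreAux in
/-- The main inequality at a singular pair.  Notation of the blueprint: `V = Σ σ^k B_k`, `‖V(σ)‖ ≤ 1`,
`V[A] x = s y`, `V[A]^* y = s x`, `‖x‖ = ‖y‖ = 1`.  Then `s ≤ 2`. -/
theorem CoreData.singular_le_two {H : Type*} [NormedAddCommGroup H] [InnerProductSpace ℂ H]
    [FiniteDimensional ℂ H]
    {A : H →L[ℂ] H} (d : CoreData A) {m N : ℕ} (B : Fin N → Matrix (Fin m) (Fin m) ℂ)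
    (hV : ∀ β, ‖Matrix.toEuclideanCLM (n := Fin m) (𝕜 := ℂ) (∑ k : Fin N, d.σ β ^ (k : ℕ) • B k)‖ ≤ 1)
    (x y : Fin m → H) (s : ℝ) (hs : 0 ≤ s)
    (hx : ∑ j, ‖x j‖ ^ 2 = 1) (hy : ∑ i, ‖y i‖ ^ 2 = 1)
    (hT : ∀ i, ∑ j, ∑ k : Fin N, B k i j • (A ^ (k : ℕ)) (x j) = (s : ℂ) • y i)
    (hT' : ∀ u : Fin m → H, ∑ i, inner ℂ (y i) (∑ j, ∑ k : Fin N, B k i j • (A ^ (k : ℕ)) (u j))
      = (s : ℂ) * ∑ j, inner ℂ (x j) (u j)) :
    s ≤ 2 := by
  classical
  by_contra hs2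
  have hs2' : 2 < s := not_le.mp hs2
  have hs0 : 0 < s := by linarith
  set Z := d.Jw (fun β => ∑ j, ∑ i, ‖inner ℂ (y i) (d.D β (x j))‖ ^ 2) with hZ
  have hby := d.key_bound y s Z hs0 (fun R hR _ => d.chain_y B hV x y s hs0 hT R hR)
  have hbx := d.key_bound x s Z hs0 (fun R hR _ => d.chain_x B hV x y s hs0 hT' R hR)
  set X := d.Jw (fun β => ∑ i, ∑ l, ‖qf (d.D β) (x i) (x l)‖ ^ 2) with hX
  set Y := d.Jw (fun β => ∑ i, ∑ l, ‖qf (d.D β) (y i) (y l)‖ ^ 2) with hY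
  set Γ := d.Jw (fun β => ∑ j, ∑ i, ‖qf (d.D β) (y i) (x j)‖ ^ 2) with hΓ
  have cX : Continuous (fun β => ∑ i, ∑ l, ‖qf (d.D β) (x i) (x l)‖ ^ 2) :=
    CoreData.cont_sum2 fun i l => (d.cont_qf _ _).norm.pow 2
  have cY : Continuous (fun β => ∑ i, ∑ l, ‖qf (d.D β) (y i) (y l)‖ ^ 2) :=
    CoreData.cont_sum2 fun i l => (d.cont_qf _ _).norm.pow 2
  have cΓ : Continuous (fun β => ∑ j, ∑ i, ‖qf (d.D β) (y i) (x j)‖ ^ 2) :=
    CoreData.cont_sum2 fun i l => (d.cont_qf _ _).norm.pow 2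
  have hX0 : 0 ≤ X := d.Jw_nonneg cX fun β => by positivity
  have hY0 : 0 ≤ Y := d.Jw_nonneg cY fun β => by positivity
  -- gram inequality integrated
  have hgram : 2 * Γ ≤ X + Y := by
    rw [hΓ, hX, hY, ← d.Jw_const_mul, ← d.Jw_add cX cY]
    have c2 : Continuous (fun β => 2 * ∑ j, ∑ i, ‖qf (d.D β) (y i) (x j)‖ ^ 2) :=
      continuous_const.mul cΓ
    exact d.Jw_mono c2 (cX.add cY) fun β => gram_ineq (d.D β) (d.D_pos β) x y
  -- Z ≤ Γ
  have hZΓ : Z ≤ Γ := by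
    have hpt : ∀ (j i : Fin m) (β : ℝ), ‖qf (d.D β) (y i) (x j)‖ ^ 2 =
        ‖inner ℂ (y i) (d.D β (x j))‖ ^ 2 + ‖inner ℂ (x j) (d.D β (y i))‖ ^ 2 +
          2 * (inner ℂ (y i) (d.D β (x j)) * inner ℂ (x j) (d.D β (y i))).re := by
      intro j i β
      simp only [qf]
      rw [← inner_conj_symm (d.D β (y i)) (x j)]
      simp only [Complex.sq_norm, Complex.normSq_apply, Complex.add_re, Complex.add_im,
        Complex.mul_re, Complex.conj_re, Complex.conj_im]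
      ring
    have c1 : ∀ (j i : Fin m), Continuous (fun β => ‖inner ℂ (y i) (d.D β (x j))‖ ^ 2) :=
      fun j i => (d.cont_in _ _).norm.pow 2
    have c2 : ∀ (j i : Fin m), Continuous (fun β => ‖inner ℂ (x j) (d.D β (y i))‖ ^ 2) :=
      fun j i => (d.cont_in _ _).norm.pow 2
    have c3' : ∀ (j i : Fin m), Continuous (fun β =>
        inner ℂ (y i) (d.D β (x j)) * inner ℂ (x j) (d.D β (y i))) :=
      fun j i => (d.cont_in _ _).mul (d.cont_in _ _)
    have c3 : ∀ (j i : Fin m), Continuous (fun β =>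
        (inner ℂ (y i) (d.D β (x j)) * inner ℂ (x j) (d.D β (y i))).re) :=
      fun j i => Complex.continuous_re.comp (c3' j i)
    have hprod : ∀ (j i : Fin m), 0 ≤ d.Jw (fun β =>
        (inner ℂ (y i) (d.D β (x j)) * inner ℂ (x j) (d.D β (y i))).re) := by
      intro j i
      rw [← d.re_Iw (c3' j i)]
      have h := d.𝓑_int (d.𝓑_mul (d.𝓑_D (x j) (y i)) (d.𝓑_D (y i) (x j)))
      have h' : d.Iw (fun β => inner ℂ (y i) (d.D β (x j)) * inner ℂ (x j) (d.D β (y i))) =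
          inner ℂ (y i) (x j) * inner ℂ (x j) (y i) := h
      rw [h', ← inner_conj_symm (x j) (y i), Complex.mul_conj]
      simp [Complex.normSq_nonneg]
    have e : Γ = Z + d.Jw (fun β => ∑ j, ∑ i, ‖inner ℂ (x j) (d.D β (y i))‖ ^ 2) +
        2 * ∑ j, ∑ i, d.Jw (fun β =>
          (inner ℂ (y i) (d.D β (x j)) * inner ℂ (x j) (d.D β (y i))).re) := by
      rw [hΓ, hZ]
      simp only [hpt, Finset.sum_add_distrib, ← Finset.mul_sum]
      have c4 : Continuous (fun β => ∑ j, ∑ i, ‖inner ℂ (y i) (d.D β (x j))‖ ^ 2) :=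
        CoreData.cont_sum2 c1
      have c5 : Continuous (fun β => ∑ j, ∑ i, ‖inner ℂ (x j) (d.D β (y i))‖ ^ 2) :=
        CoreData.cont_sum2 c2
      have c6 : Continuous (fun β => 2 * ∑ j, ∑ i,
          (inner ℂ (y i) (d.D β (x j)) * inner ℂ (x j) (d.D β (y i))).re) :=
        continuous_const.mul (CoreData.cont_sum2 c3)
      have c45 : Continuous (fun β => (∑ j, ∑ i, ‖inner ℂ (y i) (d.D β (x j))‖ ^ 2) +
          ∑ j, ∑ i, ‖inner ℂ (x j) (d.D β (y i))‖ ^ 2) := c4.add c5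
      rw [d.Jw_add c45 c6, d.Jw_add c4 c5, d.Jw_const_mul, d.Jw_sum2 c3]
    have h5 : 0 ≤ d.Jw (fun β => ∑ j, ∑ i, ‖inner ℂ (x j) (d.D β (y i))‖ ^ 2) :=
      d.Jw_nonneg (CoreData.cont_sum2 c2) fun β => by positivity
    have h6 : 0 ≤ ∑ j, ∑ i, d.Jw (fun β =>
          (inner ℂ (y i) (d.D β (x j)) * inner ℂ (x j) (d.D β (y i))).re) :=
      Finset.sum_nonneg fun j _ => Finset.sum_nonneg fun i _ => hprod j i
    linarith
  -- positivity of X
  have hXpos : 0 < X := by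
    by_contra hX1
    have hX2 : X = 0 := le_antisymm (not_lt.mp hX1) hX0
    set W := d.Jw (fun _ => (1 : ℝ)) with hW
    have hW0 : 0 ≤ W := d.Jw_nonneg continuous_const fun _ => zero_le_one
    -- the diagonal integrates to 2
    have hdiag : d.Jw (fun β => ∑ j, (qf (d.D β) (x j) (x j)).re) = 2 := by
      have c1 : ∀ j, Continuous (fun β => (inner ℂ (x j) (d.D β (x j))).re) := fun j =>
        Complex.continuous_re.comp (d.cont_in _ _)
      have e1 : ∀ β j, (qf (d.D β) (x j) (x j)).re = 2 * (inner ℂ (x j) (d.D β (x j))).re := by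
        intro β j
        simp only [qf, Complex.add_re]
        rw [← inner_conj_symm (d.D β (x j)) (x j), Complex.conj_re]
        ring
      simp only [e1, ← Finset.mul_sum]
      rw [d.Jw_const_mul, d.Jw_sum _ fun j _ => c1 j]
      have e2 : ∀ j, d.Jw (fun β => (inner ℂ (x j) (d.D β (x j))).re) = ‖x j‖ ^ 2 := by
        intro j
        rw [← d.re_Iw (d.cont_in _ _)]
        have h : d.Iw (fun β => inner ℂ (x j) (d.D β (x j))) = inner ℂ (x j) (x j) :=
          d.𝓑_int (d.𝓑_D (x j) (x j))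
        rw [h, inner_self_eq_norm_sq_to_K]
        norm_cast
      simp only [e2, hx, mul_one]
    -- upper bound with parameter
    set t : ℝ := (m : ℝ) * W + 1 with ht
    have ht0 : 0 < t := by positivity
    have hbd : ∀ β, ∑ j, (qf (d.D β) (x j) (x j)).re ≤
        t / 2 * (∑ i, ∑ l, ‖qf (d.D β) (x i) (x l)‖ ^ 2) + 1 / (2 * t) * (m : ℝ) * 1 := by
      intro β
      have h1 : ∀ j, (qf (d.D β) (x j) (x j)).re ≤
          t / 2 * ‖qf (d.D β) (x j) (x j)‖ ^ 2 + 1 / (2 * t) := by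
        intro j
        have h2 := mul_norm_le_amgm ‖qf (d.D β) (x j) (x j)‖ 1 ht0
        have h3 := Complex.re_le_norm (qf (d.D β) (x j) (x j))
        simp only [mul_one, one_pow] at h2
        linarith
      calc ∑ j, (qf (d.D β) (x j) (x j)).re
          ≤ ∑ j, (t / 2 * ‖qf (d.D β) (x j) (x j)‖ ^ 2 + 1 / (2 * t)) :=
            Finset.sum_le_sum fun j _ => h1 j
        _ = t / 2 * ∑ j, ‖qf (d.D β) (x j) (x j)‖ ^ 2 + 1 / (2 * t) * (m : ℝ) * 1 := by
            rw [Finset.sum_add_distrib, ← Finset.mul_sum]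
            simp
            ring
        _ ≤ _ := by
            have h4 : ∑ j, ‖qf (d.D β) (x j) (x j)‖ ^ 2 ≤ ∑ i, ∑ l, ‖qf (d.D β) (x i) (x l)‖ ^ 2 :=
              Finset.sum_le_sum fun j _ => Finset.single_le_sum
                (f := fun l => ‖qf (d.D β) (x j) (x l)‖ ^ 2) (fun l _ => by positivity)
                (Finset.mem_univ j)
            have : 0 ≤ t / 2 := by positivity
            nlinarith
    have cdiag : Continuous (fun β => ∑ j, (qf (d.D β) (x j) (x j)).re) :=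
      continuous_finset_sum _ fun j _ => Complex.continuous_re.comp (d.cont_qf _ _)
    have c7 : Continuous (fun β => t / 2 * ∑ i, ∑ l, ‖qf (d.D β) (x i) (x l)‖ ^ 2) :=
      continuous_const.mul cX
    have c8 : Continuous (fun _ : ℝ => 1 / (2 * t) * (m : ℝ) * (1 : ℝ)) := continuous_const
    have c78 : Continuous (fun β => t / 2 * (∑ i, ∑ l, ‖qf (d.D β) (x i) (x l)‖ ^ 2) +
        1 / (2 * t) * (m : ℝ) * (1 : ℝ)) := c7.add c8
    have hint := d.Jw_mono cdiag c78 hbd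
    rw [hdiag, d.Jw_add c7 c8, d.Jw_const_mul, d.Jw_const_mul] at hint
    rw [← hX, hX2, mul_zero, zero_add] at hint
    -- 2 ≤ m W / (2 (m W + 1))
    have h9 : 1 / (2 * t) * (m : ℝ) * W < 2 := by
      have h10 : (m : ℝ) * W < t := by rw [ht]; linarith
      have h11 : 1 / (2 * t) * (m : ℝ) * W = ((m : ℝ) * W) / (2 * t) := by ring
      rw [h11, div_lt_iff₀ (by positivity)]
      nlinarith
    exact absurd hint (not_le.mpr h9)
  -- conclusion
  have hfin : s ^ 2 * (X + Y) ≤ 4 * (X + Y) := by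
    have h1 : 2 * Z ≤ X + Y := by linarith
    nlinarith
  have hXY : 0 < X + Y := by linarith
  have hs4 : s ^ 2 ≤ 4 := le_of_mul_le_mul_right hfin hXY
  nlinarith

end Crest.Agent.Crouzeix

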