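/-
WP: C. Neumann's method for the double layer equation on a convex curve.
-/
import Crest.Agent.Crouzeix.Kernel

set_option autoImplicit false

open Complex MeasureTheory Set Filter Topology
open scoped Real ComplexConjugate InnerProductSpace

noncomputable section

namespace Crest.Agent.Crouzeix.SCurve

variable (C : SCurve)

/-- The sub-Markov operator `g ↦ ∫ (k - κ) g`. -/
private def L0 (κ : ℝ) (g : ℝ → ℝ) (β₀ : ℝ) : ℝ :=
  ∫ β in (0 : ℝ)..(2 * π), (C.k β₀ β - κ) * g β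

private lemma cont_k₂ (β₀ : ℝ) : Continuous (fun β => C.k β₀ β) :=
  C.cont_k.comp (Continuous.prodMk continuous_const continuous_id)

private lemma two_pi_pos' : (0 : ℝ) ≤ 2 * π := by positivity

private lemma cont_L0 (κ : ℝ) {g : ℝ → ℝ} (hg : Continuous g) : Continuous (L0 C κ g) := by
  unfold L0
  apply intervalIntegral.continuous_parametric_intervalIntegral_of_continuous'
  have : Continuous (fun p : ℝ × ℝ => (C.k p.1 p.2 - κ) * g p.2) :=
    ((C.cont_k.comp continuous_id).sub continuous_const).mul (hg.comp continuous_snd)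
  exact this

/-- The basic bound: `|L₀ g| ≤ (∫ (k - κ)) · M` if `|g| ≤ M`, and `∫ (k-κ) = 1 - 2πκ`. -/
private lemma abs_L0_le {κ : ℝ} (hκ : ∀ β₀ β, κ ≤ C.k β₀ β) {g : ℝ → ℝ} (hg : Continuous g) {M : ℝ}
    (hM : ∀ β, |g β| ≤ M) (β₀ : ℝ) :
    |L0 C κ g β₀| ≤ (1 - 2 * π * κ) * M := by
  unfold L0
  have hc : Continuous (fun β => C.k β₀ β - κ) := (cont_k₂ C β₀).sub continuous_const
  have hint : ∫ β in (0 : ℝ)..(2 * π), (C.k β₀ β - κ) = 1 - 2 * π * κ := by
    rw [intervalIntegral.integral_sub ((cont_k₂ C β₀).intervalIntegrable _ _)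
      (continuous_const.intervalIntegrable _ _), C.integral_k β₀]
    simp
  have h1 : |∫ β in (0 : ℝ)..(2 * π), (C.k β₀ β - κ) * g β|
      ≤ ∫ β in (0 : ℝ)..(2 * π), |(C.k β₀ β - κ) * g β| :=
    intervalIntegral.abs_integral_le_integral_abs two_pi_pos'
  have h2 : ∫ β in (0 : ℝ)..(2 * π), |(C.k β₀ β - κ) * g β|
      ≤ ∫ β in (0 : ℝ)..(2 * π), (C.k β₀ β - κ) * M := by
    apply intervalIntegral.integral_mono_on two_pi_pos'
    · exact ((hc.mul hg).abs).intervalIntegrable _ _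
    · exact (hc.mul continuous_const).intervalIntegrable _ _
    · intro β _
      rw [abs_mul, abs_of_nonneg (sub_nonneg.2 (hκ β₀ β))]
      exact mul_le_mul_of_nonneg_left (hM β) (sub_nonneg.2 (hκ β₀ β))
  have h3 : ∫ β in (0 : ℝ)..(2 * π), (C.k β₀ β - κ) * M = (1 - 2 * π * κ) * M := by
    rw [intervalIntegral.integral_mul_const, hint]
  linarith

private lemma L0_sub (κ : ℝ) {g₁ g₂ : ℝ → ℝ} (h₁ : Continuous g₁) (h₂ : Continuous g₂) (β₀ : ℝ) :
    L0 C κ g₁ β₀ - L0 C κ g₂ β₀ = L0 C κ (fun β => g₁ β - g₂ β) β₀ := by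
  unfold L0
  have hc : Continuous (fun β => C.k β₀ β - κ) := (cont_k₂ C β₀).sub continuous_const
  have hm₁ : Continuous (fun β => (C.k β₀ β - κ) * g₁ β) := hc.mul h₁
  have hm₂ : Continuous (fun β => (C.k β₀ β - κ) * g₂ β) := hc.mul h₂
  rw [← intervalIntegral.integral_sub (hm₁.intervalIntegrable _ _) (hm₂.intervalIntegrable _ _)]
  congr 1
  ext β
  ring

private lemma one_sub_nonneg {κ : ℝ} (hκ : ∀ β₀ β, κ ≤ C.k β₀ β) : 0 ≤ 1 - 2 * π * κ := by
  have hc : Continuous (fun β => C.k 0 β - κ) := (cont_k₂ C 0).sub continuous_const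
  have hint : ∫ β in (0 : ℝ)..(2 * π), (C.k 0 β - κ) = 1 - 2 * π * κ := by
    rw [intervalIntegral.integral_sub ((cont_k₂ C 0).intervalIntegrable _ _)
      (continuous_const.intervalIntegrable _ _), C.integral_k 0]
    simp
  rw [← hint]
  exact intervalIntegral.integral_nonneg two_pi_pos' (fun β _ => sub_nonneg.2 (hκ 0 β))

private lemma L0_lip {L : ℝ} (hL : ∀ β₀ β₁ β, |C.k β₀ β - C.k β₁ β| ≤ L * |β₀ - β₁|) (κ : ℝ)
    {g : ℝ → ℝ} (hg : Continuous g) {M : ℝ} (hM : ∀ β, |g β| ≤ M) (β₀ β₁ : ℝ) :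
    |L0 C κ g β₀ - L0 C κ g β₁| ≤ (2 * π * (L * M)) * |β₀ - β₁| := by
  unfold L0
  have hc₀ : Continuous (fun β => C.k β₀ β - κ) := (cont_k₂ C β₀).sub continuous_const
  have hc₁ : Continuous (fun β => C.k β₁ β - κ) := (cont_k₂ C β₁).sub continuous_const
  have hm₀ : Continuous (fun β => (C.k β₀ β - κ) * g β) := hc₀.mul hg
  have hm₁ : Continuous (fun β => (C.k β₁ β - κ) * g β) := hc₁.mul hg
  rw [← intervalIntegral.integral_sub (hm₀.intervalIntegrable _ _) (hm₁.intervalIntegrable _ _)]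
  have h1 := intervalIntegral.norm_integral_le_of_norm_le_const (a := (0 : ℝ)) (b := 2 * π)
    (f := fun β => (C.k β₀ β - κ) * g β - (C.k β₁ β - κ) * g β)
    (C := L * |β₀ - β₁| * M) (fun β _ => by
      have : (C.k β₀ β - κ) * g β - (C.k β₁ β - κ) * g β = (C.k β₀ β - C.k β₁ β) * g β := by ring
      rw [this, Real.norm_eq_abs, abs_mul]
      exact mul_le_mul (hL β₀ β₁ β) (hM β) (abs_nonneg _)
        ((abs_nonneg _).trans (hL β₀ β₁ β)))
  rw [Real.norm_eq_abs] at h1
  calc _ ≤ L * |β₀ - β₁| * M * |2 * π - 0| := h1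
    _ = (2 * π * (L * M)) * |β₀ - β₁| := by
      rw [sub_zero, abs_of_pos (by positivity : (0 : ℝ) < 2 * π)]
      ring

private lemma LP_cont {f : ℝ → ℝ} (hf : LP (fun β => (f β : ℂ))) : Continuous f := by
  obtain ⟨⟨L, hL⟩, -⟩ := hf
  have : LipschitzWith (Real.toNNReal L) f := by
    apply LipschitzWith.of_dist_le_mul
    intro x y
    have h := hL x y
    rw [← Complex.ofReal_sub, Complex.norm_real, Real.norm_eq_abs] at h
    rw [Real.dist_eq, Real.dist_eq]
    refine h.trans (mul_le_mul_of_nonneg_right (Real.le_coe_toNNReal L) (abs_nonneg _))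
  exact this.continuous

private lemma LP_bdd {f : ℝ → ℝ} (hc : Continuous f) (hp : Function.Periodic f (2 * π)) :
    ∃ M : ℝ, 0 ≤ M ∧ ∀ β, |f β| ≤ M := by
  have hpos : (0 : ℝ) < 2 * π := by positivity
  obtain ⟨x, -, hx⟩ := (isCompact_Icc (a := (0 : ℝ)) (b := 0 + 2 * π)).exists_isMaxOn
    ⟨0, by simp [hpos.le]⟩ (hc.abs.continuousOn)
  refine ⟨|f x|, abs_nonneg _, fun β => ?_⟩
  obtain ⟨y, hy, hyβ⟩ := Function.Periodic.exists_mem_Ico₀ hp hpos β
  rw [hyβ]
  have := hx (Ico_subset_Icc_self (by simpa using hy))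
  simpa using this

private lemma L0_periodic {κ : ℝ} (g : ℝ → ℝ) : Function.Periodic (L0 C κ g) (2 * π) := by
  intro β₀
  unfold L0
  simp only [C.per_k₁]

/-- Solve `K η - η = f + c` with `η` Lipschitz, `c` a constant.

Proof: let `κ > 0` be the Doeblin constant (`exists_k_lower`), `q = 1 - 2πκ ∈ [0,1)` (`integral_k`).
`L₀ g (β₀) = ∫ (k(β₀,β) - κ) g(β) dβ` has a nonnegative kernel of total mass `q`, so it is a sup-norm
contraction on continuous periodic functions. Let `η` be the fixed point of `η = -f + L₀ η`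
(Banach fixed point in `C(AddCircle)` or in a closed subspace of bounded continuous functions).
Then `K η - η = f + κ ∫ η`. `η` is Lipschitz since `L₀ η` is (`exists_k_lip`). -/
theorem solve_K {f : ℝ → ℝ} (hf : LP (fun β => (f β : ℂ))) :
    ∃ (η : ℝ → ℝ) (c : ℝ), LP (fun β => (η β : ℂ)) ∧
      ∀ β₀, C.K (fun β => (η β : ℂ)) β₀ - (η β₀ : ℂ) = ((f β₀ + c : ℝ) : ℂ) := by
  classical
  obtain ⟨κ, hκpos, hκ⟩ := C.exists_k_lower
  obtain ⟨Lk, -, hLk⟩ := C.exists_k_lip
  have hfc : Continuous f := LP_cont hf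
  have hfper : Function.Periodic f (2 * π) := by
    intro x
    have : ((f (x + 2 * π) : ℝ) : ℂ) = ((f x : ℝ) : ℂ) := hf.2 x
    exact_mod_cast this
  obtain ⟨Mf, hMf0, hMf⟩ := LP_bdd hfc hfper
  set q : ℝ := 1 - 2 * π * κ with hq
  have hq0 : 0 ≤ q := one_sub_nonneg C hκ
  have hq1 : q < 1 := by
    have : 0 < 2 * π * κ := by positivity
    rw [hq]; linarith
  -- the space of periodic bounded continuous functions
  let S : Set (BoundedContinuousFunction ℝ ℝ) := {g | Function.Periodic (g : ℝ → ℝ) (2 * π)}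
  have hSclosed : IsClosed S := by
    have : S = ⋂ x : ℝ, {g : BoundedContinuousFunction ℝ ℝ | g (x + 2 * π) = g x} := by
      ext g; simp [S, Function.Periodic]
    rw [this]
    refine isClosed_iInter fun x => isClosed_eq ?_ ?_
    · exact continuous_eval_const _
    · exact continuous_eval_const _
  have : CompleteSpace S := hSclosed.completeSpace_coe
  -- the map
  let T₀ : BoundedContinuousFunction ℝ ℝ → BoundedContinuousFunction ℝ ℝ := fun g =>
    BoundedContinuousFunction.ofNormedAddCommGroup (fun β₀ => - f β₀ + L0 C κ g β₀)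
      (hfc.neg.add (cont_L0 C κ g.continuous)) (Mf + q * ‖g‖) (fun β₀ => by
        have h1 := abs_L0_le C hκ g.continuous (M := ‖g‖) (fun β => by
          have := g.norm_coe_le_norm β
          rwa [Real.norm_eq_abs] at this) β₀
        rw [Real.norm_eq_abs]
        calc |-f β₀ + L0 C κ g β₀| ≤ |-f β₀| + |L0 C κ g β₀| := abs_add_le _ _
          _ ≤ Mf + q * ‖g‖ := by
            rw [abs_neg]
            exact add_le_add (hMf β₀) h1)
  have hT₀ : ∀ g β₀, T₀ g β₀ = - f β₀ + L0 C κ g β₀ := fun g β₀ => rfl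
  have hTS : ∀ g ∈ S, T₀ g ∈ S := by
    intro g _ β₀
    rw [hT₀, hT₀, hfper β₀, L0_periodic C g β₀]
  let T : S → S := fun g => ⟨T₀ g.1, hTS g.1 g.2⟩
  have hcontr : ContractingWith (Real.toNNReal q) T := by
    refine ⟨?_, ?_⟩
    · rw [← NNReal.coe_lt_coe, Real.coe_toNNReal _ hq0]
      simpa using hq1
    · apply LipschitzWith.of_dist_le_mul
      intro g₁ g₂
      rw [Real.coe_toNNReal _ hq0]
      change dist (T₀ g₁.1) (T₀ g₂.1) ≤ q * dist g₁.1 g₂.1
      rw [BoundedContinuousFunction.dist_le (mul_nonneg hq0 dist_nonneg)]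
      intro β₀
      rw [hT₀, hT₀, Real.dist_eq]
      have : -f β₀ + L0 C κ g₁.1 β₀ - (-f β₀ + L0 C κ g₂.1 β₀)
          = L0 C κ (fun β => g₁.1 β - g₂.1 β) β₀ := by
        rw [← L0_sub C κ g₁.1.continuous g₂.1.continuous]; ring
      rw [this]
      refine abs_L0_le C hκ (g₁.1.continuous.sub g₂.1.continuous) (fun β => ?_) β₀
      have := BoundedContinuousFunction.dist_coe_le_dist (f := g₁.1) (g := g₂.1) β
      rwa [Real.dist_eq] at this
  have : Nonempty S := ⟨⟨0, fun x => by simp⟩⟩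
  let η : S := hcontr.fixedPoint T
  have hη : T η = η := hcontr.fixedPoint_isFixedPt
  have hηeq : ∀ β₀, (η.1 : ℝ → ℝ) β₀ = - f β₀ + L0 C κ η.1 β₀ := by
    intro β₀
    have := congrArg (fun g : S => g.1 β₀) hη
    exact this.symm
  have hηc : Continuous (η.1 : ℝ → ℝ) := η.1.continuous
  refine ⟨η.1, κ * ∫ β in (0 : ℝ)..(2 * π), η.1 β, ⟨?_, ?_⟩, ?_⟩
  · -- Lipschitz
    obtain ⟨⟨Lf, hLf⟩, -⟩ := hf
    refine ⟨Lf + 2 * π * (Lk * ‖η.1‖), fun x y => ?_⟩
    rw [← Complex.ofReal_sub, Complex.norm_real, Real.norm_eq_abs, hηeq x, hηeq y]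
    have h1 := L0_lip C hLk κ hηc (M := ‖η.1‖) (fun β => by
      have := η.1.norm_coe_le_norm β
      rwa [Real.norm_eq_abs] at this) x y
    have h2 := hLf x y
    rw [← Complex.ofReal_sub, Complex.norm_real, Real.norm_eq_abs] at h2
    calc |-f x + L0 C κ η.1 x - (-f y + L0 C κ η.1 y)|
        = |-(f x - f y) + (L0 C κ η.1 x - L0 C κ η.1 y)| := by ring_nf
      _ ≤ |-(f x - f y)| + |L0 C κ η.1 x - L0 C κ η.1 y| := abs_add_le _ _
      _ ≤ Lf * |x - y| + (2 * π * (Lk * ‖η.1‖)) * |x - y| := by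
          rw [abs_neg]; exact add_le_add h2 h1
      _ = _ := by ring
  · intro x
    have := η.2 x
    simp only []
    rw [this]
  · intro β₀
    unfold K
    have hk : Continuous (fun β => C.k β₀ β) := cont_k₂ C β₀
    have h1 : ∫ β in (0 : ℝ)..(2 * π), (C.k β₀ β : ℂ) * (η.1 β : ℂ)
        = ((∫ β in (0 : ℝ)..(2 * π), C.k β₀ β * η.1 β : ℝ) : ℂ) := by
      rw [← intervalIntegral.integral_ofReal]
      congr 1
      ext β
      push_cast
      ring
    rw [h1]
    have h2 : L0 C κ η.1 β₀ = (∫ β in (0 : ℝ)..(2 * π), C.k β₀ β * η.1 β)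
        - κ * ∫ β in (0 : ℝ)..(2 * π), η.1 β := by
      unfold L0
      have hm₁ : Continuous (fun β => C.k β₀ β * η.1 β) := hk.mul hηc
      have hm₂ : Continuous (fun β => κ * η.1 β) := continuous_const.mul hηc
      rw [← intervalIntegral.integral_const_mul,
        ← intervalIntegral.integral_sub (hm₁.intervalIntegrable _ _) (hm₂.intervalIntegrable _ _)]
      congr 1
      ext β
      ring
    have h3 := hηeq β₀
    rw [h2] at h3
    rw [← Complex.ofReal_sub]
    congr 1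
    linarith

end Crest.Agent.Crouzeix.SCurve
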