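/-
WP: the exterior Cauchy transform of a Lipschitz density: holomorphy, decay, boundary values
(Plemelj), relation of the boundary values to the double layer operator.
-/
import Crest.Agent.Crouzeix.Kernel

set_option autoImplicit false

open Complex MeasureTheory Set Filter Topology
open scoped Real ComplexConjugate InnerProductSpace

noncomputable section

namespace Crest.Agent.Crouzeix

private lemma eI_neg_mul (β : ℝ) : eI (-β) * eI β = 1 := by
  unfold eI
  rw [← Complex.exp_add]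
  simp

private lemma conj_eI (β : ℝ) : conj (eI β) = eI (-β) := by
  unfold eI
  rw [← Complex.exp_conj]
  simp

private lemma norm_mul_eI (β : ℝ) (w : ℂ) : ‖eI β * w‖ = ‖w‖ := by
  rw [norm_mul, norm_eI, one_mul]

private lemma exists_bound_of_periodic {E : Type*} [NormedAddCommGroup E] {f : ℝ → E}
    (hc : Continuous f) (hp : Function.Periodic f (2 * π)) : ∃ M : ℝ, ∀ x, ‖f x‖ ≤ M := by
  obtain ⟨M, hM⟩ := (hp.compact_of_continuous Real.two_pi_pos.ne' hc).isBounded.exists_norm_le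
  exact ⟨M, fun x => hM _ (mem_range_self x)⟩

namespace SCurve

variable (C : SCurve)

lemma isOpen_ext : IsOpen C.ext := by
  have : C.ext = ⋃ β : ℝ, {z : ℂ | C.h β < (eI (-β) * z).re} := by
    ext z; simp [SCurve.ext]
  rw [this]
  refine isOpen_iUnion fun β => ?_
  exact isOpen_lt continuous_const (Complex.continuous_re.comp (continuous_const.mul continuous_id))

lemma σs_mem_ext (β : ℝ) {s : ℝ} (hs : 0 < s) : C.σs β s ∈ C.ext := by
  refine ⟨β, ?_⟩
  have h1 : eI (-β) * C.σs β s = eI (-β) * C.σ β + s := by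
    unfold σs
    rw [mul_add]
    congr 1
    calc eI (-β) * ((s : ℂ) * eI β) = (s : ℂ) * (eI (-β) * eI β) := by ring
      _ = s := by rw [eI_neg_mul, mul_one]
  rw [h1, Complex.add_re, C.re_σ, Complex.ofReal_re]
  linarith

lemma σ_ne_of_mem_ext {z : ℂ} (hz : z ∈ C.ext) (β : ℝ) : C.σ β ≠ z := by
  rintro rfl
  obtain ⟨β₁, h⟩ := hz
  exact absurd (C.support β₁ β) (not_le.mpr h)

lemma σ_ne_of_mem_inside {z : ℂ} (hz : z ∈ C.inside) (β : ℝ) : C.σ β ≠ z := by
  rintro rfl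
  have := hz β
  rw [C.re_σ] at this
  exact lt_irrefl _ this

/-- If `R` is large, every `z` with `R ≤ ‖z‖` lies in the exterior. -/
lemma exists_large_mem_ext : ∃ R : ℝ, 0 < R ∧ ∀ z : ℂ, R ≤ ‖z‖ → z ∈ C.ext := by
  obtain ⟨M, hM⟩ := exists_bound_of_periodic C.cont_h C.per_h
  refine ⟨|M| + 1, by positivity, fun z hz => ⟨Complex.arg z, ?_⟩⟩
  have h1 : eI (-Complex.arg z) * z = (‖z‖ : ℂ) := by
    have hz' := Complex.norm_mul_exp_arg_mul_I z
    calc eI (-Complex.arg z) * z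
        = eI (-Complex.arg z) * ((‖z‖ : ℂ) * Complex.exp (↑(Complex.arg z) * I)) := by rw [hz']
      _ = (‖z‖ : ℂ) * (eI (-Complex.arg z) * eI (Complex.arg z)) := by
          unfold eI; ring
      _ = (‖z‖ : ℂ) := by rw [eI_neg_mul, mul_one]
  rw [h1, Complex.ofReal_re]
  have h2 : C.h (Complex.arg z) ≤ |M| := by
    have := hM (Complex.arg z)
    rw [Real.norm_eq_abs] at this
    exact (le_abs_self _).trans (this.trans (le_abs_self _))
  linarith

/-- Quantitative separation from the curve. -/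
private lemma dist_lower {z : ℂ} {β₁ : ℝ} (β : ℝ) :
    (eI (-β₁) * z).re - C.h β₁ ≤ ‖C.σ β - z‖ := by
  have h1 : ‖C.σ β - z‖ = ‖eI (-β₁) * (z - C.σ β)‖ := by
    rw [norm_mul_eI, norm_sub_rev]
  have h2 : (eI (-β₁) * (z - C.σ β)).re ≤ ‖eI (-β₁) * (z - C.σ β)‖ := Complex.re_le_norm _
  have h3 : (eI (-β₁) * (z - C.σ β)).re = (eI (-β₁) * z).re - (eI (-β₁) * C.σ β).re := by
    rw [mul_sub, Complex.sub_re]
  have h4 := C.support β₁ β
  rw [h1]
  linarith

/-- `∮ dξ / (ξ - z) = 0` for `z` outside: if `h(β₁) < Re (e^{-iβ₁} z)`, then `e^{-iβ₁}(z - σ(β))` has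
positive real part for every `β`, so `β ↦ log (e^{-iβ₁}(z - σ(β)))` is a periodic primitive. -/
lemma integral_dσ_div (z : ℂ) (hz : z ∈ C.ext) :
    ∫ β in (0 : ℝ)..(2 * π), C.dσ β / (C.σ β - z) = 0 := by
  obtain ⟨β₁, hβ₁⟩ := id hz
  set w : ℝ → ℂ := fun β => eI (-β₁) * (z - C.σ β) with hw
  have hwre : ∀ β, 0 < (w β).re := by
    intro β
    have h3 : (w β).re = (eI (-β₁) * z).re - (eI (-β₁) * C.σ β).re := by
      simp only [hw]
      rw [mul_sub, Complex.sub_re]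
    have h4 := C.support β₁ β
    rw [h3]; linarith
  have hne : ∀ β, C.σ β - z ≠ 0 := fun β => sub_ne_zero.mpr (C.σ_ne_of_mem_ext hz β)
  have hderiv : ∀ β ∈ uIcc (0 : ℝ) (2 * π),
      HasDerivAt (fun t => Complex.log (w t)) (C.dσ β / (C.σ β - z)) β := by
    intro β _
    have h1 : HasDerivAt w (eI (-β₁) * (-(C.dσ β))) β := by
      have := ((C.hasDeriv_σ β).const_sub z).const_mul (eI (-β₁))
      exact this
    have h2 := h1.clog_real (Or.inl (hwre β))
    convert h2 using 1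
    simp only [hw]
    have he := eI_ne_zero (-β₁)
    have hne' : z - C.σ β ≠ 0 := by
      intro h; apply hne β; rw [← neg_sub, h, neg_zero]
    rw [mul_div_mul_left _ _ he, div_eq_div_iff (hne β) hne']
    ring
  have hint : IntervalIntegrable (fun β => C.dσ β / (C.σ β - z)) volume 0 (2 * π) := by
    apply Continuous.intervalIntegrable
    exact C.cont_dσ.div (C.cont_σ.sub continuous_const) hne
  rw [intervalIntegral.integral_eq_sub_of_hasDerivAt hderiv hint]
  have : w (2 * π) = w 0 := by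
    simp only [hw]
    have := C.per_σ 0
    rw [zero_add] at this
    rw [this]
  rw [this, sub_self]

lemma differentiableOn_Ce {g : ℝ → ℂ} (hg : Continuous g) : DifferentiableOn ℂ (C.Ce g) C.ext := by
  intro z₀ hz₀
  obtain ⟨β₁, hβ₁⟩ := id hz₀
  set δ : ℝ := (eI (-β₁) * z₀).re - C.h β₁ with hδ
  have hδpos : 0 < δ := by rw [hδ]; linarith
  have hlow : ∀ β, δ ≤ ‖C.σ β - z₀‖ := fun β => C.dist_lower β
  have hlow2 : ∀ β, ∀ z ∈ Metric.ball z₀ (δ / 2), δ / 2 ≤ ‖C.σ β - z‖ := by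
    intro β z hz
    have h1 : ‖z - z₀‖ < δ / 2 := by simpa [dist_eq_norm] using hz
    have h2 : ‖C.σ β - z₀‖ ≤ ‖C.σ β - z‖ + ‖z - z₀‖ := by
      calc ‖C.σ β - z₀‖ = ‖(C.σ β - z) + (z - z₀)‖ := by ring_nf
        _ ≤ _ := norm_add_le _ _
    have := hlow β
    linarith
  have hne : ∀ β, ∀ z ∈ Metric.ball z₀ (δ / 2), C.σ β - z ≠ 0 := by
    intro β z hz h0
    have := hlow2 β z hz
    rw [h0, norm_zero] at this
    linarith
  have hz₀ball : z₀ ∈ Metric.ball z₀ (δ / 2) := Metric.mem_ball_self (by positivity)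
  let F : ℂ → ℝ → ℂ := fun z β => g β * C.dσ β / (C.σ β - z)
  let F' : ℂ → ℝ → ℂ := fun z β => g β * C.dσ β / (C.σ β - z) ^ 2
  have hcontF : ∀ z ∈ Metric.ball z₀ (δ / 2), Continuous (F z) := by
    intro z hz
    exact (hg.mul C.cont_dσ).div (C.cont_σ.sub continuous_const) (fun β => hne β z hz)
  have hcontF' : Continuous (F' z₀) :=
    (hg.mul C.cont_dσ).div ((C.cont_σ.sub continuous_const).pow 2)
      (fun β => pow_ne_zero 2 (hne β z₀ hz₀ball))
  have key := intervalIntegral.hasDerivAt_integral_of_dominated_loc_of_deriv_le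
    (μ := volume) (a := (0 : ℝ)) (b := 2 * π) (F := F) (F' := F') (x₀ := z₀)
    (bound := fun β => ‖g β * C.dσ β‖ / (δ / 2) ^ 2)
    (s := Metric.ball z₀ (δ / 2)) (Metric.ball_mem_nhds _ (by positivity))
    ?_ ?_ ?_ ?_ ?_ ?_
  · have h2 := key.2.differentiableAt.const_mul ((2 * π * I)⁻¹ : ℂ)
    exact h2.differentiableWithinAt
  · filter_upwards [Metric.ball_mem_nhds z₀ (show 0 < δ / 2 by positivity)] with z hz
    exact (hcontF z hz).aestronglyMeasurable
  · exact (hcontF z₀ hz₀ball).intervalIntegrable _ _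
  · exact hcontF'.aestronglyMeasurable
  · refine Eventually.of_forall fun β _ z hz => ?_
    have h1 := hlow2 β z hz
    show ‖g β * C.dσ β / (C.σ β - z) ^ 2‖ ≤ _
    rw [norm_div, norm_pow]
    apply div_le_div_of_nonneg_left (norm_nonneg _) (by positivity)
    exact pow_le_pow_left₀ (by positivity) h1 2
  · apply Continuous.intervalIntegrable
    exact ((hg.mul C.cont_dσ).norm).div_const _
  · refine Eventually.of_forall fun β _ z hz => ?_
    have hne1 := hne β z hz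
    have h3 : HasDerivAt (fun x => C.σ β - x) (-1 : ℂ) z := by
      simpa using (hasDerivAt_id z).const_sub (C.σ β)
    have h4 := (h3.inv hne1).const_mul (g β * C.dσ β)
    have h6 : (fun x => F x β) = fun x => g β * C.dσ β * (C.σ β - x)⁻¹ := by
      funext x
      show g β * C.dσ β / (C.σ β - x) = _
      rw [div_eq_mul_inv]
    have e : F' z β = g β * C.dσ β * (-(-1) / (C.σ β - z) ^ 2) := by
      show g β * C.dσ β / (C.σ β - z) ^ 2 = _
      ring
    rw [h6, e]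
    exact h4

/-- Expansion at `∞`. -/
lemma Ce_expansion {g : ℝ → ℂ} (hg : Continuous g) :
    ∃ K R : ℝ, 0 < R ∧ ∀ z : ℂ, R ≤ ‖z‖ →
      ‖C.Ce g z + z⁻¹ * ((2 * π * I)⁻¹ * ∫ β in (0 : ℝ)..(2 * π), g β * C.dσ β)‖ ≤ K / ‖z‖ ^ 2 := by
  obtain ⟨Mσ, hMσ⟩ := exists_bound_of_periodic C.cont_σ C.per_σ
  set Mσ' : ℝ := |Mσ| with hMσ'
  have hMσ'2 : ∀ β, ‖C.σ β‖ ≤ Mσ' := fun β => (hMσ β).trans (le_abs_self _)
  have hMσ'0 : 0 ≤ Mσ' := abs_nonneg _
  set A : ℝ := ∫ β in (0 : ℝ)..(2 * π), ‖g β * C.dσ β‖ with hA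
  have hcontG : Continuous fun β => g β * C.dσ β := hg.mul C.cont_dσ
  refine ⟨‖(2 * π * I : ℂ)⁻¹‖ * (2 * Mσ' * A), 2 * Mσ' + 1, by positivity, fun z hz => ?_⟩
  have hzpos : 0 < ‖z‖ := by
    have : 0 < 2 * Mσ' + 1 := by positivity
    linarith
  have hz0 : z ≠ 0 := norm_pos_iff.mp hzpos
  have hlow : ∀ β, ‖z‖ / 2 ≤ ‖C.σ β - z‖ := by
    intro β
    have h1 : ‖z‖ ≤ ‖C.σ β‖ + ‖C.σ β - z‖ := by
      calc ‖z‖ = ‖C.σ β - (C.σ β - z)‖ := by ring_nf
        _ ≤ _ := norm_sub_le _ _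
    have h2 := hMσ'2 β
    linarith
  have hne : ∀ β, C.σ β - z ≠ 0 := by
    intro β h0
    have := hlow β
    rw [h0, norm_zero] at this
    linarith
  have hcont1 : Continuous fun β => g β * C.dσ β / (C.σ β - z) :=
    hcontG.div (C.cont_σ.sub continuous_const) hne
  have hid : C.Ce g z + z⁻¹ * ((2 * π * I)⁻¹ * ∫ β in (0 : ℝ)..(2 * π), g β * C.dσ β)
      = (2 * π * I)⁻¹ * ∫ β in (0 : ℝ)..(2 * π), g β * C.dσ β * (C.σ β / (z * (C.σ β - z))) := by
    unfold SCurve.Ce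
    have h1 : z⁻¹ * ((2 * π * I)⁻¹ * ∫ β in (0 : ℝ)..(2 * π), g β * C.dσ β)
        = (2 * π * I)⁻¹ * ∫ β in (0 : ℝ)..(2 * π), z⁻¹ * (g β * C.dσ β) := by
      rw [intervalIntegral.integral_const_mul]; ring
    have hI2 : IntervalIntegrable (fun β => z⁻¹ * (g β * C.dσ β)) volume 0 (2 * π) :=
      (continuous_const.mul hcontG).intervalIntegrable _ _
    rw [h1, ← mul_add, ← intervalIntegral.integral_add (hcont1.intervalIntegrable _ _) hI2]
    congr 1
    apply intervalIntegral.integral_congr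
    intro β _
    have := hne β
    simp only
    field_simp
    ring
  rw [hid, norm_mul]
  have hbound : ‖∫ β in (0 : ℝ)..(2 * π), g β * C.dσ β * (C.σ β / (z * (C.σ β - z)))‖
      ≤ ∫ β in (0 : ℝ)..(2 * π), ‖g β * C.dσ β‖ * (2 * Mσ' / ‖z‖ ^ 2) := by
    apply intervalIntegral.norm_integral_le_of_norm_le (by positivity)
    · refine Eventually.of_forall fun β _ => ?_
      rw [norm_mul]
      apply mul_le_mul_of_nonneg_left _ (norm_nonneg _)
      rw [norm_div, norm_mul]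
      have h1 := hlow β
      have h2 := hMσ'2 β
      rw [div_le_div_iff₀ (by have := norm_pos_iff.mpr (hne β); positivity) (by positivity)]
      have h3 : ‖z‖ ^ 2 / 2 ≤ ‖z‖ * ‖C.σ β - z‖ := by
        have := mul_le_mul_of_nonneg_left h1 hzpos.le
        calc ‖z‖ ^ 2 / 2 = ‖z‖ * (‖z‖ / 2) := by ring
          _ ≤ _ := this
      calc ‖C.σ β‖ * ‖z‖ ^ 2 ≤ Mσ' * ‖z‖ ^ 2 := by gcongr
        _ = 2 * Mσ' * (‖z‖ ^ 2 / 2) := by ring
        _ ≤ 2 * Mσ' * (‖z‖ * ‖C.σ β - z‖) := by gcongr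
    · exact (hcontG.norm.mul continuous_const).intervalIntegrable _ _
  rw [intervalIntegral.integral_mul_const] at hbound
  calc ‖(2 * π * I : ℂ)⁻¹‖ * ‖∫ β in (0 : ℝ)..(2 * π), g β * C.dσ β * (C.σ β / (z * (C.σ β - z)))‖
      ≤ ‖(2 * π * I : ℂ)⁻¹‖ * (A * (2 * Mσ' / ‖z‖ ^ 2)) := by gcongr
    _ = _ := by ring

/-- `σ_s(β₀)` is further from `σ(β)` than `σ(β₀)`: `Re (e^{-iβ₀} (σ(β) - σ(β₀))) ≤ 0` by `support`. -/
lemma chord_σs (β β₀ : ℝ) {s : ℝ} (hs : 0 ≤ s) :
    ‖C.σ β - C.σ β₀‖ ^ 2 + s ^ 2 ≤ ‖C.σ β - C.σs β₀ s‖ ^ 2 := by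
  have h1 : C.σ β - C.σs β₀ s = (C.σ β - C.σ β₀) - (s : ℂ) * eI β₀ := by
    unfold σs; ring
  have h2 : Complex.normSq ((s : ℂ) * eI β₀) = s ^ 2 := by
    rw [← Complex.sq_norm, norm_mul, norm_eI, mul_one, Complex.norm_real, Real.norm_eq_abs, sq_abs]
  have h3 : ((C.σ β - C.σ β₀) * conj ((s : ℂ) * eI β₀)).re
      = s * ((eI (-β₀) * C.σ β).re - (eI (-β₀) * C.σ β₀).re) := by
    rw [map_mul, conj_eI, Complex.conj_ofReal]
    have : (C.σ β - C.σ β₀) * ((s : ℂ) * eI (-β₀))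
        = (s : ℂ) * (eI (-β₀) * C.σ β - eI (-β₀) * C.σ β₀) := by ring
    rw [this, Complex.re_ofReal_mul, Complex.sub_re]
  have key := Complex.normSq_sub (C.σ β - C.σ β₀) ((s : ℂ) * eI β₀)
  rw [h1, Complex.sq_norm, Complex.sq_norm, key, h2, h3, C.re_σ]
  have h4 := C.support β₀ β
  have h5 : s * ((eI (-β₀) * C.σ β).re - C.h β₀) ≤ 0 :=
    mul_nonpos_of_nonneg_of_nonpos hs (by linarith)
  linarith

/-- A Lipschitz periodic function is Lipschitz for the chordal distance. -/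
lemma LP.exists_chord_lip {g : ℝ → ℂ} (hg : LP g) :
    ∃ L : ℝ, 0 ≤ L ∧ ∀ x y, ‖g x - g y‖ ≤ L * ‖eI x - eI y‖ := by
  obtain ⟨⟨L, hL⟩, hper⟩ := hg
  refine ⟨|L| * (π / 2), by positivity, fun x y => ?_⟩
  -- reduce `x` modulo `2π` to `x' ∈ (y - π, y + π]`
  obtain ⟨k, hk⟩ : ∃ k : ℤ, x - k • (2 * π) ∈ Set.Ioc (y - π) (y - π + 2 * π) := by
    refine ⟨toIocDiv Real.two_pi_pos (y - π) x, ?_⟩
    exact sub_toIocDiv_zsmul_mem_Ioc Real.two_pi_pos (y - π) x
  set x' := x - k • (2 * π) with hx'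
  have hgx : g x' = g x := by
    rw [hx']
    exact hper.sub_zsmul_eq k
  have hex : eI x' = eI x := by
    have : eI x' = eI x * Complex.exp (-(k : ℂ) * (2 * π * I)) := by
      unfold eI
      rw [← Complex.exp_add, hx']
      congr 1
      simp only [zsmul_eq_mul]
      push_cast
      ring
    rw [this]
    have h2 : Complex.exp (-(k : ℂ) * (2 * π * I)) = 1 := by
      have := Complex.exp_int_mul_two_pi_mul_I (-k)
      push_cast at this
      exact this
    rw [h2, mul_one]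
  rw [← hgx, ← hex]
  set t := x' - y with ht
  have ht1 : |t| ≤ π := by
    rw [abs_le]
    constructor
    · have := hk.1; simp only [ht]; linarith
    · have := hk.2; simp only [ht]; linarith
  have hb1 : ‖g x' - g y‖ ≤ |L| * |t| := by
    calc ‖g x' - g y‖ ≤ L * |x' - y| := hL _ _
      _ ≤ |L| * |t| := by
        rw [ht]
        exact mul_le_mul_of_nonneg_right (le_abs_self _) (abs_nonneg _)
  have hb2 : ‖eI x' - eI y‖ = 2 * |Real.sin (t / 2)| := by
    have h1 : eI x' - eI y = eI y * (Complex.exp (I * (t : ℂ)) - 1) := by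
      unfold eI
      rw [mul_sub, ← Complex.exp_add, mul_one]
      congr 2
      rw [ht]
      push_cast
      ring
    rw [h1, norm_mul_eI, Complex.norm_exp_I_mul_ofReal_sub_one, norm_mul]
    simp
  have hb3 : (2 / π) * |t / 2| ≤ |Real.sin (t / 2)| := by
    apply Real.mul_abs_le_abs_sin
    rw [abs_div, abs_two]
    linarith
  rw [hb2]
  have hb4 : |t / 2| = |t| / 2 := by rw [abs_div, abs_two]
  rw [hb4] at hb3
  have hpi := Real.pi_pos
  have hb5 : |t| ≤ (π / 2) * (2 * |Real.sin (t / 2)|) := by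
    have : (π / 2) * (2 * ((2 / π) * (|t| / 2))) = |t| := by
      field_simp
    calc |t| = (π / 2) * (2 * ((2 / π) * (|t| / 2))) := this.symm
      _ ≤ _ := by gcongr
  calc ‖g x' - g y‖ ≤ |L| * |t| := hb1
    _ ≤ |L| * ((π / 2) * (2 * |Real.sin (t / 2)|)) := by gcongr
    _ = _ := by ring

lemma LP.continuous {g : ℝ → ℂ} (hg : LP g) : Continuous g := by
  obtain ⟨⟨L, hL⟩, _⟩ := hg
  have hL' : ∀ x y, ‖g x - g y‖ ≤ |L| * |x - y| := fun x y =>
    (hL x y).trans (mul_le_mul_of_nonneg_right (le_abs_self _) (abs_nonneg _))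
  have : LipschitzWith (Real.toNNReal |L|) g := by
    apply LipschitzWith.of_dist_le_mul
    intro x y
    rw [dist_eq_norm, Real.dist_eq, Real.coe_toNNReal _ (abs_nonneg _)]
    exact hL' x y
  exact this.continuous

/-- The uniform bound for the difference quotient. -/
private lemma quot_bound {g : ℝ → ℂ} {L a : ℝ} (hL : ∀ x y, ‖g x - g y‖ ≤ L * ‖eI x - eI y‖)
    (hL0 : 0 ≤ L) (ha : ∀ β, a ≤ C.ρ β) (hapos : 0 < a) (β β₀ : ℝ) {s : ℝ} (hs : 0 ≤ s) :
    ‖(g β - g β₀) / (C.σ β - C.σs β₀ s)‖ ≤ L / a := by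
  have h1 := C.chord_lower ha hapos β β₀
  have h2 : ‖C.σ β - C.σ β₀‖ ≤ ‖C.σ β - C.σs β₀ s‖ := by
    have := C.chord_σs β β₀ hs
    have h3 : ‖C.σ β - C.σ β₀‖ ^ 2 ≤ ‖C.σ β - C.σs β₀ s‖ ^ 2 := by nlinarith [sq_nonneg s]
    exact (pow_le_pow_iff_left₀ (norm_nonneg _) (norm_nonneg _) (by norm_num)).mp h3
  rw [norm_div]
  by_cases h0 : ‖C.σ β - C.σs β₀ s‖ = 0
  · rw [h0, div_zero]; positivity
  · have hpos : 0 < ‖C.σ β - C.σs β₀ s‖ := lt_of_le_of_ne (norm_nonneg _) (Ne.symm h0)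
    rw [div_le_div_iff₀ hpos hapos]
    calc ‖g β - g β₀‖ * a ≤ (L * ‖eI β - eI β₀‖) * a := by gcongr; exact hL _ _
      _ = L * (a * ‖eI β - eI β₀‖) := by ring
      _ ≤ L * ‖C.σ β - C.σs β₀ s‖ := by gcongr; linarith

/-- The integrand of `Φ`. -/
private def Φi (g : ℝ → ℂ) (β₀ s β : ℝ) : ℂ :=
  (g β - g β₀) * C.dσ β / (C.σ β - C.σs β₀ s)

/-- `Φ(β₀, s) = (1/2πi) ∫ (g(β) - g(β₀)) σ'(β) / (σ(β) - σs β₀ s) dβ`. -/
private def Φ (g : ℝ → ℂ) (β₀ s : ℝ) : ℂ :=
  (2 * π * I)⁻¹ * ∫ β in (0 : ℝ)..(2 * π), C.Φi g β₀ s β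

private lemma Φi_norm_le {g : ℝ → ℂ} {L a M : ℝ} (hL : ∀ x y, ‖g x - g y‖ ≤ L * ‖eI x - eI y‖)
    (hL0 : 0 ≤ L) (ha : ∀ β, a ≤ C.ρ β) (hapos : 0 < a) (hM : ∀ β, ‖C.dσ β‖ ≤ M)
    (β₀ β : ℝ) {s : ℝ} (hs : 0 ≤ s) : ‖C.Φi g β₀ s β‖ ≤ L / a * M := by
  unfold Φi
  have : (g β - g β₀) * C.dσ β / (C.σ β - C.σs β₀ s)
      = (g β - g β₀) / (C.σ β - C.σs β₀ s) * C.dσ β := by ring
  rw [this, norm_mul]
  exact mul_le_mul (C.quot_bound hL hL0 ha hapos β β₀ hs) (hM β) (norm_nonneg _)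
    (by positivity)

private lemma cont_σs₂ : Continuous fun p : ℝ × ℝ => C.σs p.1 (max p.2 0) := by
  unfold σs
  refine (C.cont_σ.comp continuous_fst).add ?_
  refine Continuous.mul ?_ ?_
  · exact Complex.continuous_ofReal.comp (continuous_snd.max continuous_const)
  · exact Complex.continuous_exp.comp ((Complex.continuous_ofReal.comp continuous_fst).mul
      continuous_const)

private lemma measurable_Φi {g : ℝ → ℂ} (hg : Continuous g) (β₀ s : ℝ) :
    Measurable (C.Φi g β₀ s) := by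
  unfold Φi
  exact (((hg.sub continuous_const).mul C.cont_dσ).measurable).div
    ((C.cont_σ.sub continuous_const).measurable)

private lemma intervalIntegrable_Φi {g : ℝ → ℂ} (hg : LP g) (β₀ : ℝ) {s : ℝ} (hs : 0 ≤ s) :
    IntervalIntegrable (C.Φi g β₀ s) volume 0 (2 * π) := by
  obtain ⟨L, hL0, hL⟩ := LP.exists_chord_lip hg
  obtain ⟨a, b, hapos, hab⟩ := C.exists_ρ_bounds
  obtain ⟨M, hM⟩ := exists_bound_of_periodic C.cont_dσ C.per_dσ
  have hb : ∀ β, ‖C.Φi g β₀ s β‖ ≤ L / a * M :=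
    fun β => C.Φi_norm_le hL hL0 (fun β => (hab β).1) hapos hM β₀ β hs
  refine (intervalIntegrable_const (c := L / a * M)).mono_fun'
    (C.measurable_Φi (LP.continuous hg) β₀ s).aestronglyMeasurable ?_
  exact Eventually.of_forall hb

private lemma continuous_Φ {g : ℝ → ℂ} (hg : LP g) :
    Continuous fun p : ℝ × ℝ => C.Φ g p.1 (max p.2 0) := by
  have hgc := LP.continuous hg
  obtain ⟨L, hL0, hL⟩ := LP.exists_chord_lip hg
  obtain ⟨a, b, hapos, hab⟩ := C.exists_ρ_bounds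
  have ha : ∀ β, a ≤ C.ρ β := fun β => (hab β).1
  obtain ⟨M, hM⟩ := exists_bound_of_periodic C.cont_dσ C.per_dσ
  rw [continuous_iff_continuousAt]
  intro p₀
  suffices this : ContinuousAt
      (fun p : ℝ × ℝ => ∫ β in (0 : ℝ)..(2 * π), C.Φi g p.1 (max p.2 0) β) p₀ from
    continuousAt_const.mul this
  refine intervalIntegral.continuousAt_of_dominated_interval (bound := fun _ => L / a * M)
    ?_ ?_ ?_ ?_
  · exact Eventually.of_forall fun p => (C.measurable_Φi hgc _ _).aestronglyMeasurable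
  · refine Eventually.of_forall fun p => Eventually.of_forall fun β _ => ?_
    exact C.Φi_norm_le hL hL0 ha hapos hM p.1 β (le_max_right _ _)
  · exact intervalIntegrable_const
  · -- exceptional set: `β₀ + 2πℤ`
    have hcount : (Set.range fun k : ℤ => p₀.1 + (k : ℝ) * (2 * π)).Countable :=
      Set.countable_range _
    have hnull := hcount.ae_notMem volume
    filter_upwards [hnull] with β hβ _
    have hne : eI β ≠ eI p₀.1 := by
      intro he
      apply hβ
      unfold eI at he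
      rw [Complex.exp_eq_exp_iff_exists_int] at he
      obtain ⟨n, hn⟩ := he
      refine ⟨n, ?_⟩
      have hI : (β : ℂ) = (p₀.1 + (n : ℝ) * (2 * π) : ℝ) := by
        have h2 : (β : ℂ) * I = ((p₀.1 + (n : ℝ) * (2 * π) : ℝ) : ℂ) * I := by
          rw [hn]; push_cast; ring
        exact mul_right_cancel₀ Complex.I_ne_zero h2
      exact_mod_cast hI.symm
    have hden : C.σ β - C.σs p₀.1 (max p₀.2 0) ≠ 0 := by
      intro h0
      have h1 := C.chord_σs β p₀.1 (le_max_right p₀.2 0)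
      rw [h0, norm_zero] at h1
      have h2 : ‖C.σ β - C.σ p₀.1‖ = 0 := by
        have h3 : ‖C.σ β - C.σ p₀.1‖ ^ 2 ≤ 0 := by nlinarith [sq_nonneg (max p₀.2 (0 : ℝ))]
        have h4 : ‖C.σ β - C.σ p₀.1‖ ^ 2 = 0 := le_antisymm h3 (sq_nonneg _)
        exact pow_eq_zero_iff (by norm_num) |>.mp h4
      have h5 := C.chord_lower ha hapos β p₀.1
      rw [h2] at h5
      have h6 : ‖eI β - eI p₀.1‖ ≤ 0 := by
        by_contra hcon
        push Not at hcon
        have := mul_pos hapos hcon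
        linarith
      exact hne (sub_eq_zero.mp (norm_le_zero_iff.mp h6))
    unfold Φi
    refine ContinuousAt.div ?_ ?_ hden
    · refine Continuous.continuousAt ?_
      exact (continuous_const.sub (hgc.comp continuous_fst)).mul continuous_const
    · exact (continuous_const.sub C.cont_σs₂).continuousAt

private lemma Φ_pos {g : ℝ → ℂ} (hg : LP g) (β₀ : ℝ) {s : ℝ} (hs : 0 < s) :
    C.Φ g β₀ s = C.Ce g (C.σs β₀ s) := by
  have hgc := LP.continuous hg
  have hz := C.σs_mem_ext β₀ hs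
  have hne : ∀ β, C.σ β - C.σs β₀ s ≠ 0 := fun β => sub_ne_zero.mpr (C.σ_ne_of_mem_ext hz β)
  have hcont1 : Continuous fun β => g β * C.dσ β / (C.σ β - C.σs β₀ s) :=
    (hgc.mul C.cont_dσ).div (C.cont_σ.sub continuous_const) hne
  have hcont2 : Continuous fun β => C.dσ β / (C.σ β - C.σs β₀ s) :=
    C.cont_dσ.div (C.cont_σ.sub continuous_const) hne
  unfold Φ Ce
  congr 1
  have : ∀ β, C.Φi g β₀ s β = g β * C.dσ β / (C.σ β - C.σs β₀ s)
      - g β₀ * (C.dσ β / (C.σ β - C.σs β₀ s)) := by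
    intro β
    unfold Φi
    ring
  simp_rw [this]
  have hI2 : IntervalIntegrable (fun β => g β₀ * (C.dσ β / (C.σ β - C.σs β₀ s))) volume 0 (2 * π) :=
    (continuous_const.mul hcont2).intervalIntegrable _ _
  rw [intervalIntegral.integral_sub (hcont1.intervalIntegrable _ _) hI2,
    intervalIntegral.integral_const_mul, C.integral_dσ_div _ hz, mul_zero, sub_zero]

private lemma Φ_zero (g : ℝ → ℂ) (β₀ : ℝ) : C.Φ g β₀ 0 = C.bv g β₀ := by
  unfold Φ bv Φi σs
  simp

/-- Main theorem of the module. The function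
`Φ(β₀, s) = (1/2πi) ∫ (g(β) - g(β₀)) σ'(β) / (σ(β) - σs β₀ s) dβ` is jointly continuous on `s ≥ 0`
by dominated convergence (integrand bounded by a constant thanks to `chord_σs`, `chord_lower`, the Lipschitz
bound for `g` and periodicity; the integrand is continuous at every `(β₀*, s*)` for a.e. `β`); it equals
`Ce g (σs β₀ s)` for `s > 0` by `integral_dσ_div`, and `bv g β₀` at `s = 0`.  Take `F β s = Φ(β, max s 0)`.
Holomorphy is `differentiableOn_Ce`; decay is `Ce_expansion`. -/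
theorem ext_Ce {g : ℝ → ℂ} (hg : LP g) : C.Ext (C.Ce g) (C.bv g) 0 := by
  have hgc := LP.continuous hg
  refine ⟨C.differentiableOn_Ce hgc, ⟨fun β s => C.Φ g β (max s 0), ?_, ?_, ?_⟩, ?_⟩
  · exact C.continuous_Φ hg
  · intro β s hs
    simp only [max_eq_left hs.le]
    exact C.Φ_pos hg β hs
  · intro β
    simp only [max_self]
    exact C.Φ_zero g β
  · obtain ⟨K, R, hR, hK⟩ := C.Ce_expansion hgc
    set c : ℂ := (2 * π * I)⁻¹ * ∫ β in (0 : ℝ)..(2 * π), g β * C.dσ β with hc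
    refine ⟨|K| / R + ‖c‖, R, hR, fun z _ hz => ?_⟩
    have hzpos : 0 < ‖z‖ := lt_of_lt_of_le hR hz
    have h1 := hK z hz
    rw [sub_zero]
    have h2 : ‖C.Ce g z‖ ≤ ‖C.Ce g z + z⁻¹ * c‖ + ‖z⁻¹ * c‖ := by
      calc ‖C.Ce g z‖ = ‖(C.Ce g z + z⁻¹ * c) - z⁻¹ * c‖ := by ring_nf
        _ ≤ _ := norm_sub_le _ _
    have h3 : ‖z⁻¹ * c‖ = ‖c‖ / ‖z‖ := by
      rw [norm_mul, norm_inv]; field_simp
    have h4 : K / ‖z‖ ^ 2 ≤ (|K| / R) / ‖z‖ := by
      have h5 : K / ‖z‖ ^ 2 ≤ |K| / ‖z‖ ^ 2 := by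
        gcongr; exact le_abs_self K
      have h6 : |K| / ‖z‖ ^ 2 = (|K| / ‖z‖) / ‖z‖ := by field_simp
      have h7 : |K| / ‖z‖ ≤ |K| / R := by gcongr
      calc K / ‖z‖ ^ 2 ≤ |K| / ‖z‖ ^ 2 := h5
        _ = (|K| / ‖z‖) / ‖z‖ := h6
        _ ≤ _ := by gcongr
    rw [add_div]
    linarith

/-- Plemelj: `h_g + conj h_{ḡ} = K g - g`. From `k_eq`, with `w = σ'/(σ-σ₀)`:
`(1/2πi) ∫ (g-g₀) w + conj ((1/2πi) ∫ (ḡ-ḡ₀) w) = (1/2πi) ∫ (g-g₀)(w - w̄) = ∫ (g-g₀) k`, `integral_k`. -/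
theorem bv_add_conj {g : ℝ → ℂ} (hg : LP g) (β₀ : ℝ) :
    C.bv g β₀ + conj (C.bv (fun β => conj (g β)) β₀) = C.K g β₀ - g β₀ := by
  have hgc := LP.continuous hg
  obtain ⟨L, hL0, hL⟩ := LP.exists_chord_lip hg
  -- integrand of `bv g`
  set w : ℝ → ℂ := fun β => C.dσ β / (C.σ β - C.σ β₀) with hw
  have hI1 : IntervalIntegrable (fun β => (g β - g β₀) * w β) volume 0 (2 * π) := by
    have := C.intervalIntegrable_Φi hg β₀ (le_refl 0)
    refine this.congr ?_
    intro β _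
    simp only [Φi, σs, hw]
    simp only [Complex.ofReal_zero, zero_mul, add_zero]
    ring
  have hconjg : LP (fun β => conj (g β)) := by
    obtain ⟨⟨L', hL'⟩, hper⟩ := id hg
    refine ⟨⟨L', fun x y => ?_⟩, fun x => by simp only [hper x]⟩
    rw [← map_sub, Complex.norm_conj]
    exact hL' x y
  -- pointwise identity
  have hpt : ∀ β, (2 * π * I : ℂ)⁻¹ * ((g β - g β₀) * w β)
      + (-(2 * π * I : ℂ)⁻¹) * ((g β - g β₀) * conj (w β))
      = (C.k β₀ β : ℂ) * g β - g β₀ * (C.k β₀ β : ℂ) := by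
    intro β
    by_cases he : eI β = eI β₀
    · have h0 : g β = g β₀ := by
        have := hL β β₀
        rw [he, sub_self, norm_zero, mul_zero] at this
        exact sub_eq_zero.mp (norm_le_zero_iff.mp this)
      rw [h0]; ring
    · have hk := C.k_eq (sub_ne_zero.mpr he)
      have hpi : (π : ℂ) ≠ 0 := by exact_mod_cast Real.pi_ne_zero
      have him : w β - conj (w β) = (2 : ℂ) * I * ((w β).im : ℂ) := by
        rw [Complex.sub_conj]; push_cast; ring
      have hk2 : (C.k β₀ β : ℂ) = (π : ℂ)⁻¹ * ((w β).im : ℂ) := by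
        rw [hk]; push_cast; rfl
      rw [hk2]
      have : (2 * π * I : ℂ)⁻¹ * ((g β - g β₀) * w β)
          + (-(2 * π * I : ℂ)⁻¹) * ((g β - g β₀) * conj (w β))
          = (2 * π * I : ℂ)⁻¹ * ((g β - g β₀) * (w β - conj (w β))) := by ring
      rw [this, him]
      field_simp
  -- main computation
  have hbv1 : C.bv g β₀ = (2 * π * I : ℂ)⁻¹ * ∫ β in (0 : ℝ)..(2 * π), (g β - g β₀) * w β := by
    unfold bv
    congr 1
    apply intervalIntegral.integral_congr
    intro β _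
    simp only [hw]
    ring
  have hbv2 : conj (C.bv (fun β => conj (g β)) β₀)
      = (-(2 * π * I : ℂ)⁻¹) * ∫ β in (0 : ℝ)..(2 * π), (g β - g β₀) * conj (w β) := by
    unfold bv
    rw [map_mul, ← intervalIntegral.intervalIntegral_conj]
    congr 1
    · rw [map_inv₀, map_mul, map_mul, Complex.conj_I, Complex.conj_ofReal, map_ofNat]
      rw [mul_neg, inv_neg]
    · apply intervalIntegral.integral_congr
      intro β _
      simp only [hw, map_mul, map_sub, map_div₀, Complex.conj_conj]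
      ring
  have hI2 : IntervalIntegrable (fun β => (g β - g β₀) * conj (w β)) volume 0 (2 * π) := by
    have := hI1.norm
    rw [intervalIntegrable_iff] at hI1 ⊢
    have h2 := hI1.norm
    refine Integrable.mono' h2 ?_ ?_
    · refine Measurable.aestronglyMeasurable ?_
      refine ((hgc.sub continuous_const).measurable).mul ?_
      refine Complex.continuous_conj.measurable.comp ?_
      exact (C.cont_dσ.measurable).div ((C.cont_σ.sub continuous_const).measurable)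
    · refine Eventually.of_forall fun β => ?_
      simp only [norm_mul, RCLike.norm_conj]
      exact le_refl _
  have hkc : Continuous fun β => (C.k β₀ β : ℂ) :=
    Complex.continuous_ofReal.comp (C.cont_k.comp (continuous_const.prodMk continuous_id))
  have hint_k : ∫ β in (0 : ℝ)..(2 * π), g β₀ * (C.k β₀ β : ℂ) = g β₀ := by
    rw [intervalIntegral.integral_const_mul, intervalIntegral.integral_ofReal, C.integral_k]
    simp
  rw [hbv1, hbv2, ← intervalIntegral.integral_const_mul, ← intervalIntegral.integral_const_mul,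
    ← intervalIntegral.integral_add (hI1.const_mul _) (hI2.const_mul _)]
  simp_rw [hpt]
  have hI3 : IntervalIntegrable (fun β => (C.k β₀ β : ℂ) * g β) volume 0 (2 * π) :=
    (hkc.mul hgc).intervalIntegrable _ _
  have hI4 : IntervalIntegrable (fun β => g β₀ * (C.k β₀ β : ℂ)) volume 0 (2 * π) :=
    (continuous_const.mul hkc).intervalIntegrable _ _
  rw [intervalIntegral.integral_sub hI3 hI4, hint_k]
  rfl

end SCurve

end Crest.Agent.Crouzeix
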