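/-
WP: Cauchy's theorem on the exterior via the parallel-curve homotopy; algebra of `Ext`.
-/
import Crest.Agent.Crouzeix.Plemelj

set_option autoImplicit false

open Complex MeasureTheory Set Filter Topology
open scoped Real ComplexConjugate InnerProductSpace

noncomputable section

namespace Crest.Agent.Crouzeix.SCurve

variable {C : SCurve}


lemma cont_σs₂ : Continuous (fun p : ℝ × ℝ => C.σs p.1 p.2) := by
  unfold σs
  have h1 := C.cont_σ
  fun_prop

lemma cont_ρ' : Continuous C.ρ := C.cont_ρ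

lemma cont_dσs₂ : Continuous (fun p : ℝ × ℝ => C.dσs p.1 p.2) := by
  unfold dσs
  have h1 := C.cont_ρ
  fun_prop

lemma dσs_at_zero (β : ℝ) : C.dσs β 0 = C.dσ β := by
  simp [dσs, dσ]

lemma σs_at_zero (β : ℝ) : C.σs β 0 = C.σ β := by
  simp [σs]

lemma per_σs (s : ℝ) : Function.Periodic (fun β => C.σs β s) (2 * π) := by
  intro β
  simp only [σs]
  rw [C.per_σ β, eI_per]

lemma per_dσs (s : ℝ) : Function.Periodic (fun β => C.dσs β s) (2 * π) := by
  intro β
  simp only [dσs]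
  rw [C.per_ρ β, eI_per]

lemma hasDeriv_σs_β (β s : ℝ) : HasDerivAt (fun b => C.σs b s) (C.dσs β s) β := by
  have h1 := C.hasDeriv_σ β
  have h2 : HasDerivAt (fun b : ℝ => eI b) (I * eI β) β := by
    have h3 : HasDerivAt (fun b : ℝ => (b : ℂ) * I) (1 * I) β :=
      (Complex.ofRealCLM.hasDerivAt (x := β)).mul_const I |>.congr_deriv (by simp)
    have := h3.cexp
    simpa [eI, mul_comm] using this
  have h4 := h1.add (h2.const_mul (s : ℂ))
  have : C.dσ β + (s : ℂ) * (I * eI β) = C.dσs β s := by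
    simp only [dσ, dσs]; ring
  rw [this] at h4
  exact h4

lemma hasDeriv_σs_s (β s : ℝ) : HasDerivAt (fun t : ℝ => C.σs β t) (eI β) s := by
  have h : HasDerivAt (fun t : ℝ => (t : ℂ) * eI β) (1 * eI β) s :=
    (Complex.ofRealCLM.hasDerivAt (x := s)).mul_const (eI β)
  have := h.const_add (C.σ β)
  simpa [σs] using this

lemma hasDeriv_dσs_s (β s : ℝ) : HasDerivAt (fun t : ℝ => C.dσs β t) (I * eI β) s := by
  have h : HasDerivAt (fun t : ℝ => (t : ℂ)) 1 s := Complex.ofRealCLM.hasDerivAt (x := s)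
  have h2 := (h.const_add (C.ρ β : ℂ)).const_mul (I * eI β)
  simpa [dσs] using h2

/-- `eI` derivative. -/
lemma hasDeriv_eI (β : ℝ) : HasDerivAt (fun b : ℝ => eI b) (I * eI β) β := by
  have h3 : HasDerivAt (fun b : ℝ => (b : ℂ) * I) (1 * I) β :=
      (Complex.ofRealCLM.hasDerivAt (x := β)).mul_const I |>.congr_deriv (by simp)
  have := h3.cexp
  simpa [eI, mul_comm] using this




section core

variable {H : ℂ → ℂ} (h₁ : DifferentiableOn ℂ H C.ext)

include h₁

lemma contOn_H_σs : ContinuousOn (fun p : ℝ × ℝ => H (C.σs p.1 p.2)) {p | 0 < p.2} :=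
  h₁.continuousOn.comp cont_σs₂.continuousOn (fun p hp => C.σs_mem_ext p.1 hp)

lemma contOn_dH_σs : ContinuousOn (fun p : ℝ × ℝ => deriv H (C.σs p.1 p.2)) {p | 0 < p.2} :=
  (h₁.deriv C.isOpen_ext).continuousOn.comp cont_σs₂.continuousOn
    (fun p hp => C.σs_mem_ext p.1 hp)

lemma hasDerivAt_H_σs_s (β : ℝ) {t : ℝ} (ht : 0 < t) :
    HasDerivAt (fun t : ℝ => H (C.σs β t)) (deriv H (C.σs β t) * eI β) t := by
  have hd : DifferentiableAt ℂ H (C.σs β t) :=
    h₁.differentiableAt (C.isOpen_ext.mem_nhds (C.σs_mem_ext β ht))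
  have := hd.hasDerivAt.scomp t (hasDeriv_σs_s (C := C) β t)
  simpa [mul_comm, Function.comp_def] using this

lemma hasDerivAt_H_σs_β (β : ℝ) {t : ℝ} (ht : 0 < t) :
    HasDerivAt (fun b : ℝ => H (C.σs b t)) (deriv H (C.σs β t) * C.dσs β t) β := by
  have hd : DifferentiableAt ℂ H (C.σs β t) :=
    h₁.differentiableAt (C.isOpen_ext.mem_nhds (C.σs_mem_ext β ht))
  have := hd.hasDerivAt.scomp β (hasDeriv_σs_β (C := C) β t)
  simpa [mul_comm, Function.comp_def] using this

/-- The `s`-derivative of the integrand. -/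
def G' (H : ℂ → ℂ) (C : SCurve) (t β : ℝ) : ℂ :=
  deriv H (C.σs β t) * eI β * C.dσs β t + H (C.σs β t) * (I * eI β)

lemma contOn_G' : ContinuousOn (fun p : ℝ × ℝ => G' H C p.2 p.1) {p | 0 < p.2} := by
  unfold G'
  have h1 := contOn_dH_σs h₁
  have h2 := contOn_H_σs h₁
  have h3 : Continuous (fun p : ℝ × ℝ => C.dσs p.1 p.2) := cont_dσs₂
  have h4 : Continuous (fun p : ℝ × ℝ => eI p.1) := by unfold eI; fun_prop
  exact ((h1.mul h4.continuousOn).mul h3.continuousOn).add
    (h2.mul (continuousOn_const.mul h4.continuousOn))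

lemma integral_G' {t : ℝ} (ht : 0 < t) : ∫ β in (0 : ℝ)..(2 * π), G' H C t β = 0 := by
  have hderiv : ∀ β ∈ uIcc (0 : ℝ) (2 * π),
      HasDerivAt (fun b : ℝ => H (C.σs b t) * eI b) (G' H C t β) β := by
    intro β _
    have := (hasDerivAt_H_σs_β h₁ β ht).mul (hasDeriv_eI β)
    refine HasDerivAt.congr_deriv this ?_
    simp only [G']; ring
  have hcont : Continuous (fun β => G' H C t β) := by
    have := (contOn_G' h₁).comp_continuous (f := fun β : ℝ => (β, t))
      (by fun_prop) (fun β => ht)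
    exact this
  rw [intervalIntegral.integral_eq_sub_of_hasDerivAt hderiv (hcont.intervalIntegrable _ _)]
  have e1 : C.σs (2 * π) t = C.σs 0 t := by
    have := per_σs (C := C) t 0
    simpa using this
  have e2 : eI (2 * π) = eI 0 := by
    have := eI_per 0
    simpa using this
  simp [e1, e2]

lemma hasDerivAt_I {s : ℝ} (hs : 0 < s) :
    HasDerivAt (fun t : ℝ => ∫ β in (0 : ℝ)..(2 * π), H (C.σs β t) * C.dσs β t) 0 s := by
  -- compact bound
  have hK : IsCompact (Icc (0 : ℝ) (2 * π) ×ˢ Icc (s / 2) (3 * s / 2)) :=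
    isCompact_Icc.prod isCompact_Icc
  have hsub : Icc (0 : ℝ) (2 * π) ×ˢ Icc (s / 2) (3 * s / 2) ⊆ {p : ℝ × ℝ | 0 < p.2} := by
    rintro ⟨a, b⟩ ⟨_, hb⟩
    have : s / 2 ≤ b := hb.1
    show 0 < b; linarith
  obtain ⟨M, hM⟩ := hK.exists_bound_of_continuousOn ((contOn_G' h₁).mono hsub)
  have hset : Icc (s / 2) (3 * s / 2) ∈ 𝓝 s := Icc_mem_nhds (by linarith) (by linarith)
  have hpos : ∀ t ∈ Icc (s / 2) (3 * s / 2), 0 < t := fun t ht => by
    have := ht.1; linarith
  have hcontF : ∀ t, 0 < t → Continuous (fun β => H (C.σs β t) * C.dσs β t) := by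
    intro t ht
    have h1 : Continuous (fun β : ℝ => H (C.σs β t)) := by
      have := (contOn_H_σs h₁).comp_continuous (f := fun β : ℝ => (β, t))
        (by fun_prop) (fun β => ht)
      exact this
    have h2 : Continuous (fun β : ℝ => C.dσs β t) := cont_dσs₂.comp (by fun_prop : Continuous fun β : ℝ => (β, t))
    exact h1.mul h2
  have hcontG : Continuous (fun β => G' H C s β) := by
    have := (contOn_G' h₁).comp_continuous (f := fun β : ℝ => (β, s))
      (by fun_prop) (fun β => hs)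
    exact this
  have key := intervalIntegral.hasDerivAt_integral_of_dominated_loc_of_deriv_le
    (μ := volume) (a := 0) (b := 2 * π)
    (F := fun t β => H (C.σs β t) * C.dσs β t) (F' := fun t β => G' H C t β)
    (x₀ := s) (s := Icc (s / 2) (3 * s / 2)) (bound := fun _ => M) hset
    (by
      filter_upwards [hset] with t ht
      exact (hcontF t (hpos t ht)).aestronglyMeasurable)
    ((hcontF s hs).intervalIntegrable _ _)
    hcontG.aestronglyMeasurable
    (by
      refine Eventually.of_forall (fun β hβ t ht => ?_)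
      have hβ' : β ∈ Icc (0 : ℝ) (2 * π) := by
        rw [uIoc_of_le (by positivity)] at hβ
        exact ⟨hβ.1.le, hβ.2⟩
      exact hM (β, t) ⟨hβ', ht⟩)
    intervalIntegrable_const
    (by
      refine Eventually.of_forall (fun β _ t ht => ?_)
      have h1 := hasDerivAt_H_σs_s h₁ β (hpos t ht)
      have h2 := hasDeriv_dσs_s (C := C) β t
      exact (h1.mul h2).congr_deriv (by simp only [G']))
  have := key.2
  rwa [integral_G' h₁ hs] at this

end core

lemma exists_bound_σ (C : SCurve) : ∃ B : ℝ, 0 ≤ B ∧ ∀ β, ‖C.σ β‖ ≤ B := by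
  have hcomp := C.per_σ.compact_of_continuous (by positivity) C.cont_σ
  obtain ⟨B, hB⟩ := hcomp.isBounded.exists_norm_le
  exact ⟨max B 0, le_max_right _ _, fun β => (hB _ (mem_range_self β)).trans (le_max_left _ _)⟩

lemma σs_eq (β s : ℝ) : C.σs β s = eI β * ((s : ℂ) + ((C.h β : ℂ) + (C.dh β : ℂ) * I)) := by
  simp only [σs, σ]; ring

lemma norm_dσs {β s : ℝ} (hs : 0 ≤ s) : ‖C.dσs β s‖ = C.ρ β + s := by
  have hρ := C.ρ_pos β
  simp only [dσs, norm_mul, norm_I, norm_eI, one_mul]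
  have : ((C.ρ β : ℂ) + (s : ℂ)) = ((C.ρ β + s : ℝ) : ℂ) := by push_cast; ring
  rw [this, Complex.norm_real, Real.norm_eq_abs, abs_of_pos (by linarith)]

lemma norm_dσs_sub (β s : ℝ) {B b : ℝ} (hσ : ‖C.σ β‖ ≤ B) (hb : C.ρ β ≤ b) :
    ‖C.dσs β s - I * C.σs β s‖ ≤ b + B := by
  have e : C.dσs β s - I * C.σs β s = I * ((C.ρ β : ℂ) - ((eI (-β)) * C.σ β) ) * eI β := by
    have h1 : eI (-β) * eI β = 1 := by
      simp only [eI]; rw [← Complex.exp_add]; simp
    simp only [dσs, σs]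
    have : I * ((C.ρ β : ℂ) - (eI (-β) * C.σ β)) * eI β
        = I * (C.ρ β : ℂ) * eI β - I * C.σ β * (eI (-β) * eI β) := by ring
    rw [this, h1]; ring
  rw [e, norm_mul, norm_mul, norm_I, norm_eI, one_mul, mul_one]
  refine (norm_sub_le _ _).trans ?_
  rw [Complex.norm_real, Real.norm_eq_abs, abs_of_pos (C.ρ_pos β), norm_mul, norm_eI, one_mul]
  linarith

theorem cauchy_core {H : ℂ → ℂ} {f : ℝ → ℂ} {c : ℂ} (h₁ : DifferentiableOn ℂ H C.ext)
    (h₂ : ∃ F : ℝ → ℝ → ℂ, Continuous (Function.uncurry F) ∧ (∀ β s, 0 < s → F β s = H (C.σs β s)) ∧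
      ∀ β, F β 0 = f β)
    (h₃ : ∃ K R : ℝ, 0 < R ∧ ∀ z ∈ C.ext, R ≤ ‖z‖ → ‖H z - c / z‖ ≤ K / ‖z‖ ^ 2) :
    ∫ β in (0 : ℝ)..(2 * π), f β * C.dσ β = 2 * π * I * c := by
  obtain ⟨F, hFc, hFs, hF0⟩ := h₂
  obtain ⟨K, R, hR, hK⟩ := h₃
  have hFd : Continuous (fun p : ℝ × ℝ => F p.1 p.2 * C.dσs p.1 p.2) := hFc.mul cont_dσs₂
  set I₀ : ℝ → ℂ := fun s => ∫ β in (0 : ℝ)..(2 * π), F β s * C.dσs β s with hI₀
  have hcont : Continuous I₀ := by
    have : Continuous (Function.uncurry (fun (s β : ℝ) => F β s * C.dσs β s)) :=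
      hFd.comp continuous_swap
    exact intervalIntegral.continuous_parametric_intervalIntegral_of_continuous' this _ _
  have hI0 : I₀ 0 = ∫ β in (0 : ℝ)..(2 * π), f β * C.dσ β := by
    simp [hI₀, hF0, dσs_at_zero]
  have hIs : ∀ s, 0 < s → I₀ s = ∫ β in (0 : ℝ)..(2 * π), H (C.σs β s) * C.dσs β s := by
    intro s hs
    simp only [hI₀]
    congr 1
    funext β
    rw [hFs β s hs]
  have hderiv : ∀ s, 0 < s → HasDerivAt I₀ 0 s := by
    intro s hs
    have := hasDerivAt_I (C := C) h₁ hs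
    refine this.congr_of_eventuallyEq ?_
    filter_upwards [lt_mem_nhds hs] with t ht using hIs t ht
  have hconst : ∀ s₁ s₂, 0 < s₁ → s₁ ≤ s₂ → I₀ s₂ = I₀ s₁ := by
    intro s₁ s₂ h1 h12
    refine constant_of_has_deriv_right_zero hcont.continuousOn ?_ s₂ ⟨h12, le_rfl⟩
    intro x hx
    exact (hderiv x (lt_of_lt_of_le h1 hx.1)).hasDerivWithinAt
  have hconst0 : ∀ s, 0 < s → I₀ s = I₀ 0 := by
    intro s hs
    have h1 : Tendsto I₀ (𝓝[>] 0) (𝓝 (I₀ 0)) :=
      (hcont.tendsto 0).mono_left nhdsWithin_le_nhds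
    have h2 : Tendsto I₀ (𝓝[>] 0) (𝓝 (I₀ s)) := by
      refine tendsto_const_nhds.congr' ?_
      have : Ioc (0 : ℝ) s ∈ 𝓝[>] (0 : ℝ) := Ioc_mem_nhdsGT hs
      filter_upwards [this] with t ht
      exact hconst t s ht.1 ht.2
    exact tendsto_nhds_unique h2 h1
  obtain ⟨B, hB0, hB⟩ := exists_bound_σ C
  obtain ⟨a, b, ha, hab⟩ := C.exists_ρ_bounds
  have hb0 : 0 ≤ b := by
    have := hab 0
    linarith [C.ρ_pos 0, this.2]
  set A : ℝ := 4 * |K| * (b + 1) + 2 * ‖c‖ * (b + B) with hA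
  have hA0 : 0 ≤ A := by positivity
  set S₀ : ℝ := max (2 * B + 2) (R + B) with hS₀
  have hbound : ∀ s, S₀ ≤ s → ∀ β, ‖H (C.σs β s) * C.dσs β s - I * c‖ ≤ A / s := by
    intro s hs β
    have hs1 : 2 * B + 2 ≤ s := (le_max_left _ _).trans hs
    have hs2 : R + B ≤ s := (le_max_right _ _).trans hs
    have hs0 : 0 < s := by linarith
    have hs3 : 1 ≤ s := by linarith
    have hz : C.σs β s ∈ C.ext := C.σs_mem_ext β hs0
    have hznorm : s - B ≤ ‖C.σs β s‖ := by
      have h1 : ‖(s : ℂ) * eI β‖ = s := by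
        rw [norm_mul, norm_eI, mul_one, Complex.norm_real, Real.norm_eq_abs, abs_of_pos hs0]
      have h2 : ‖(s : ℂ) * eI β‖ ≤ ‖C.σs β s‖ + ‖C.σ β‖ := by
        have : (s : ℂ) * eI β = C.σs β s - C.σ β := by simp [σs]
        rw [this]; exact norm_sub_le _ _
      have := hB β
      linarith
    have hz2 : s / 2 ≤ ‖C.σs β s‖ := by linarith
    have hzpos : 0 < ‖C.σs β s‖ := by linarith
    have hzne : C.σs β s ≠ 0 := norm_pos_iff.mp hzpos
    have hzR : R ≤ ‖C.σs β s‖ := by linarith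
    have h1 := hK _ hz hzR
    have h1' : ‖H (C.σs β s) - c / C.σs β s‖ ≤ |K| * 4 / s ^ 2 := by
      refine h1.trans ?_
      have hz4 : s ^ 2 / 4 ≤ ‖C.σs β s‖ ^ 2 := by nlinarith
      calc K / ‖C.σs β s‖ ^ 2 ≤ |K| / ‖C.σs β s‖ ^ 2 := by
            gcongr; exact le_abs_self K
        _ ≤ |K| / (s ^ 2 / 4) := by gcongr
        _ = |K| * 4 / s ^ 2 := by field_simp
    have h2 : ‖C.dσs β s‖ ≤ (b + 1) * s := by
      rw [norm_dσs hs0.le]
      have := (hab β).2
      nlinarith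
    have h3 : ‖C.dσs β s / C.σs β s - I‖ ≤ (b + B) * 2 / s := by
      have e : C.dσs β s / C.σs β s - I = (C.dσs β s - I * C.σs β s) / C.σs β s := by
        field_simp
      rw [e, norm_div]
      have h4 := norm_dσs_sub (C := C) β s (hB β) (hab β).2
      calc ‖C.dσs β s - I * C.σs β s‖ / ‖C.σs β s‖ ≤ (b + B) / (s / 2) := by
            gcongr
        _ = (b + B) * 2 / s := by field_simp
    have e : H (C.σs β s) * C.dσs β s - I * c
        = (H (C.σs β s) - c / C.σs β s) * C.dσs β s + c * (C.dσs β s / C.σs β s - I) := by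
      field_simp
      ring
    rw [e]
    refine (norm_add_le _ _).trans ?_
    rw [norm_mul, norm_mul]
    have h5 : ‖H (C.σs β s) - c / C.σs β s‖ * ‖C.dσs β s‖ ≤ 4 * |K| * (b + 1) / s := by
      calc _ ≤ (|K| * 4 / s ^ 2) * ((b + 1) * s) := by gcongr
        _ = 4 * |K| * (b + 1) / s := by field_simp
    have h6 : ‖c‖ * ‖C.dσs β s / C.σs β s - I‖ ≤ 2 * ‖c‖ * (b + B) / s := by
      calc _ ≤ ‖c‖ * ((b + B) * 2 / s) := by gcongr
        _ = 2 * ‖c‖ * (b + B) / s := by ring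
    calc _ ≤ 4 * |K| * (b + 1) / s + 2 * ‖c‖ * (b + B) / s := add_le_add h5 h6
      _ = A / s := by rw [hA]; ring
  have hlim : Tendsto I₀ atTop (𝓝 (2 * π * I * c)) := by
    rw [tendsto_iff_norm_sub_tendsto_zero]
    have hlim0 : Tendsto (fun s : ℝ => A / s * (2 * π)) atTop (𝓝 0) := by
      have := (tendsto_const_nhds (x := A)).div_atTop tendsto_id
      simpa using this.mul_const (2 * π)
    refine squeeze_zero' (Eventually.of_forall fun _ => norm_nonneg _) ?_ hlim0
    filter_upwards [eventually_ge_atTop S₀, eventually_gt_atTop 0] with s hs hs0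
    have hi : I₀ s - 2 * π * I * c
        = ∫ β in (0 : ℝ)..(2 * π), (H (C.σs β s) * C.dσs β s - I * c) := by
      have hcontG : Continuous (fun β => H (C.σs β s) * C.dσs β s) := by
        have := (contOn_H_σs h₁).comp_continuous (f := fun β : ℝ => (β, s))
          (by fun_prop) (fun β => hs0)
        exact this.mul (cont_dσs₂.comp (by fun_prop : Continuous fun β : ℝ => (β, s)))
      rw [intervalIntegral.integral_sub (hcontG.intervalIntegrable _ _)
        (continuous_const.intervalIntegrable _ _), hIs s hs0]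
      simp
      ring
    rw [hi]
    have := intervalIntegral.norm_integral_le_of_norm_le_const
      (a := 0) (b := 2 * π) (f := fun β => H (C.σs β s) * C.dσs β s - I * c)
      (C := A / s) (fun β _ => hbound s hs β)
    simpa [abs_of_pos Real.two_pi_pos] using this
  have hfin : I₀ 0 = 2 * π * I * c := by
    refine tendsto_nhds_unique ?_ hlim
    refine tendsto_const_nhds.congr' ?_
    filter_upwards [eventually_gt_atTop 0] with s hs
    exact (hconst0 s hs).symm
  rw [← hI0, hfin]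

namespace Ext

variable {H G : ℂ → ℂ} {f g : ℝ → ℂ} {c d : ℂ}

lemma continuous_bdry (hH : C.Ext H f c) : Continuous f := by
  obtain ⟨_, ⟨F, hF, _, hF0⟩, _⟩ := hH
  have : f = fun β => Function.uncurry F (β, 0) := by
    funext β; simp [Function.uncurry, hF0]
  rw [this]
  exact hF.comp (by fun_prop)

lemma periodic_bdry (hH : C.Ext H f c) : Function.Periodic f (2 * π) := by
  obtain ⟨_, ⟨F, hF, hFs, hF0⟩, _⟩ := hH
  intro β
  rw [← hF0, ← hF0]
  have h1 : Tendsto (fun s => F (β + 2 * π) s) (𝓝[>] 0) (𝓝 (F (β + 2 * π) 0)) := by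
    have : Continuous (fun s => F (β + 2 * π) s) := by
      have := hF.comp (by fun_prop : Continuous fun s : ℝ => (β + 2 * π, s))
      exact this
    exact (this.tendsto 0).mono_left nhdsWithin_le_nhds
  have h2 : Tendsto (fun s => F β s) (𝓝[>] 0) (𝓝 (F β 0)) := by
    have : Continuous (fun s => F β s) := by
      have := hF.comp (by fun_prop : Continuous fun s : ℝ => (β, s))
      exact this
    exact (this.tendsto 0).mono_left nhdsWithin_le_nhds
  refine tendsto_nhds_unique (h1.congr' ?_) h2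
  filter_upwards [self_mem_nhdsWithin] with s hs
  rw [hFs _ _ hs, hFs _ _ hs]
  have := per_σs (C := C) s β
  simp only at this
  rw [this]

lemma const (c : ℂ) : C.Ext (fun _ => c) (fun _ => c) c := by
  refine ⟨differentiableOn_const c, ⟨fun _ _ => c, continuous_const, fun _ _ _ => rfl, fun _ => rfl⟩,
    0, 1, one_pos, ?_⟩
  intro z _ _
  simp

lemma add (hH : C.Ext H f c) (hG : C.Ext G g d) :
    C.Ext (fun z => H z + G z) (fun β => f β + g β) (c + d) := by
  obtain ⟨hd1, ⟨F1, hF1, hF1s, hF10⟩, K1, R1, hR1, hK1⟩ := hH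
  obtain ⟨hd2, ⟨F2, hF2, hF2s, hF20⟩, K2, R2, hR2, hK2⟩ := hG
  refine ⟨hd1.add hd2, ⟨fun β s => F1 β s + F2 β s, hF1.add hF2, ?_, ?_⟩, K1 + K2, max R1 R2,
    lt_max_of_lt_left hR1, ?_⟩
  · intro β s hs; simp [hF1s β s hs, hF2s β s hs]
  · intro β; simp [hF10, hF20]
  · intro z hz hzR
    have h1 := hK1 z hz ((le_max_left _ _).trans hzR)
    have h2 := hK2 z hz ((le_max_right _ _).trans hzR)
    have e : H z + G z - (c + d) = (H z - c) + (G z - d) := by ring
    rw [e, add_div]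
    exact (norm_add_le _ _).trans (add_le_add h1 h2)

lemma smul (a : ℂ) (hH : C.Ext H f c) :
    C.Ext (fun z => a * H z) (fun β => a * f β) (a * c) := by
  obtain ⟨hd1, ⟨F1, hF1, hF1s, hF10⟩, K1, R1, hR1, hK1⟩ := hH
  refine ⟨hd1.const_mul a, ⟨fun β s => a * F1 β s, continuous_const.mul hF1, ?_, ?_⟩, ‖a‖ * K1, R1,
    hR1, ?_⟩
  · intro β s hs; simp [hF1s β s hs]
  · intro β; simp [hF10]
  · intro z hz hzR
    have h1 := hK1 z hz hzR
    have e : a * H z - a * c = a * (H z - c) := by ring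
    rw [e, norm_mul, mul_div_assoc]
    gcongr

lemma mul (hH : C.Ext H f c) (hG : C.Ext G g d) :
    C.Ext (fun z => H z * G z) (fun β => f β * g β) (c * d) := by
  obtain ⟨hd1, ⟨F1, hF1, hF1s, hF10⟩, K1, R1, hR1, hK1⟩ := hH
  obtain ⟨hd2, ⟨F2, hF2, hF2s, hF20⟩, K2, R2, hR2, hK2⟩ := hG
  refine ⟨hd1.mul hd2, ⟨fun β s => F1 β s * F2 β s, hF1.mul hF2, ?_, ?_⟩,
    |K1| * (‖d‖ + |K2| / R2) + ‖c‖ * |K2|, max R1 R2, lt_max_of_lt_left hR1, ?_⟩
  · intro β s hs; simp [hF1s β s hs, hF2s β s hs]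
  · intro β; simp [hF10, hF20]
  · intro z hz hzR
    have hzR1 : R1 ≤ ‖z‖ := (le_max_left _ _).trans hzR
    have hzR2 : R2 ≤ ‖z‖ := (le_max_right _ _).trans hzR
    have hzpos : 0 < ‖z‖ := lt_of_lt_of_le hR1 hzR1
    have h1 := (hK1 z hz hzR1).trans (div_le_div_of_nonneg_right (le_abs_self K1) hzpos.le)
    have h2 := (hK2 z hz hzR2).trans (div_le_div_of_nonneg_right (le_abs_self K2) hzpos.le)
    have hGb : ‖G z‖ ≤ ‖d‖ + |K2| / R2 := by
      have e : G z = d + (G z - d) := by ring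
      rw [e]
      refine (norm_add_le _ _).trans ?_
      gcongr
      refine h2.trans ?_
      gcongr
    have e : H z * G z - c * d = (H z - c) * G z + c * (G z - d) := by ring
    rw [e]
    refine (norm_add_le _ _).trans ?_
    rw [norm_mul, norm_mul, add_div]
    refine add_le_add ?_ ?_
    · calc ‖H z - c‖ * ‖G z‖ ≤ |K1| / ‖z‖ * (‖d‖ + |K2| / R2) := by gcongr
        _ = _ := by ring
    · calc ‖c‖ * ‖G z - d‖ ≤ ‖c‖ * (|K2| / ‖z‖) := by gcongr
        _ = _ := by ring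

lemma exp (hH : C.Ext H f c) :
    C.Ext (fun z => Complex.exp (H z)) (fun β => Complex.exp (f β)) (Complex.exp c) := by
  obtain ⟨hd1, ⟨F1, hF1, hF1s, hF10⟩, K1, R1, hR1, hK1⟩ := hH
  refine ⟨hd1.cexp, ⟨fun β s => Complex.exp (F1 β s), Complex.continuous_exp.comp hF1, ?_, ?_⟩,
    2 * ‖Complex.exp c‖ * |K1|, max R1 (|K1| + 1), lt_max_of_lt_left hR1, ?_⟩
  · intro β s hs; simp [hF1s β s hs]
  · intro β; simp [hF10]
  · intro z hz hzR
    have hzR1 : R1 ≤ ‖z‖ := (le_max_left _ _).trans hzR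
    have hzR2 : |K1| + 1 ≤ ‖z‖ := (le_max_right _ _).trans hzR
    have hzpos : 0 < ‖z‖ := lt_of_lt_of_le hR1 hzR1
    have h1 := (hK1 z hz hzR1).trans (div_le_div_of_nonneg_right (le_abs_self K1) hzpos.le)
    have h2 : ‖H z - c‖ ≤ 1 := by
      refine h1.trans ?_
      rw [div_le_one hzpos]
      linarith
    have e : Complex.exp (H z) - Complex.exp c = Complex.exp c * (Complex.exp (H z - c) - 1) := by
      rw [mul_sub, ← Complex.exp_add]; simp
    rw [e, norm_mul]
    have h3 := Complex.norm_exp_sub_one_le h2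
    calc ‖Complex.exp c‖ * ‖Complex.exp (H z - c) - 1‖
        ≤ ‖Complex.exp c‖ * (2 * (|K1| / ‖z‖)) := by
          gcongr
          exact h3.trans (by gcongr)
      _ = _ := by ring

end Ext

lemma sub_ne_of_inside {a : ℂ} (ha : a ∈ C.inside) (β : ℝ) {s : ℝ} (hs : 0 ≤ s) :
    C.σs β s - a ≠ 0 := by
  intro h0
  have h1 : eI (-β) * eI β = 1 := by
    simp only [eI]; rw [← Complex.exp_add]; simp
  have h2 : (eI (-β) * (C.σs β s - a)).re = C.h β + s - (eI (-β) * a).re := by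
    have : eI (-β) * (C.σs β s - a) = eI (-β) * C.σ β + (s : ℂ) * (eI (-β) * eI β) - eI (-β) * a := by
      simp only [σs]; ring
    rw [this, h1, Complex.sub_re, Complex.add_re, C.re_σ]
    simp
  rw [h0, mul_zero, Complex.zero_re] at h2
  have h3 := ha β
  linarith

lemma ne_of_mem_ext {a z : ℂ} (ha : a ∈ C.inside) (hz : z ∈ C.ext) : z - a ≠ 0 := by
  intro h0
  obtain ⟨β, hβ⟩ := hz
  have : z = a := sub_eq_zero.mp h0
  subst this
  exact absurd hβ (not_lt.mpr (ha β).le)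

/-- Poisson type formula: the Cauchy integral over `Γ` around an inner point computes the value at `∞`.
Apply `cauchy_core` to `H z / (z - a)`. -/
theorem cauchy_ext {H : ℂ → ℂ} {f : ℝ → ℂ} {c a : ℂ} (hH : C.Ext H f c) (ha : a ∈ C.inside) :
    ∫ β in (0 : ℝ)..(2 * π), f β * C.dσ β / (C.σ β - a) = 2 * π * I * c := by
  obtain ⟨hd1, ⟨F1, hF1, hF1s, hF10⟩, K1, R1, hR1, hK1⟩ := hH
  have key := cauchy_core (C := C) (H := fun z => H z / (z - a)) (f := fun β => f β / (C.σ β - a))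
    (c := c)
    (hd1.div (differentiableOn_id.sub_const a) (fun z hz => ne_of_mem_ext ha hz))
    ⟨fun β s => F1 β (max s 0) / (C.σs β (max s 0) - a), ?_, ?_, ?_⟩
    ⟨2 * |K1| + 2 * ‖c‖ * ‖a‖, max R1 (2 * ‖a‖ + 1), lt_max_of_lt_left hR1, ?_⟩
  · have e : ∀ β, f β / (C.σ β - a) * C.dσ β = f β * C.dσ β / (C.σ β - a) := by
      intro β; ring
    simp only [e] at key
    exact key
  · refine Continuous.div ?_ ?_ ?_
    · exact hF1.comp (by fun_prop : Continuous fun p : ℝ × ℝ => (p.1, max p.2 0))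
    · exact (cont_σs₂.comp (by fun_prop : Continuous fun p : ℝ × ℝ => (p.1, max p.2 0))).sub
        continuous_const
    · intro p
      exact sub_ne_of_inside ha p.1 (le_max_right _ _)
  · intro β s hs
    simp only [max_eq_left hs.le]
    rw [hF1s β s hs]
  · intro β
    simp [hF10, σs_at_zero]
  · intro z hz hzR
    have hzR1 : R1 ≤ ‖z‖ := (le_max_left _ _).trans hzR
    have hzR2 : 2 * ‖a‖ + 1 ≤ ‖z‖ := (le_max_right _ _).trans hzR
    have hzpos : 0 < ‖z‖ := lt_of_lt_of_le hR1 hzR1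
    have hz0 : z ≠ 0 := norm_pos_iff.mp hzpos
    have hza : z - a ≠ 0 := ne_of_mem_ext ha hz
    have hza2 : ‖z‖ / 2 ≤ ‖z - a‖ := by
      have := norm_sub_norm_le z a
      linarith
    have h1 := (hK1 z hz hzR1).trans (div_le_div_of_nonneg_right (le_abs_self K1) hzpos.le)
    have e : H z / (z - a) - c / z = (H z - c) / (z - a) + c * a / (z * (z - a)) := by
      field_simp
      ring
    rw [e]
    refine (norm_add_le _ _).trans ?_
    rw [norm_div, norm_div, norm_mul, norm_mul, add_div]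
    have hza2' : 0 < ‖z‖ / 2 := by linarith
    refine add_le_add ?_ ?_
    · calc ‖H z - c‖ / ‖z - a‖ ≤ (|K1| / ‖z‖) / (‖z‖ / 2) := by gcongr
        _ = 2 * |K1| / ‖z‖ ^ 2 := by field_simp
    · calc ‖c‖ * ‖a‖ / (‖z‖ * ‖z - a‖) ≤ ‖c‖ * ‖a‖ / (‖z‖ * (‖z‖ / 2)) := by gcongr
        _ = 2 * ‖c‖ * ‖a‖ / ‖z‖ ^ 2 := by field_simp

lemma moment_zero (j : ℕ) : ∫ β in (0 : ℝ)..(2 * π), C.σ β ^ j * C.dσ β = 0 := by
  have hd : ∀ β ∈ uIcc (0 : ℝ) (2 * π),
      HasDerivAt (fun b => C.σ b ^ (j + 1) / ((j : ℂ) + 1)) (C.σ β ^ j * C.dσ β) β := by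
    intro β _
    have hj : ((j : ℂ) + 1) ≠ 0 := by exact_mod_cast Nat.succ_ne_zero j
    have := ((C.hasDeriv_σ β).pow (j + 1)).div_const ((j : ℂ) + 1)
    refine this.congr_deriv ?_
    push_cast
    field_simp
  have hc : Continuous (fun β => C.σ β ^ j * C.dσ β) := (C.cont_σ.pow j).mul C.cont_dσ
  rw [intervalIntegral.integral_eq_sub_of_hasDerivAt hd (hc.intervalIntegrable _ _)]
  have e1 : C.σ (2 * π) = C.σ 0 := by
    have := C.per_σ 0
    simpa using this
  rw [e1]; simp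

lemma LP_mul {g₁ g₂ : ℝ → ℂ} (h₁ : LP g₁) (h₂ : LP g₂) : LP (fun β => g₁ β * g₂ β) := by
  have hc₁ := LP.continuous h₁
  have hc₂ := LP.continuous h₂
  obtain ⟨⟨L₁, hL₁⟩, hp₁⟩ := h₁
  obtain ⟨⟨L₂, hL₂⟩, hp₂⟩ := h₂
  obtain ⟨B₁, hB₁⟩ := (hp₁.compact_of_continuous (by positivity) hc₁).isBounded.exists_norm_le
  obtain ⟨B₂, hB₂⟩ := (hp₂.compact_of_continuous (by positivity) hc₂).isBounded.exists_norm_le
  refine ⟨⟨|B₁| * |L₂| + |B₂| * |L₁|, fun x y => ?_⟩, fun x => by simp [hp₁ x, hp₂ x]⟩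
  have e : g₁ x * g₂ x - g₁ y * g₂ y = g₁ x * (g₂ x - g₂ y) + g₂ y * (g₁ x - g₁ y) := by ring
  rw [e, add_mul]
  refine (norm_add_le _ _).trans (add_le_add ?_ ?_)
  · rw [norm_mul, mul_assoc]
    have h1 : ‖g₁ x‖ ≤ |B₁| := (hB₁ _ (mem_range_self x)).trans (le_abs_self _)
    have h2 : ‖g₂ x - g₂ y‖ ≤ |L₂| * |x - y| :=
      (hL₂ x y).trans (mul_le_mul_of_nonneg_right (le_abs_self _) (abs_nonneg _))
    exact mul_le_mul h1 h2 (norm_nonneg _) (abs_nonneg _)
  · rw [norm_mul, mul_assoc]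
    have h1 : ‖g₂ y‖ ≤ |B₂| := (hB₂ _ (mem_range_self y)).trans (le_abs_self _)
    have h2 : ‖g₁ x - g₁ y‖ ≤ |L₁| * |x - y| :=
      (hL₁ x y).trans (mul_le_mul_of_nonneg_right (le_abs_self _) (abs_nonneg _))
    exact mul_le_mul h1 h2 (norm_nonneg _) (abs_nonneg _)

lemma LP_const (a : ℂ) : LP (fun _ => a) :=
  ⟨⟨0, fun x y => by simp⟩, fun x => rfl⟩

lemma LP_σ (C : SCurve) : LP C.σ := by
  obtain ⟨M, hM⟩ := (C.per_dσ.compact_of_continuous (by positivity) C.cont_dσ).isBounded.exists_norm_le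
  refine ⟨⟨M, fun x y => ?_⟩, C.per_σ⟩
  have := Convex.norm_image_sub_le_of_norm_hasDerivWithin_le (f := C.σ) (f' := C.dσ) (C := M)
    (s := univ) (x := y) (y := x)
    (fun z _ => (C.hasDeriv_σ z).hasDerivWithinAt)
    (fun z _ => hM _ (mem_range_self z)) convex_univ (mem_univ _) (mem_univ _)
  simpa [Real.norm_eq_abs] using this

lemma LP_σ_pow (C : SCurve) (j : ℕ) : LP (fun β => C.σ β ^ j) := by
  induction j with
  | zero => simpa using LP_const 1
  | succ n ih =>
    have := LP_mul ih (LP_σ C)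
    simpa [pow_succ] using this

lemma intervalIntegrable_bv_kernel {g : ℝ → ℂ} (hg : LP g) (β₀ : ℝ) :
    IntervalIntegrable (fun β => (g β - g β₀) * C.dσ β / (C.σ β - C.σ β₀)) volume 0 (2 * π) := by
  obtain ⟨L, hL0, hL⟩ := LP.exists_chord_lip hg
  obtain ⟨a, b, hapos, hab⟩ := C.exists_ρ_bounds
  obtain ⟨M, hM⟩ := (C.per_dσ.compact_of_continuous (by positivity) C.cont_dσ).isBounded.exists_norm_le
  have hgc := LP.continuous hg
  have hmeas : Measurable (fun β => (g β - g β₀) * C.dσ β / (C.σ β - C.σ β₀)) :=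
    (((hgc.sub continuous_const).mul C.cont_dσ).measurable).div
      ((C.cont_σ.sub continuous_const).measurable)
  refine (intervalIntegrable_const (c := L / a * |M|)).mono_fun' hmeas.aestronglyMeasurable ?_
  refine Eventually.of_forall (fun β => ?_)
  have h1 := C.chord_lower (fun β => (hab β).1) hapos β β₀
  have e : (g β - g β₀) * C.dσ β / (C.σ β - C.σ β₀) = (g β - g β₀) / (C.σ β - C.σ β₀) * C.dσ β := by
    ring
  simp only []
  rw [e, norm_mul]
  refine mul_le_mul ?_ ((hM _ (mem_range_self β)).trans (le_abs_self _)) (norm_nonneg _) (by positivity)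
  rw [norm_div]
  by_cases h0 : ‖C.σ β - C.σ β₀‖ = 0
  · rw [h0, div_zero]; positivity
  · have hpos : 0 < ‖C.σ β - C.σ β₀‖ := lt_of_le_of_ne (norm_nonneg _) (Ne.symm h0)
    rw [div_le_div_iff₀ hpos hapos]
    calc ‖g β - g β₀‖ * a ≤ (L * ‖eI β - eI β₀‖) * a := by gcongr; exact hL _ _
      _ = L * (a * ‖eI β - eI β₀‖) := by ring
      _ ≤ L * ‖C.σ β - C.σ β₀‖ := by gcongr

lemma ae_eI_ne (β₀ : ℝ) : ∀ᵐ β ∂(volume : Measure ℝ), eI β ≠ eI β₀ := by
  have hcount : ({β | eI β = eI β₀} : Set ℝ).Countable := by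
    refine (countable_range (fun n : ℤ => β₀ + (n : ℝ) * (2 * π))).mono ?_
    intro β hβ
    simp only [mem_ofPred_eq, eI] at hβ
    obtain ⟨n, hn⟩ := Complex.exp_eq_exp_iff_exists_int.mp hβ
    refine ⟨n, ?_⟩
    have hI : (I : ℂ) ≠ 0 := I_ne_zero
    have h2 : (β : ℂ) = β₀ + n * (2 * π) := by
      have : (β : ℂ) * I = (β₀ + n * (2 * π)) * I := by rw [hn]; ring
      exact mul_right_cancel₀ hI this
    have h3 : β = β₀ + n * (2 * π) := by exact_mod_cast h2
    exact h3.symm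
  have := hcount.ae_notMem volume
  filter_upwards [this] with β hβ
  exact hβ

/-- Moments. For `z ∈ ext`, `z^j / (ξ - z) = ξ^j / (ξ - z) - Σ_{p+q=j-1} z^p ξ^q`, so
`Ce g z * z^j = Ce (g σ^j) z - P(z)` for a polynomial `P`, also at the boundary (continuity).
The integral of `P(σ) dσ` vanishes; `cauchy_core` with `Ce_expansion` gives
`∫ bv (g σ^j) dσ = -∫ g σ^j dσ`. -/
theorem moment_bv {g : ℝ → ℂ} (hg : LP g) (j : ℕ) :
    ∫ β in (0 : ℝ)..(2 * π), C.σ β ^ j * (g β + C.bv g β) * C.dσ β = 0 := by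
  have hgc := LP.continuous hg
  set G : ℝ → ℂ := fun β => g β * C.σ β ^ j with hGdef
  have hG : LP G := LP_mul hg (LP_σ_pow C j)
  have hGc : Continuous G := LP.continuous hG
  have h2πI : (2 * π * I : ℂ) ≠ 0 := by
    simp [Real.pi_ne_zero, I_ne_zero]
  -- step 2
  have hstep2 : ∫ β in (0 : ℝ)..(2 * π), C.bv G β * C.dσ β
      = - ∫ β in (0 : ℝ)..(2 * π), G β * C.dσ β := by
    obtain ⟨hd, hF, -⟩ := C.ext_Ce hG
    obtain ⟨K, R, hR, hK⟩ := C.Ce_expansion hGc
    have := cauchy_core (C := C) (H := C.Ce G) (f := C.bv G)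
      (c := - ((2 * π * I)⁻¹ * ∫ β in (0 : ℝ)..(2 * π), G β * C.dσ β)) hd hF
      ⟨K, R, hR, fun z _ hz => by
        have e : C.Ce G z - -((2 * π * I)⁻¹ * ∫ β in (0 : ℝ)..(2 * π), G β * C.dσ β) / z
            = C.Ce G z + z⁻¹ * ((2 * π * I)⁻¹ * ∫ β in (0 : ℝ)..(2 * π), G β * C.dσ β) := by
          rw [div_eq_inv_mul]; ring
        rw [e]
        exact hK z hz⟩
    rw [this]
    field_simp
  -- step 3
  set m : ℕ → ℂ := fun i => (2 * π * I)⁻¹ * ∫ β in (0 : ℝ)..(2 * π), g β * (C.σ β ^ i * C.dσ β) with hm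
  have hstep3 : ∀ β₀, C.bv G β₀
      = C.σ β₀ ^ j * C.bv g β₀ + ∑ i ∈ Finset.range j, C.σ β₀ ^ (j - 1 - i) * m i := by
    intro β₀
    obtain ⟨a, b, hapos, hab⟩ := C.exists_ρ_bounds
    have hcong : ∫ β in (0 : ℝ)..(2 * π), (G β - G β₀) * C.dσ β / (C.σ β - C.σ β₀)
        = ∫ β in (0 : ℝ)..(2 * π), (C.σ β₀ ^ j * ((g β - g β₀) * C.dσ β / (C.σ β - C.σ β₀))
            + ∑ i ∈ Finset.range j, C.σ β₀ ^ (j - 1 - i) * (g β * (C.σ β ^ i * C.dσ β))) := by
      refine intervalIntegral.integral_congr_ae ?_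
      filter_upwards [ae_eI_ne β₀] with β hβ _
      have hne : C.σ β - C.σ β₀ ≠ 0 := by
        have h1 := C.chord_lower (fun β => (hab β).1) hapos β β₀
        have h2 : 0 < ‖eI β - eI β₀‖ := norm_pos_iff.mpr (sub_ne_zero.mpr hβ)
        have h3 : 0 < ‖C.σ β - C.σ β₀‖ := lt_of_lt_of_le (mul_pos hapos h2) h1
        exact norm_pos_iff.mp h3
      have hgeom := geom_sum₂_mul (C.σ β) (C.σ β₀) j
      have hs : ∑ i ∈ Finset.range j, C.σ β₀ ^ (j - 1 - i) * (g β * (C.σ β ^ i * C.dσ β))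
          = g β * C.dσ β * ∑ i ∈ Finset.range j, C.σ β ^ i * C.σ β₀ ^ (j - 1 - i) := by
        rw [Finset.mul_sum]
        refine Finset.sum_congr rfl (fun i _ => ?_)
        ring
      rw [hs]
      simp only [hGdef]
      field_simp
      linear_combination (-(g β * C.dσ β)) * hgeom
    have hint1 := intervalIntegrable_bv_kernel (C := C) hg β₀
    have hint2 : ∀ i, IntervalIntegrable (fun β => C.σ β₀ ^ (j - 1 - i) * (g β * (C.σ β ^ i * C.dσ β)))
        volume 0 (2 * π) := fun i =>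
      (continuous_const.mul (hgc.mul ((C.cont_σ.pow i).mul C.cont_dσ))).intervalIntegrable _ _
    have hint3 : IntervalIntegrable (fun β => ∑ i ∈ Finset.range j,
        C.σ β₀ ^ (j - 1 - i) * (g β * (C.σ β ^ i * C.dσ β))) volume 0 (2 * π) := by
      refine Continuous.intervalIntegrable ?_ _ _
      exact continuous_finsetSum _ (fun i _ =>
        continuous_const.mul (hgc.mul ((C.cont_σ.pow i).mul C.cont_dσ)))
    unfold bv
    rw [hcong, intervalIntegral.integral_add (hint1.const_mul _) hint3]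
    rw [intervalIntegral.integral_const_mul, intervalIntegral.integral_finsetSum
      (fun i _ => hint2 i)]
    simp only [intervalIntegral.integral_const_mul, hm]
    rw [mul_add, Finset.mul_sum]
    congr 1
    · ring
    · refine Finset.sum_congr rfl (fun i _ => ?_)
      ring
  -- step 4
  have hbvg : Continuous (C.bv g) := Ext.continuous_bdry (C.ext_Ce hg)
  have hbvG : Continuous (C.bv G) := Ext.continuous_bdry (C.ext_Ce hG)
  have hQ : Continuous (fun β₀ => ∑ i ∈ Finset.range j, C.σ β₀ ^ (j - 1 - i) * m i) :=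
    continuous_finsetSum _ (fun i _ => (C.cont_σ.pow _).mul continuous_const)
  have hpoint : ∀ β, C.σ β ^ j * (g β + C.bv g β) * C.dσ β
      = G β * C.dσ β + C.bv G β * C.dσ β
        - (∑ i ∈ Finset.range j, C.σ β ^ (j - 1 - i) * m i) * C.dσ β := by
    intro β
    rw [hstep3 β]
    simp only [hGdef]
    ring
  have hc1 : Continuous (fun β => G β * C.dσ β) := hGc.mul C.cont_dσ
  have hc2 : Continuous (fun β => C.bv G β * C.dσ β) := hbvG.mul C.cont_dσ
  have hc3 : Continuous (fun β => (∑ i ∈ Finset.range j, C.σ β ^ (j - 1 - i) * m i) * C.dσ β) :=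
    hQ.mul C.cont_dσ
  have hc12 : Continuous (fun β => G β * C.dσ β + C.bv G β * C.dσ β) := hc1.add hc2
  simp only [hpoint]
  rw [intervalIntegral.integral_sub (hc12.intervalIntegrable _ _) (hc3.intervalIntegrable _ _),
    intervalIntegral.integral_add (hc1.intervalIntegrable _ _)
      (hc2.intervalIntegrable _ _), hstep2]
  · have hQint : ∫ β in (0 : ℝ)..(2 * π),
        (∑ i ∈ Finset.range j, C.σ β ^ (j - 1 - i) * m i) * C.dσ β = 0 := by
      simp only [Finset.sum_mul]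
      have hi : ∀ i ∈ Finset.range j, IntervalIntegrable
          (fun β => C.σ β ^ (j - 1 - i) * m i * C.dσ β) volume 0 (2 * π) := fun i _ => by
        have : Continuous (fun β => C.σ β ^ (j - 1 - i) * m i * C.dσ β) :=
          ((C.cont_σ.pow _).mul continuous_const).mul C.cont_dσ
        exact this.intervalIntegrable _ _
      rw [intervalIntegral.integral_finsetSum hi]
      refine Finset.sum_eq_zero (fun i _ => ?_)
      have : ∀ β, C.σ β ^ (j - 1 - i) * m i * C.dσ β = m i * (C.σ β ^ (j - 1 - i) * C.dσ β) := by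
        intro β; ring
      simp only [this]
      rw [intervalIntegral.integral_const_mul, moment_zero, mul_zero]
    rw [hQint]
    ring

end Crest.Agent.Crouzeix.SCurve
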