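/-
WP: the "exterior conformal derivative" without the Riemann mapping theorem, i.e. the function
`𝐧(z) = (z - a) exp 𝓛(z)` whose argument on `Γ` is the normal angle `β`; the equilibrium measure
`ϖ dβ = dσ / (2πi 𝐧(σ))`.
-/
import Crest.Agent.Crouzeix.FixedPoint
import Crest.Agent.Crouzeix.Homotopy

set_option autoImplicit false

open Complex MeasureTheory Set Filter Topology
open scoped Real ComplexConjugate InnerProductSpace

noncomputable section

namespace Crest.Agent.Crouzeix.SCurve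

variable (C : SCurve)

/-- Equilibrium data: `exp 𝓛` is exterior analytic, `ν(β) = (σ(β) - a) exp ℓ(β)` is the boundary value of
`𝐧`, and `σ'(β) / ν(β) = 2πi ϖ(β)` with `ϖ > 0`. -/
structure Equil (a : ℂ) where
  𝓛 : ℂ → ℂ
  ℓ : ℝ → ℂ
  ϖ : ℝ → ℝ
  ext_𝓛 : C.Ext 𝓛 ℓ 0
  cont_ϖ : Continuous ϖ
  per_ϖ : Function.Periodic ϖ (2 * π)
  ϖ_pos : ∀ β, 0 < ϖ β
  eq_ϖ : ∀ β, C.dσ β * Complex.exp (- ℓ β) / (C.σ β - a) = 2 * π * I * ϖ β

/-! ### Auxiliary lemmas -/

/-- A continuous periodic function is bounded. -/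
lemma eq_exists_bound_of_periodic {E : Type*} [NormedAddCommGroup E] {f : ℝ → E} (hf : Continuous f)
    (hp : Function.Periodic f (2 * π)) : ∃ M : ℝ, ∀ x, ‖f x‖ ≤ M := by
  obtain ⟨M, hM⟩ := (isCompact_Icc (a := (0 : ℝ)) (b := 2 * π)).exists_bound_of_continuousOn
    hf.continuousOn
  refine ⟨M, fun x => ?_⟩
  obtain ⟨y, hy, hxy⟩ := hp.exists_mem_Ico₀ Real.two_pi_pos x
  rw [hxy]
  exact hM y ⟨hy.1, hy.2.le⟩

/-- A `C¹` function with periodic derivative is Lipschitz. -/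
lemma eq_exists_lip_of_deriv {f f' : ℝ → ℂ} (hf : ∀ x, HasDerivAt f (f' x) x) (hc : Continuous f')
    (hp : Function.Periodic f' (2 * π)) : ∃ L : ℝ, ∀ x y, ‖f x - f y‖ ≤ L * |x - y| := by
  obtain ⟨M, hM⟩ := eq_exists_bound_of_periodic hc hp
  refine ⟨M, fun x y => ?_⟩
  have := Convex.norm_image_sub_le_of_norm_hasDerivWithin_le (f := f) (f' := f') (C := M)
    (s := Set.univ) (x := y) (y := x) (fun z _ => (hf z).hasDerivWithinAt) (fun z _ => hM z)
    convex_univ (Set.mem_univ _) (Set.mem_univ _)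
  simpa [Real.norm_eq_abs] using this

lemma eq_LP_continuous {g : ℝ → ℂ} (hg : LP g) : Continuous g := by
  obtain ⟨⟨L, hL⟩, -⟩ := hg
  have hL' : ∀ x y, dist (g x) (g y) ≤ (max L 0 : ℝ) * dist x y := by
    intro x y
    rw [dist_eq_norm, Real.dist_eq]
    exact (hL x y).trans (mul_le_mul_of_nonneg_right (le_max_left _ _) (abs_nonneg _))
  have : LipschitzWith (Real.toNNReal (max L 0)) g := by
    apply LipschitzWith.of_dist_le_mul
    intro x y
    rw [Real.coe_toNNReal _ (le_max_right _ _)]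
    exact hL' x y
  exact this.continuous

/-- Auxiliary `w(β) = e^{-iβ}(σ(β) - a)`. -/
def wA (a : ℂ) (β : ℝ) : ℂ := eI (-β) * (C.σ β - a)

lemma eq_eI_neg_mul (β : ℝ) : eI (-β) * eI β = 1 := by
  unfold eI
  rw [← Complex.exp_add]
  have : ((-β : ℝ) : ℂ) * I + (β : ℂ) * I = 0 := by push_cast; ring
  rw [this, Complex.exp_zero]

lemma eq_eI_ne_zero (β : ℝ) : eI β ≠ 0 := Complex.exp_ne_zero _

lemma wA_eq (a : ℂ) (β : ℝ) :
    C.wA a β = (C.h β : ℂ) + (C.dh β : ℂ) * I - eI (-β) * a := by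
  unfold wA σ
  rw [mul_sub, ← mul_assoc, eq_eI_neg_mul, one_mul]

lemma sub_eq_wA (a : ℂ) (β : ℝ) : C.σ β - a = eI β * C.wA a β := by
  unfold wA
  rw [← mul_assoc, mul_comm (eI β), eq_eI_neg_mul, one_mul]

lemma wA_re_pos {a : ℂ} (ha : a ∈ C.inside) (β : ℝ) : 0 < (C.wA a β).re := by
  rw [wA_eq]
  have := ha β
  have e : ((C.h β : ℂ) + (C.dh β : ℂ) * I - eI (-β) * a).re = C.h β - (eI (-β) * a).re := by
    simp [Complex.sub_re, Complex.add_re]
  rw [e]
  linarith

lemma wA_mem_slitPlane {a : ℂ} (ha : a ∈ C.inside) (β : ℝ) : C.wA a β ∈ slitPlane :=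
  Or.inl (C.wA_re_pos ha β)

lemma wA_ne_zero {a : ℂ} (ha : a ∈ C.inside) (β : ℝ) : C.wA a β ≠ 0 :=
  slitPlane_ne_zero (C.wA_mem_slitPlane ha β)

/-- `e^{iβ}` derivative. -/
lemma eq_hasDeriv_eI_neg (β : ℝ) : HasDerivAt (fun b : ℝ => eI (-b)) (-I * eI (-β)) β := by
  have h1 : HasDerivAt (fun b : ℝ => (((-b : ℝ) : ℂ)) * I) (-I) β := by
    have h0 := ((hasDerivAt_id β).neg.ofReal_comp).mul_const I
    simpa using h0
  have h3 := h1.cexp
  exact h3.congr_deriv (by unfold eI; ring)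

/-- The derivative of `w`. -/
def dwA (a : ℂ) (β : ℝ) : ℂ :=
  (C.dh β : ℂ) + ((C.ρ β - C.h β : ℝ) : ℂ) * I + I * eI (-β) * a

lemma hasDeriv_wA (a : ℂ) (β : ℝ) : HasDerivAt (C.wA a) (C.dwA a β) β := by
  have h1 : HasDerivAt (fun b : ℝ => (C.h b : ℂ)) (C.dh β : ℂ) β := (C.hasDeriv_h β).ofReal_comp
  have h2 : HasDerivAt (fun b : ℝ => (C.dh b : ℂ)) ((C.ρ β - C.h β : ℝ) : ℂ) β :=
    (C.hasDeriv_dh β).ofReal_comp
  have h3 := (h1.add (h2.mul_const I)).sub ((eq_hasDeriv_eI_neg β).mul_const a)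
  have e : C.wA a = fun b => (C.h b : ℂ) + (C.dh b : ℂ) * I - eI (-b) * a := by
    funext b; exact C.wA_eq a b
  rw [e]
  exact h3.congr_deriv (by unfold dwA; ring)

lemma eq_cont_eI_neg : Continuous (fun β : ℝ => eI (-β)) := by
  unfold eI
  fun_prop

lemma eq_eI_neg_per (β : ℝ) : eI (-(β + 2 * π)) = eI (-β) := by
  have h := eI_per (-(β + 2 * π))
  have e : -(β + 2 * π) + 2 * π = -β := by ring
  rw [e] at h
  exact h.symm

lemma cont_wA (a : ℂ) : Continuous (C.wA a) := by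
  unfold wA
  exact eq_cont_eI_neg.mul (C.cont_σ.sub continuous_const)

lemma per_wA (a : ℂ) : Function.Periodic (C.wA a) (2 * π) := by
  intro β
  unfold wA
  rw [eq_eI_neg_per β, C.per_σ β]

lemma cont_dwA (a : ℂ) : Continuous (C.dwA a) := by
  unfold dwA
  have h1 : Continuous fun β => (C.dh β : ℂ) := Complex.continuous_ofReal.comp C.cont_dh
  have h2 : Continuous fun β => ((C.ρ β - C.h β : ℝ) : ℂ) :=
    Complex.continuous_ofReal.comp (C.cont_ρ.sub C.cont_h)
  exact (h1.add (h2.mul continuous_const)).add ((continuous_const.mul eq_cont_eI_neg).mul continuous_const)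

lemma per_dwA (a : ℂ) : Function.Periodic (C.dwA a) (2 * π) := by
  intro β
  unfold dwA
  rw [eq_eI_neg_per β, C.per_dh β, C.per_ρ β, C.per_h β]

/-- The logarithm of `w`. -/
def θA (a : ℂ) (β : ℝ) : ℂ := Complex.log (C.wA a β)

lemma cont_θA {a : ℂ} (ha : a ∈ C.inside) : Continuous (C.θA a) := by
  unfold θA
  exact (C.cont_wA a).clog (C.wA_mem_slitPlane ha)

lemma per_θA (a : ℂ) : Function.Periodic (C.θA a) (2 * π) := by
  intro β
  unfold θA
  rw [C.per_wA a β]

lemma exp_θA {a : ℂ} (ha : a ∈ C.inside) (β : ℝ) : Complex.exp (C.θA a β) = C.wA a β :=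
  Complex.exp_log (C.wA_ne_zero ha β)

lemma exists_lip_θA {a : ℂ} (ha : a ∈ C.inside) :
    ∃ L : ℝ, ∀ x y, ‖C.θA a x - C.θA a y‖ ≤ L * |x - y| := by
  refine eq_exists_lip_of_deriv (f' := fun β => C.dwA a β / C.wA a β) ?_ ?_ ?_
  · intro β
    exact (C.hasDeriv_wA a β).clog_real (C.wA_mem_slitPlane ha β)
  · exact (C.cont_dwA a).div (C.cont_wA a) (C.wA_ne_zero ha)
  · intro β
    simp only [C.per_dwA a β, C.per_wA a β]

/-- The right hand side `f = -2 Im θ`. -/
def fA (a : ℂ) (β : ℝ) : ℝ := -2 * (C.θA a β).im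

lemma LP_fA {a : ℂ} (ha : a ∈ C.inside) : LP (fun β => (C.fA a β : ℂ)) := by
  obtain ⟨L, hL⟩ := C.exists_lip_θA ha
  refine ⟨⟨2 * L, fun x y => ?_⟩, fun β => ?_⟩
  · have h1 : ((C.fA a x : ℝ) : ℂ) - (C.fA a y : ℂ) = ((C.fA a x - C.fA a y : ℝ) : ℂ) := by
      push_cast; ring
    rw [h1, Complex.norm_real, Real.norm_eq_abs]
    have h2 : C.fA a x - C.fA a y = -2 * (C.θA a x - C.θA a y).im := by
      unfold fA; rw [Complex.sub_im]; ring
    rw [h2, abs_mul]
    have h3 := Complex.abs_im_le_norm (C.θA a x - C.θA a y)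
    have h4 := hL x y
    have : |(-2 : ℝ)| = 2 := by norm_num
    rw [this]
    nlinarith [abs_nonneg (x - y)]
  · simp only [fA, C.per_θA a β]

/-- Construction. `w(β) = e^{-iβ}(σ(β) - a) = h_a + i h_a'` has `Re w > 0` (as `a` is inside), `θ = log w`
is `C¹` periodic, `f = 2 Im θ`... Use `solve_K` with `f = -2 Im θ` to get `η, c` with `K η - η = -2 Im θ + c`;
put `𝓛 = i Ce η`, `ℓ = i bv η`. By `bv_add_conj`, `2 Re bv η = K η - η`, so `Im ℓ = Re bv η = -Im θ + c/2`, and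
`P(β) := θ(β) + ℓ(β)` has constant imaginary part `c/2`. `dσ exp(-ℓ)/(σ - a) = i ρ exp(-P)`.
`cauchy_ext` applied to `exp(-𝓛)` yields `∫ ρ exp(-P) dβ = 2π`. So `e^{-ic/2} ∫ ρ exp(-Re P) = 2π`, forcing
`e^{-ic/2} = 1`, so `ϖ := ρ exp(-Re P) / (2π)` works. -/
theorem exists_equil {a : ℂ} (ha : a ∈ C.inside) : Nonempty (C.Equil a) := by
  classical
  obtain ⟨η, c, hη, hK⟩ := C.solve_K (C.LP_fA ha)
  set g : ℝ → ℂ := fun β => (η β : ℂ) with hg
  have hext : C.Ext (C.Ce g) (C.bv g) 0 := C.ext_Ce hη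
  -- the functions `𝓛, ℓ`
  set ℓ : ℝ → ℂ := fun β => I * C.bv g β with hℓ
  have hextL : C.Ext (fun z => I * C.Ce g z) ℓ 0 := by
    have := Ext.smul I hext
    simpa using this
  have hℓc : Continuous ℓ := Ext.continuous_bdry hextL
  have hℓp : Function.Periodic ℓ (2 * π) := Ext.periodic_bdry hextL
  -- imaginary part of `ℓ`
  have hconj : (fun β => conj (g β)) = g := by
    funext β; simp [hg]
  have hre : ∀ β, (C.bv g β).re = (C.fA a β + c) / 2 := by
    intro β
    have h1 := C.bv_add_conj hη β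
    rw [hconj, hK β] at h1
    have h2 := congrArg Complex.re h1
    simp only [Complex.add_re, Complex.conj_re, Complex.ofReal_re] at h2
    linarith
  set P : ℝ → ℂ := fun β => C.θA a β + ℓ β with hP
  have hPc : Continuous P := (C.cont_θA ha).add hℓc
  have hPp : Function.Periodic P (2 * π) := by
    intro β
    simp only [hP, C.per_θA a β, hℓp β]
  have hPim : ∀ β, (P β).im = c / 2 := by
    intro β
    have h1 : (ℓ β).im = (C.bv g β).re := by
      simp [hℓ, Complex.mul_im]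
    simp only [hP, Complex.add_im, h1, hre β, fA]
    ring
  -- the key identity
  set u : ℂ := Complex.exp (((-(c / 2) : ℝ) : ℂ) * I) with hu
  set E : ℝ → ℝ := fun β => C.ρ β * Real.exp (-(P β).re) with hE
  have hEc : Continuous E :=
    C.cont_ρ.mul (Real.continuous_exp.comp (Complex.continuous_re.comp hPc).neg)
  have hEp : Function.Periodic E (2 * π) := by
    intro β
    simp only [hE, C.per_ρ β, hPp β]
  have hEpos : ∀ β, 0 < E β := fun β => mul_pos (C.ρ_pos β) (Real.exp_pos _)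
  have hexpP : ∀ β, Complex.exp (-P β) = (Real.exp (-(P β).re) : ℂ) * u := by
    intro β
    have h1 : -P β = ((-(P β).re : ℝ) : ℂ) + ((-(c / 2) : ℝ) : ℂ) * I := by
      apply Complex.ext
      · simp
      · simp [hPim β]
    rw [h1, Complex.exp_add, ← Complex.ofReal_exp]
  have hkey : ∀ β, C.dσ β * Complex.exp (-ℓ β) / (C.σ β - a) = I * (E β : ℂ) * u := by
    intro β
    have hw := C.wA_ne_zero ha β
    have he := eq_eI_ne_zero β
    rw [C.sub_eq_wA a β]
    have h2 : Complex.exp (-ℓ β) = Complex.exp (-P β) * C.wA a β := by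
      rw [← C.exp_θA ha β, ← Complex.exp_add]
      congr 1
      simp only [hP]
      ring
    rw [h2, hexpP β]
    unfold dσ
    simp only [hE]
    push_cast
    field_simp
  -- Cauchy
  have hcauchy := cauchy_ext (Ext.exp (Ext.smul (-1) hextL)) ha
  have hI : ∀ β, Complex.exp ((-1 : ℂ) * ℓ β) * C.dσ β / (C.σ β - a) = I * u * (E β : ℂ) := by
    intro β
    have h1 := hkey β
    have h2 : Complex.exp ((-1 : ℂ) * ℓ β) * C.dσ β / (C.σ β - a)
        = C.dσ β * Complex.exp (-ℓ β) / (C.σ β - a) := by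
      rw [neg_one_mul, mul_comm]
    rw [h2, h1]
    ring
  simp only [hI] at hcauchy
  rw [intervalIntegral.integral_const_mul, intervalIntegral.integral_ofReal] at hcauchy
  set R : ℝ := ∫ β in (0 : ℝ)..(2 * π), E β with hR
  have hRpos : 0 < R := by
    apply intervalIntegral.intervalIntegral_pos_of_pos (hEc.intervalIntegrable _ _) hEpos
    exact Real.two_pi_pos
  have huR : u * (R : ℂ) = ((2 * π : ℝ) : ℂ) := by
    have h1 : I * u * (R : ℂ) = 2 * π * I * 1 := by
      simpa using hcauchy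
    have h2 : I ≠ 0 := Complex.I_ne_zero
    apply mul_left_cancel₀ h2
    push_cast
    calc I * (u * (R : ℂ)) = I * u * (R : ℂ) := by ring
      _ = 2 * π * I * 1 := h1
      _ = I * (2 * π) := by ring
  have hunorm : ‖u‖ = 1 := by
    rw [hu]; exact Complex.norm_exp_ofReal_mul_I _
  have hR2 : R = 2 * π := by
    have h1 := congrArg norm huR
    rw [norm_mul, hunorm, one_mul, Complex.norm_real, Complex.norm_real, Real.norm_eq_abs,
      Real.norm_eq_abs, abs_of_pos hRpos, abs_of_pos Real.two_pi_pos] at h1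
    exact h1
  have hu1 : u = 1 := by
    have h3 : (R : ℂ) ≠ 0 := by
      exact_mod_cast hRpos.ne'
    apply mul_right_cancel₀ h3
    rw [huR, one_mul, hR2]
  refine ⟨⟨fun z => I * C.Ce g z, ℓ, fun β => E β / (2 * π), hextL, hEc.div_const _, ?_, ?_, ?_⟩⟩
  · intro β
    simp only [hEp β]
  · intro β
    exact div_pos (hEpos β) Real.two_pi_pos
  · intro β
    rw [hkey β, hu1, mul_one]
    have h2pi : (π : ℂ) ≠ 0 := by exact_mod_cast Real.pi_ne_zero
    push_cast
    field_simp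

namespace Equil

variable {C} {a : ℂ} (E : C.Equil a)

/-- The equilibrium measure integrates exterior analytic functions to their value at `∞`. -/
theorem integral_ext (ha : a ∈ C.inside) {G : ℂ → ℂ} {g : ℝ → ℂ} {c : ℂ} (hG : C.Ext G g c) :
    ∫ β in (0 : ℝ)..(2 * π), g β * (E.ϖ β : ℂ) = c := by
  have hext := Ext.mul hG (Ext.exp (Ext.smul (-1) E.ext_𝓛))
  have hcauchy := cauchy_ext hext ha
  have hI : ∀ β, g β * Complex.exp ((-1 : ℂ) * E.ℓ β) * C.dσ β / (C.σ β - a)
      = (2 * π * I) * (g β * (E.ϖ β : ℂ)) := by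
    intro β
    have h1 := E.eq_ϖ β
    have h2 : g β * Complex.exp ((-1 : ℂ) * E.ℓ β) * C.dσ β / (C.σ β - a)
        = g β * (C.dσ β * Complex.exp (-E.ℓ β) / (C.σ β - a)) := by
      rw [neg_one_mul]; ring
    rw [h2, h1]
    ring
  simp only [hI] at hcauchy
  rw [intervalIntegral.integral_const_mul] at hcauchy
  have h2pi : (2 * π * I : ℂ) ≠ 0 := by
    simp [Real.pi_ne_zero]
  apply mul_left_cancel₀ h2pi
  rw [hcauchy]
  simp

/-- `K` preserves the equilibrium measure: `K g = g + bv g + conj (bv ḡ)`. -/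
theorem integral_K (ha : a ∈ C.inside) {g : ℝ → ℂ} (hg : LP g) :
    ∫ β in (0 : ℝ)..(2 * π), C.K g β * (E.ϖ β : ℂ) = ∫ β in (0 : ℝ)..(2 * π), g β * (E.ϖ β : ℂ) := by
  have hgc : Continuous g := eq_LP_continuous hg
  have hgbar : LP (fun β => conj (g β)) := by
    obtain ⟨⟨L, hL⟩, hp⟩ := hg
    refine ⟨⟨L, fun x y => ?_⟩, fun β => ?_⟩
    · rw [← map_sub, Complex.norm_conj]
      exact hL x y
    · simp only [hp β]
  have h1 := C.ext_Ce hg
  have h2 := C.ext_Ce hgbar
  have hϖ : Continuous fun β => (E.ϖ β : ℂ) := Complex.continuous_ofReal.comp E.cont_ϖ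
  have hc1 : Continuous (C.bv g) := Ext.continuous_bdry h1
  have hc2 : Continuous (C.bv fun β => conj (g β)) := Ext.continuous_bdry h2
  have hpt : ∀ β, C.K g β * (E.ϖ β : ℂ) = g β * (E.ϖ β : ℂ) + C.bv g β * (E.ϖ β : ℂ)
      + conj (C.bv (fun β => conj (g β)) β * (E.ϖ β : ℂ)) := by
    intro β
    have h3 := C.bv_add_conj hg β
    have h4 : C.K g β = g β + C.bv g β + conj (C.bv (fun β => conj (g β)) β) := by
      rw [← sub_eq_iff_eq_add'] at *
      linear_combination -h3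
    rw [h4, map_mul, Complex.conj_ofReal]
    ring
  simp only [hpt]
  have i1 : IntervalIntegrable (fun β => g β * (E.ϖ β : ℂ)) volume 0 (2 * π) :=
    (hgc.mul hϖ).intervalIntegrable _ _
  have i2 : IntervalIntegrable (fun β => C.bv g β * (E.ϖ β : ℂ)) volume 0 (2 * π) :=
    (hc1.mul hϖ).intervalIntegrable _ _
  have i3 : IntervalIntegrable
      (fun β => conj (C.bv (fun β => conj (g β)) β * (E.ϖ β : ℂ))) volume 0 (2 * π) :=
    (Complex.continuous_conj.comp (hc2.mul hϖ)).intervalIntegrable _ _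
  rw [intervalIntegral.integral_add (i1.add i2) i3, intervalIntegral.integral_add i1 i2]
  rw [E.integral_ext ha h1]
  have h5 : (∫ β in (0 : ℝ)..(2 * π), conj (C.bv (fun β => conj (g β)) β * (E.ϖ β : ℂ)))
      = conj (∫ β in (0 : ℝ)..(2 * π), C.bv (fun β => conj (g β)) β * (E.ϖ β : ℂ)) := by
    rw [intervalIntegral.integral_of_le Real.two_pi_pos.le, intervalIntegral.integral_of_le Real.two_pi_pos.le]
    exact integral_conj
  rw [h5, E.integral_ext ha h2]
  simp

/-- `K` is an `L²(ϖ)` contraction: Jensen (`norm_K_sq_le`) and `integral_K` for `|g|²`. -/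
theorem integral_norm_K_sq_le (ha : a ∈ C.inside) {g : ℝ → ℂ} (hg : LP g) :
    ∫ β in (0 : ℝ)..(2 * π), ‖C.K g β‖ ^ 2 * E.ϖ β ≤ ∫ β in (0 : ℝ)..(2 * π), ‖g β‖ ^ 2 * E.ϖ β := by
  have hgc : Continuous g := eq_LP_continuous hg
  have hgp : Function.Periodic g (2 * π) := hg.2
  -- the density `|g|²`
  set r : ℝ → ℝ := fun β => ‖g β‖ ^ 2 with hr
  have hrc : Continuous r := (hgc.norm).pow 2
  have hrC : LP (fun β => (r β : ℂ)) := by
    obtain ⟨⟨L, hL⟩, hp⟩ := hg
    obtain ⟨M, hM⟩ := eq_exists_bound_of_periodic hgc hp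
    have hM0 : 0 ≤ M := (norm_nonneg _).trans (hM 0)
    refine ⟨⟨2 * M * L, fun x y => ?_⟩, fun β => ?_⟩
    · have h1 : ((r x : ℝ) : ℂ) - (r y : ℂ) = ((r x - r y : ℝ) : ℂ) := by push_cast; ring
      rw [h1, Complex.norm_real, Real.norm_eq_abs]
      have h2 : r x - r y = (‖g x‖ + ‖g y‖) * (‖g x‖ - ‖g y‖) := by simp only [hr]; ring
      rw [h2, abs_mul]
      have h3 : |‖g x‖ + ‖g y‖| ≤ 2 * M := by
        rw [abs_of_nonneg (by positivity)]
        linarith [hM x, hM y]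
      have h4 : |‖g x‖ - ‖g y‖| ≤ L * |x - y| := (abs_norm_sub_norm_le _ _).trans (hL x y)
      calc |‖g x‖ + ‖g y‖| * |‖g x‖ - ‖g y‖| ≤ (2 * M) * (L * |x - y|) :=
            mul_le_mul h3 h4 (abs_nonneg _) (by positivity)
        _ = 2 * M * L * |x - y| := by ring
    · simp only [hr, hp β]
  have hrCc : Continuous fun β => (r β : ℂ) := Complex.continuous_ofReal.comp hrc
  have hrCp : Function.Periodic (fun β => (r β : ℂ)) (2 * π) := hrC.2
  have hKg : LP (C.K g) := C.LP_K hgc hgp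
  have hKr : LP (C.K fun β => (r β : ℂ)) := C.LP_K hrCc hrCp
  -- `K r` is real valued and equals the integral
  have hKrval : ∀ β₀, C.K (fun β => (r β : ℂ)) β₀
      = ((∫ β in (0 : ℝ)..(2 * π), C.k β₀ β * r β : ℝ) : ℂ) := by
    intro β₀
    unfold K
    rw [← intervalIntegral.integral_ofReal]
    congr 1
    funext β
    push_cast
    ring
  set R : ℝ → ℝ := fun β₀ => ∫ β in (0 : ℝ)..(2 * π), C.k β₀ β * r β with hR
  have hRc : Continuous R := by
    have h1 : R = fun β₀ => (C.K (fun β => (r β : ℂ)) β₀).re := by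
      funext β₀
      rw [hKrval β₀, Complex.ofReal_re]
    rw [h1]
    exact Complex.continuous_re.comp (eq_LP_continuous hKr)
  have hint := E.integral_K ha hrC
  have hint2 : (∫ β in (0 : ℝ)..(2 * π), R β * E.ϖ β) = ∫ β in (0 : ℝ)..(2 * π), r β * E.ϖ β := by
    have h1 : (∫ β in (0 : ℝ)..(2 * π), C.K (fun β => (r β : ℂ)) β * (E.ϖ β : ℂ))
        = ((∫ β in (0 : ℝ)..(2 * π), R β * E.ϖ β : ℝ) : ℂ) := by
      rw [← intervalIntegral.integral_ofReal]
      congr 1
      funext β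
      rw [hKrval β]
      push_cast
      rfl
    have h2 : (∫ β in (0 : ℝ)..(2 * π), ((r β : ℂ)) * (E.ϖ β : ℂ))
        = ((∫ β in (0 : ℝ)..(2 * π), r β * E.ϖ β : ℝ) : ℂ) := by
      rw [← intervalIntegral.integral_ofReal]
      congr 1
      funext β
      push_cast
      rfl
    rw [h1, h2] at hint
    exact_mod_cast hint
  rw [← hint2]
  apply intervalIntegral.integral_mono_on Real.two_pi_pos.le
  · exact (((eq_LP_continuous hKg).norm.pow 2).mul E.cont_ϖ).intervalIntegrable _ _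
  · exact (hRc.mul E.cont_ϖ).intervalIntegrable _ _
  · intro β₀ _
    exact mul_le_mul_of_nonneg_right (C.norm_K_sq_le hgc β₀) (E.ϖ_pos β₀).le

end Equil

end Crest.Agent.Crouzeix.SCurve
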