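/-
WP: build `CoreData` from an `SCurve` around the numerical range of a finite dimensional operator, and
derive the bound for matrix polynomials with the bound on the curve.
-/
import Crest.Agent.Crouzeix.Equilibrium
import Crest.Agent.Crouzeix.Core

set_option autoImplicit false

open Complex MeasureTheory Set Filter Topology
open scoped Real ComplexConjugate InnerProductSpace

noncomputable section

namespace Crest.Agent.Crouzeix

variable {H : Type*} [NormedAddCommGroup H] [InnerProductSpace ℂ H] [FiniteDimensional ℂ H]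

/-- The numerical range is strictly inside `C`. -/
def InsideCurve (A : H →L[ℂ] H) (C : SCurve) : Prop := ∀ u : H, ‖u‖ = 1 → inner ℂ u (A u) ∈ C.inside

/-- Rayleigh quotient of a nonzero vector lies inside. -/
lemma rayleigh_mem_inside {A : H →L[ℂ] H} {C : SCurve} (hA : InsideCurve A C) {η : H} (hη : η ≠ 0) :
    ((‖η‖ ^ 2 : ℝ) : ℂ)⁻¹ * inner ℂ η (A η) ∈ C.inside := by
  have hn : ‖η‖ ≠ 0 := norm_ne_zero_iff.mpr hη
  have hu : ‖((‖η‖ : ℂ)⁻¹) • η‖ = 1 := by
    rw [norm_smul, norm_inv, Complex.norm_real, norm_norm, inv_mul_cancel₀ hn]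
  have := hA _ hu
  rw [map_smul, inner_smul_left, inner_smul_right] at this
  convert this using 1
  simp only [map_inv₀, Complex.conj_ofReal]
  push_cast
  field_simp

/-- If `z ∈ ext` or `z` on the curve, `z - A` is invertible: an eigenvector `u` would give
`z = ⟨u, A u⟩ ∈ inside`, contradicting `(eI (-β) * z).re ≥ h β` for some `β`. -/
lemma resolvent_mem_of_ext {A : H →L[ℂ] H} {C : SCurve} (hA : InsideCurve A C) {z : ℂ}
    (hz : (∃ β : ℝ, C.h β ≤ (eI (-β) * z).re)) : z ∈ resolventSet ℂ A := by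
  haveI := FiniteDimensional.complete ℂ H
  obtain ⟨β, hβ⟩ := hz
  rw [spectrum.mem_resolventSet_iff, ContinuousLinearMap.isUnit_iff_bijective]
  have hinj : Function.Injective ((algebraMap ℂ (H →L[ℂ] H) z - A : H →L[ℂ] H) : H →ₗ[ℂ] H) := by
    rw [injective_iff_map_eq_zero]
    intro u hu
    by_contra hne
    have hAu : A u = z • u := by
      have : (algebraMap ℂ (H →L[ℂ] H) z - A) u = 0 := hu
      simp only [ContinuousLinearMap.sub_apply, Algebra.algebraMap_eq_smul_one,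
        ContinuousLinearMap.smul_apply, ContinuousLinearMap.one_apply] at this
      exact (sub_eq_zero.mp this).symm
    have hin := rayleigh_mem_inside hA hne
    rw [hAu, inner_smul_right, inner_self_eq_norm_sq_to_K] at hin
    have hn : (‖u‖ : ℂ) ≠ 0 := by exact_mod_cast norm_ne_zero_iff.mpr hne
    have hz' : ((‖u‖ ^ 2 : ℝ) : ℂ)⁻¹ * (z * ((‖u‖ : ℂ) ^ 2)) = z := by
      push_cast; field_simp
    have hin' : z ∈ C.inside := by
      have h2 := hin
      simp only [Complex.coe_algebraMap] at h2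
      rwa [hz'] at h2
    have := hin' β
    linarith
  have hsurj := LinearMap.injective_iff_surjective.mp hinj
  exact ⟨hinj, hsurj⟩


lemma resolvent_spec {A : H →L[ℂ] H} {z : ℂ} (hz : z ∈ resolventSet ℂ A) (u : H) :
    z • resolvent A z u - A (resolvent A z u) = u := by
  have h1 : (algebraMap ℂ (H →L[ℂ] H) z - A) * resolvent A z = 1 :=
    Ring.mul_inverse_cancel _ hz
  have h2 := congrArg (fun T : H →L[ℂ] H => T u) h1
  simpa [Algebra.algebraMap_eq_smul_one] using h2

lemma resolvent_mul_sub {A : H →L[ℂ] H} {z : ℂ} (hz : z ∈ resolventSet ℂ A) :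
    resolvent A z * (z • (1 : H →L[ℂ] H) - A) = 1 := by
  have h1 : Ring.inverse (algebraMap ℂ (H →L[ℂ] H) z - A) * (algebraMap ℂ (H →L[ℂ] H) z - A) = 1 :=
    Ring.inverse_mul_cancel _ hz
  rwa [Algebra.algebraMap_eq_smul_one] at h1

lemma resolvent_comm {A : H →L[ℂ] H} {z : ℂ} (hz : z ∈ resolventSet ℂ A) :
    resolvent A z * A = A * resolvent A z := by
  set T : H →L[ℂ] H := z • (1 : H →L[ℂ] H) - A with hT
  set R := resolvent A z with hR
  have hRT : R * T = 1 := resolvent_mul_sub hz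
  have hTR : T * R = 1 := by
    have h1 : (algebraMap ℂ (H →L[ℂ] H) z - A) * Ring.inverse (algebraMap ℂ (H →L[ℂ] H) z - A) = 1 :=
      Ring.mul_inverse_cancel _ hz
    rwa [Algebra.algebraMap_eq_smul_one] at h1
  have hcomm : A * T = T * A := by
    rw [hT, mul_sub, sub_mul, mul_smul_comm, smul_mul_assoc, mul_one, one_mul]
  calc R * A = R * A * (T * R) := by rw [hTR, mul_one]
    _ = R * (A * T) * R := by noncomm_ring
    _ = R * (T * A) * R := by rw [hcomm]
    _ = (R * T) * A * R := by noncomm_ring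
    _ = A * R := by rw [hRT, one_mul]

lemma continuousAt_resolvent {A : H →L[ℂ] H} {z : ℂ} (hz : z ∈ resolventSet ℂ A) :
    ContinuousAt (resolvent A) z := by
  haveI := FiniteDimensional.complete ℂ H
  exact (spectrum.hasDerivAt_resolvent hz).continuousAt

lemma re_eI_neg_mul_σs (C : SCurve) (β s : ℝ) :
    (eI (-β) * C.σs β s).re = C.h β + s := by
  have h1 : eI (-β) * C.σs β s = eI (-β) * C.σ β + (s : ℂ) := by
    have h2 : eI (-β) * eI β = 1 := by
      rw [eI, eI, ← Complex.exp_add]; simp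
    unfold SCurve.σs
    rw [mul_add, mul_left_comm, h2, mul_one]
  rw [h1, Complex.add_re, C.re_σ, Complex.ofReal_re]

lemma σs_mem_resolvent {A : H →L[ℂ] H} {C : SCurve} (hA : InsideCurve A C) (β : ℝ) {s : ℝ} (hs : 0 ≤ s) :
    C.σs β s ∈ resolventSet ℂ A :=
  resolvent_mem_of_ext hA ⟨β, by rw [re_eI_neg_mul_σs]; linarith⟩

lemma σ_mem_resolvent {A : H →L[ℂ] H} {C : SCurve} (hA : InsideCurve A C) (β : ℝ) :
    C.σ β ∈ resolventSet ℂ A :=
  resolvent_mem_of_ext hA ⟨β, by rw [C.re_σ]⟩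

lemma σs_zero (C : SCurve) (β : ℝ) : C.σs β 0 = C.σ β := by
  simp [SCurve.σs]

/-- Positivity of `Re D`. -/
lemma re_inner_smul_resolvent_nonneg {A : H →L[ℂ] H} {C : SCurve} (hA : InsideCurve A C) (β : ℝ)
    {c : ℝ} (hc : 0 ≤ c) (u : H) :
    0 ≤ (inner ℂ u (((c : ℂ) * eI β) • resolvent A (C.σ β) u)).re := by
  have hres := σ_mem_resolvent hA (C := C) β
  set η := resolvent A (C.σ β) u with hη
  have hu : C.σ β • η - A η = u := resolvent_spec hres u
  by_cases h0 : η = 0
  · simp [h0]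
  have hN : 0 < ‖η‖ ^ 2 := by positivity
  set N : ℝ := ‖η‖ ^ 2 with hNdef
  set w : ℂ := ((N : ℝ) : ℂ)⁻¹ * inner ℂ η (A η) with hw
  have hwin : w ∈ C.inside := rayleigh_mem_inside hA h0
  have hNne : (N : ℂ) ≠ 0 := by exact_mod_cast hN.ne'
  have hinner : inner ℂ η (A η) = (N : ℂ) * w := by
    rw [hw]; field_simp
  have hηη : inner ℂ η η = (N : ℂ) := by
    rw [inner_self_eq_norm_sq_to_K]; simp [hNdef]
  have h1 : inner ℂ u η = (N : ℂ) * conj (C.σ β - w) := by
    rw [← hu, inner_sub_left, inner_smul_left, hηη, ← inner_conj_symm (A η) η, hinner]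
    simp only [map_sub, map_mul, Complex.conj_ofReal]
    ring
  have hconj : eI β = conj (eI (-β)) := by
    rw [eI, eI, ← Complex.exp_conj]
    simp
  have h2 : (inner ℂ u (((c : ℂ) * eI β) • η)).re = c * N * (C.h β - (eI (-β) * w).re) := by
    rw [inner_smul_right, h1]
    have h3 : ((c : ℂ) * eI β * ((N : ℂ) * conj (C.σ β - w))) =
        ((c * N : ℝ) : ℂ) * conj (eI (-β) * (C.σ β - w)) := by
      rw [map_mul, ← hconj]; push_cast; ring
    rw [h3, Complex.re_ofReal_mul, Complex.conj_re, mul_sub, Complex.sub_re, C.re_σ]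
  rw [h2]
  have := hwin β
  have h4 : 0 ≤ C.h β - (eI (-β) * w).re := by linarith
  positivity

/-- The exterior analytic function with boundary value `(σ - a) ⟨v, R(σ) u⟩`. -/
lemma ext_resolvent {A : H →L[ℂ] H} {C : SCurve} (hA : InsideCurve A C) (a : ℂ) (u v : H) :
    C.Ext (fun z => (z - a) * inner ℂ v (resolvent A z u))
      (fun β => (C.σ β - a) * inner ℂ v (resolvent A (C.σ β) u)) (inner ℂ v u) := by
  haveI := FiniteDimensional.complete ℂ H
  let L : (H →L[ℂ] H) →L[ℂ] ℂ := (innerSL ℂ v).comp (ContinuousLinearMap.apply ℂ H u)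
  have hL : ∀ T : H →L[ℂ] H, L T = inner ℂ v (T u) := fun T => rfl
  simp_rw [← hL]
  refine ⟨?_, ?_, ?_⟩
  · intro z hz
    obtain ⟨β, hβ⟩ := hz
    have hres := resolvent_mem_of_ext hA ⟨β, hβ.le⟩ (z := z)
    have hd : DifferentiableAt ℂ (resolvent A) z := (spectrum.hasDerivAt_resolvent hres).differentiableAt
    apply DifferentiableAt.differentiableWithinAt
    exact (differentiableAt_id.sub_const a).mul (L.differentiableAt.comp z hd)
  · refine ⟨fun β s => (C.σs β |s| - a) * L (resolvent A (C.σs β |s|)), ?_, ?_, ?_⟩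
    · have hσ : Continuous (fun p : ℝ × ℝ => C.σs p.1 |p.2|) := by
        unfold SCurve.σs
        exact (C.cont_σ.comp continuous_fst).add
          ((Complex.continuous_ofReal.comp (continuous_abs.comp continuous_snd)).mul
            (continuous_eI.comp continuous_fst))
      have hres : Continuous (fun p : ℝ × ℝ => resolvent A (C.σs p.1 |p.2|)) := by
        rw [continuous_iff_continuousAt]
        intro p
        exact ContinuousAt.comp (f := fun p : ℝ × ℝ => C.σs p.1 |p.2|)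
          (continuousAt_resolvent (σs_mem_resolvent hA p.1 (abs_nonneg p.2))) hσ.continuousAt
      exact (hσ.sub continuous_const).mul (L.continuous.comp hres)
    · intro β s hs
      simp only [abs_of_pos hs]
    · intro β
      simp only [abs_zero, σs_zero]
  · refine ⟨2 * ‖v‖ * (‖A‖ + ‖a‖) * ‖u‖, 2 * ‖A‖ + 1, by positivity, ?_⟩
    intro z hz hR
    obtain ⟨β, hβ⟩ := hz
    have hres := resolvent_mem_of_ext hA ⟨β, hβ.le⟩ (z := z)
    set η := resolvent A z u with hη
    have hu : z • η - A η = u := resolvent_spec hres u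
    have hzpos : 0 < ‖z‖ := by
      have : 0 ≤ ‖A‖ := norm_nonneg _
      linarith
    have hηle : ‖z‖ * ‖η‖ ≤ 2 * ‖u‖ := by
      have h1 : ‖z‖ * ‖η‖ ≤ ‖u‖ + ‖A‖ * ‖η‖ := by
        have : z • η = u + A η := by rw [← hu]; abel
        calc ‖z‖ * ‖η‖ = ‖z • η‖ := (norm_smul _ _).symm
          _ = ‖u + A η‖ := by rw [this]
          _ ≤ ‖u‖ + ‖A η‖ := norm_add_le _ _
          _ ≤ ‖u‖ + ‖A‖ * ‖η‖ := by gcongr; exact A.le_opNorm η
      have hηnn : 0 ≤ ‖η‖ := norm_nonneg _
      nlinarith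
    have hkey : (z - a) * L (resolvent A z) - inner ℂ v u = inner ℂ v (A η - a • η) := by
      have h3 : (z - a) • η - u = A η - a • η := by
        rw [sub_smul]
        rw [← hu]; abel
      rw [← h3, inner_sub_right, inner_smul_right, hL]
    have hfin : ‖(z - a) * L (resolvent A z) - inner ℂ v u‖ ≤
        (2 * ‖v‖ * (‖A‖ + ‖a‖) * ‖u‖) / ‖z‖ := by
      rw [hkey, le_div_iff₀ hzpos]
      have h5 : ‖A η - a • η‖ ≤ (‖A‖ + ‖a‖) * ‖η‖ := by
        calc ‖A η - a • η‖ ≤ ‖A η‖ + ‖a • η‖ := norm_sub_le _ _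
          _ ≤ ‖A‖ * ‖η‖ + ‖a‖ * ‖η‖ := by
            gcongr
            · exact A.le_opNorm η
            · rw [norm_smul]
          _ = _ := by ring
      calc ‖inner ℂ v (A η - a • η)‖ * ‖z‖ ≤ (‖v‖ * ‖A η - a • η‖) * ‖z‖ := by
            gcongr; exact norm_inner_le_norm _ _
        _ ≤ (‖v‖ * ((‖A‖ + ‖a‖) * ‖η‖)) * ‖z‖ := by gcongr
        _ = ‖v‖ * (‖A‖ + ‖a‖) * (‖z‖ * ‖η‖) := by ring
        _ ≤ ‖v‖ * (‖A‖ + ‖a‖) * (2 * ‖u‖) := by gcongr
        _ = _ := by ring
    exact hfin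


/-! ### The class `LP` -/

lemma LP.continuous {g : ℝ → ℂ} (hg : LP g) : Continuous g := by
  obtain ⟨⟨L, hL⟩, -⟩ := hg
  have hL' : LipschitzWith (Real.toNNReal L) g := by
    apply LipschitzWith.of_dist_le' (K := L)
    intro x y
    rw [dist_eq_norm, Real.dist_eq]
    exact hL x y
  exact hL'.continuous

lemma LP.add {g g' : ℝ → ℂ} (hg : LP g) (hg' : LP g') : LP (fun β => g β + g' β) := by
  obtain ⟨⟨L, hL⟩, hp⟩ := hg
  obtain ⟨⟨L', hL'⟩, hp'⟩ := hg'
  refine ⟨⟨L + L', fun x y => ?_⟩, fun x => by simp only [hp x, hp' x]⟩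
  have : g x + g' x - (g y + g' y) = (g x - g y) + (g' x - g' y) := by ring
  rw [this, add_mul]
  exact (norm_add_le _ _).trans (add_le_add (hL x y) (hL' x y))

lemma LP.smul {g : ℝ → ℂ} (a : ℂ) (hg : LP g) : LP (fun β => a * g β) := by
  obtain ⟨⟨L, hL⟩, hp⟩ := hg
  refine ⟨⟨‖a‖ * L, fun x y => ?_⟩, fun x => by simp only [hp x]⟩
  rw [← mul_sub, norm_mul, mul_assoc]
  exact mul_le_mul_of_nonneg_left (hL x y) (norm_nonneg _)

lemma LP.conj {g : ℝ → ℂ} (hg : LP g) : LP (fun β => conj (g β)) := by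
  obtain ⟨⟨L, hL⟩, hp⟩ := hg
  refine ⟨⟨L, fun x y => ?_⟩, fun x => by simp only [hp x]⟩
  rw [← map_sub, Complex.norm_conj]
  exact hL x y

/-- Every continuous periodic function is a uniform limit of functions of class `LP`
(trigonometric polynomials). -/
lemma LP_dense (f : ℝ → ℂ) (hf : Continuous f) (hper : Function.Periodic f (2 * π)) (ε : ℝ) (hε : 0 < ε) :
    ∃ g, LP g ∧ ∀ β, ‖f β - g β‖ ≤ ε := by
  haveI : Fact (0 < 2 * π) := ⟨Real.two_pi_pos⟩
  let F : C(AddCircle (2 * π), ℂ) :=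
    ⟨hper.lift, by
      apply continuous_coinduced_dom.mpr
      exact hf⟩
  have hF : ∀ x : ℝ, F (x : AddCircle (2 * π)) = f x := fun x => rfl
  have hmem : F ∈ (Submodule.span ℂ (Set.range (@fourier (2 * π)))).topologicalClosure := by
    rw [span_fourier_closure_eq_top]; trivial
  obtain ⟨G, hG, hGF⟩ := Metric.mem_closure_iff.mp hmem ε hε
  -- elements of the span are `LP`
  have hLP : ∀ G ∈ Submodule.span ℂ (Set.range (@fourier (2 * π))),
      LP (fun x : ℝ => G (x : AddCircle (2 * π))) := by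
    intro G hG
    induction hG using Submodule.span_induction with
    | mem x hx =>
      obtain ⟨n, rfl⟩ := hx
      refine ⟨⟨|(n : ℝ)|, fun x y => ?_⟩, fun x => ?_⟩
      · -- `e^{inx}` is Lipschitz
        have hfx : ∀ x : ℝ, fourier n (x : AddCircle (2 * π)) = Complex.exp (((n : ℝ) * x : ℝ) * I) := by
          intro x
          rw [fourier_coe_apply]
          congr 1
          push_cast
          field_simp
        simp only [hfx]
        have hder : ∀ t : ℝ, HasDerivAt (fun t : ℝ => Complex.exp (((n : ℝ) * t : ℝ) * I))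
            (Complex.exp (((n : ℝ) * t : ℝ) * I) * ((n : ℝ) * I)) t := by
          intro t
          have h1 : HasDerivAt (fun t : ℝ => (((n : ℝ) * t : ℝ) : ℂ) * I) (((n : ℝ) : ℂ) * I) t := by
            have h0 : HasDerivAt (fun t : ℝ => (n : ℝ) * t) (n : ℝ) t := by
              simpa using (hasDerivAt_id t).const_mul (n : ℝ)
            have h2 := h0.ofReal_comp
            exact h2.mul_const I
          exact h1.cexp
        have hbound : ∀ t : ℝ, ‖Complex.exp (((n : ℝ) * t : ℝ) * I) * ((n : ℝ) * I)‖ ≤ |(n : ℝ)| := by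
          intro t
          rw [norm_mul, Complex.norm_exp_ofReal_mul_I, one_mul, norm_mul, Complex.norm_I, mul_one,
            Complex.norm_real, Real.norm_eq_abs]
        have hlip := Convex.norm_image_sub_le_of_norm_hasDerivWithin_le
          (f := fun t : ℝ => Complex.exp (((n : ℝ) * t : ℝ) * I)) (s := Set.univ)
          (fun t _ => (hder t).hasDerivWithinAt) (fun t _ => hbound t) convex_univ
          (Set.mem_univ y) (Set.mem_univ x)
        simpa [Real.norm_eq_abs] using hlip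
      · simp
    | zero => exact ⟨⟨0, fun x y => by simp⟩, fun x => by simp⟩
    | add x y _ _ hx hy => exact hx.add hy
    | smul a x _ hx => exact hx.smul a
  refine ⟨_, hLP G hG, fun β => ?_⟩
  rw [← hF β]
  have h := (ContinuousMap.dist_apply_le_dist (f := F) (g := G) (β : AddCircle (2 * π)))
  rw [dist_eq_norm] at h
  exact h.trans hGF.le


/-! ### From `Equil` to `CoreData` -/

section Core

variable {C : SCurve} {a : ℂ} (E : C.Equil a)

include E in
/-- `ν ϖ = dσ / (2π i)`. -/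
lemma Equil_nu_mul (ha : a ∈ C.inside) (β : ℝ) :
    (C.σ β - a) * Complex.exp (E.ℓ β) * (E.ϖ β : ℂ) = C.dσ β / (2 * π * I) := by
  have hne : C.σ β - a ≠ 0 := sub_ne_zero.mpr (C.σ_ne_of_mem_inside ha β)
  have h := E.eq_ϖ β
  have hpi : (2 * (π : ℂ) * I) ≠ 0 := by
    simp [Real.pi_ne_zero]
  have hexp : Complex.exp (-E.ℓ β) * Complex.exp (E.ℓ β) = 1 := by
    rw [← Complex.exp_add]; simp
  have h2 : C.dσ β * Complex.exp (-E.ℓ β) = 2 * π * I * (E.ϖ β : ℂ) * (C.σ β - a) := by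
    rw [← h]; field_simp
  have h3 : C.dσ β = 2 * π * I * (E.ϖ β : ℂ) * (C.σ β - a) * Complex.exp (E.ℓ β) := by
    rw [← h2, mul_assoc, hexp, mul_one]
  rw [h3]
  field_simp

include E in
/-- `ν = c e^{iβ}` with `c > 0`. -/
lemma Equil_nu_eq (ha : a ∈ C.inside) (β : ℝ) :
    (C.σ β - a) * Complex.exp (E.ℓ β) =
      ((C.ρ β / (2 * π * E.ϖ β) : ℝ) : ℂ) * eI β := by
  have h := Equil_nu_mul E ha β
  have hϖ : (E.ϖ β : ℂ) ≠ 0 := by exact_mod_cast (E.ϖ_pos β).ne'
  have hpi : ((π : ℝ) : ℂ) ≠ 0 := by simp [Real.pi_ne_zero]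
  have hdσ : C.dσ β / (2 * π * I) = (C.ρ β : ℂ) * eI β / (2 * π) := by
    unfold SCurve.dσ
    field_simp
  rw [hdσ] at h
  have : (C.σ β - a) * Complex.exp (E.ℓ β) = (C.ρ β : ℂ) * eI β / (2 * π) / (E.ϖ β : ℂ) := by
    rw [← h]; field_simp
  rw [this]
  push_cast
  field_simp

end Core

/-- `CoreData` of the curve: `ν β = (σ β - a) exp ℓ β`, `D β = ν β • resolvent A (σ β)`,
`𝓑 f c := ∃ G, C.Ext G f c`, `𝓡 = LP`, `Hh = C.bv`. Positivity of `Re D`: with `η = (σ-A)⁻¹ u`,
`⟨u, D u⟩ = ν conj⟨(σ-A)η... ` = `|η|² ν conj (σ - w)`, `w = ⟨η, Aη⟩/|η|² inside`, `ν = |ν| e^{iβ}` (from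
`dσ/ν = 2πi ϖ`), so the real part is `|η|²|ν| (h β - Re (e^{-iβ} w)) > 0`.
`𝓑_D`: `G z = (z - a) exp(𝓛 z) ⟨v, resolvent A z u⟩`; `(z - a) R(z) = 1 + (A - a) R(z)`, `‖R(z)‖ ≤ 1/(|z|-‖A‖)`.
`𝓡_dense`: trig polys, e.g. Mathlib `span_fourier_closure_eq_top`. -/
theorem exists_coreData (A : H →L[ℂ] H) (C : SCurve) (hA : InsideCurve A C) (u₀ : H) (hu₀ : ‖u₀‖ = 1) :
    ∃ d : CoreData A, d.σ = C.σ := by
  haveI := FiniteDimensional.complete ℂ H
  set a : ℂ := inner ℂ u₀ (A u₀) with ha_def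
  have ha : a ∈ C.inside := hA u₀ hu₀
  obtain ⟨E⟩ := C.exists_equil ha
  have hℓc : Continuous E.ℓ := SCurve.Ext.continuous_bdry E.ext_𝓛
  have hℓp : Function.Periodic E.ℓ (2 * π) := SCurve.Ext.periodic_bdry E.ext_𝓛
  have hνc : Continuous fun β => (C.σ β - a) * Complex.exp (E.ℓ β) :=
    (C.cont_σ.sub continuous_const).mul (Complex.continuous_exp.comp hℓc)
  have hRc : Continuous fun β => resolvent A (C.σ β) := by
    rw [continuous_iff_continuousAt]
    intro β
    exact ContinuousAt.comp (g := resolvent A) (continuousAt_resolvent (σ_mem_resolvent hA β))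
      C.cont_σ.continuousAt
  have hDi : ∀ (u v : H) (β : ℝ), inner ℂ v (((C.σ β - a) * Complex.exp (E.ℓ β)) • resolvent A (C.σ β) u)
      = Complex.exp (E.ℓ β) * ((C.σ β - a) * inner ℂ v (resolvent A (C.σ β) u)) := by
    intro u v β
    rw [inner_smul_right]; ring
  refine ⟨{
    σ := C.σ
    ν := fun β => (C.σ β - a) * Complex.exp (E.ℓ β)
    ϖ := E.ϖ
    D := fun β => ((C.σ β - a) * Complex.exp (E.ℓ β)) • resolvent A (C.σ β)
    cont_σ := C.cont_σ
    cont_ν := hνc
    cont_ϖ := E.cont_ϖ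
    cont_D := hνc.smul hRc
    per_D := fun β => by
      simp only [C.per_σ β, hℓp β]
    ϖ_nonneg := fun β => (E.ϖ_pos β).le
    D_res := fun β => by
      rw [smul_mul_assoc, resolvent_mul_sub (σ_mem_resolvent hA β)]
    D_comm := fun β => by
      rw [smul_mul_assoc, mul_smul_comm, resolvent_comm (σ_mem_resolvent hA β)]
    D_pos := fun β u => by
      have hc : 0 ≤ C.ρ β / (2 * π * E.ϖ β) := by
        have := E.ϖ_pos β
        have := C.ρ_pos β
        positivity
      have := re_inner_smul_resolvent_nonneg hA β hc u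
      rw [← Equil_nu_eq E ha β] at this
      exact this
    𝓑 := fun f c => ∃ G, C.Ext G f c
    𝓑_cont := fun ⟨G, hG⟩ => SCurve.Ext.continuous_bdry hG
    𝓑_mul := fun ⟨G, hG⟩ ⟨G', hG'⟩ => ⟨_, SCurve.Ext.mul hG hG'⟩
    𝓑_int := fun ⟨G, hG⟩ => E.integral_ext ha hG
    𝓑_D := fun u v => by
      have h1 := SCurve.Ext.exp E.ext_𝓛
      have h2 := SCurve.Ext.mul h1 (ext_resolvent hA a u v)
      rw [Complex.exp_zero, one_mul] at h2
      refine ⟨fun z => Complex.exp (E.𝓛 z) * ((z - a) * inner ℂ v (resolvent A z u)), ?_⟩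
      have hfun : (fun β => inner ℂ v ((((C.σ β - a) * Complex.exp (E.ℓ β)) • resolvent A (C.σ β)) u))
          = fun β => Complex.exp (E.ℓ β) * ((C.σ β - a) * inner ℂ v (resolvent A (C.σ β) u)) := by
        funext β
        exact hDi u v β
      rw [hfun]
      exact h2
    moment_ν := fun j => by
      have h1 : ∀ β, C.σ β ^ j * ((C.σ β - a) * Complex.exp (E.ℓ β)) * (E.ϖ β : ℂ)
          = (2 * π * I)⁻¹ * (C.σ β ^ j * C.dσ β) := by
        intro β
        rw [mul_assoc, Equil_nu_mul E ha β]; ring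
      simp_rw [h1]
      rw [intervalIntegral.integral_const_mul, C.moment_zero j, mul_zero]
    𝓡 := LP
    𝓡_cont := fun hg => hg.continuous
    𝓡_add := fun hg hg' => hg.add hg'
    𝓡_smul := fun a hg => hg.smul a
    𝓡_conj := fun hg => hg.conj
    𝓡_dense := fun f hf hper ε hε => LP_dense f hf hper ε hε
    Hh := C.bv
    Hh_𝓑 := fun hg => ⟨_, C.ext_Ce hg⟩
    Hh_K := fun {g} hg => by
      have h := E.integral_norm_K_sq_le ha hg
      have h1 : ∀ β, g β + C.bv g β + conj (C.bv (fun b => conj (g b)) β) = C.K g β := by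
        intro β
        rw [add_assoc, C.bv_add_conj hg β]; ring
      simp_rw [h1]
      exact h
    Hh_moment := fun {g} hg j => by
      have h1 : ∀ β, C.σ β ^ j * (g β + C.bv g β) * ((C.σ β - a) * Complex.exp (E.ℓ β)) * (E.ϖ β : ℂ)
          = (2 * π * I)⁻¹ * (C.σ β ^ j * (g β + C.bv g β) * C.dσ β) := by
        intro β
        rw [mul_assoc, Equil_nu_mul E ha β]; ring
      simp_rw [h1]
      rw [intervalIntegral.integral_const_mul, SCurve.moment_bv hg j, mul_zero]
  }, rfl⟩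


/-- Singular pair in finite dimension. `T` is any linear operator on `PiLp 2 (fun _ : Fin m => H)`. -/
theorem exists_singular_pair {E : Type*} [NormedAddCommGroup E] [InnerProductSpace ℂ E]
    [FiniteDimensional ℂ E] [Nontrivial E] (T : E →L[ℂ] E) :
    ∃ (x y : E) (s : ℝ), 0 ≤ s ∧ ‖x‖ = 1 ∧ ‖y‖ = 1 ∧ T x = (s : ℂ) • y ∧
      (∀ u, inner ℂ y (T u) = (s : ℂ) * inner ℂ x u) ∧ ∀ u, ‖T u‖ ≤ s * ‖u‖ := by
  haveI := FiniteDimensional.complete ℂ E
  haveI : ProperSpace E := FiniteDimensional.proper ℂ E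
  -- a maximiser on the unit sphere
  have hne : (Metric.sphere (0 : E) 1).Nonempty := by
    obtain ⟨e, he⟩ := exists_ne (0 : E)
    refine ⟨((‖e‖ : ℂ)⁻¹) • e, ?_⟩
    have hn : ‖e‖ ≠ 0 := norm_ne_zero_iff.mpr he
    simp [norm_smul, hn]
  obtain ⟨x, hx, hmax⟩ := (isCompact_sphere (0 : E) 1).exists_isMaxOn hne
    (T.continuous.norm.continuousOn)
  have hxn : ‖x‖ = 1 := by simpa using hx
  set s := ‖T x‖ with hs
  have hbound : ∀ u, ‖T u‖ ≤ s * ‖u‖ := by
    intro u
    by_cases hu : u = 0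
    · simp [hu]
    have hn : ‖u‖ ≠ 0 := norm_ne_zero_iff.mpr hu
    have hmem : ((‖u‖ : ℂ)⁻¹) • u ∈ Metric.sphere (0 : E) 1 := by
      simp [norm_smul, hn]
    have h1 := hmax hmem
    simp only [Set.mem_setOf_eq, map_smul, norm_smul, norm_inv, Complex.norm_real, norm_norm] at h1
    rw [inv_mul_le_iff₀ (by positivity)] at h1
    linarith [mul_comm ‖u‖ s]
  have hsnn : 0 ≤ s := norm_nonneg _
  by_cases hs0 : s = 0
  · refine ⟨x, x, 0, le_rfl, hxn, hxn, ?_, ?_, ?_⟩
    · have := hbound x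
      rw [hs0, zero_mul] at this
      have h0 : T x = 0 := norm_le_zero_iff.mp this
      simp [h0]
    · intro u
      have := hbound u
      rw [hs0, zero_mul] at this
      have h0 : T u = 0 := norm_le_zero_iff.mp this
      simp [h0]
    · intro u
      simpa [hs0] using hbound u
  have hspos : 0 < s := lt_of_le_of_ne hsnn (Ne.symm hs0)
  have hsc : (s : ℂ) ≠ 0 := by exact_mod_cast hs0
  set y : E := ((s : ℂ)⁻¹) • T x with hy
  have hyn : ‖y‖ = 1 := by
    rw [hy, norm_smul, norm_inv, Complex.norm_real, Real.norm_eq_abs, abs_of_pos hspos, ← hs]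
    exact inv_mul_cancel₀ hs0
  have hTx : T x = (s : ℂ) • y := by
    rw [hy, smul_smul, mul_inv_cancel₀ hsc, one_smul]
  -- adjoint
  have hadj : ∀ u, inner ℂ y (T u) = inner ℂ (ContinuousLinearMap.adjoint T y) u := by
    intro u
    rw [ContinuousLinearMap.adjoint_inner_left]
  have hTy : ‖ContinuousLinearMap.adjoint T y‖ ≤ s := by
    have h1 : ‖T‖ ≤ s := ContinuousLinearMap.opNorm_le_bound _ hsnn hbound
    calc ‖ContinuousLinearMap.adjoint T y‖ ≤ ‖ContinuousLinearMap.adjoint T‖ * ‖y‖ :=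
          (ContinuousLinearMap.adjoint T).le_opNorm y
      _ = ‖T‖ := by rw [LinearIsometryEquiv.norm_map, hyn, mul_one]
      _ ≤ s := h1
  have hinner : inner ℂ (ContinuousLinearMap.adjoint T y) x = (s : ℂ) := by
    rw [← hadj, hTx, inner_smul_right, inner_self_eq_norm_sq_to_K, hyn]
    simp
  have hge : s ≤ ‖ContinuousLinearMap.adjoint T y‖ := by
    have h1 := norm_inner_le_norm (𝕜 := ℂ) (ContinuousLinearMap.adjoint T y) x
    rw [hinner, Complex.norm_real, Real.norm_eq_abs, abs_of_pos hspos, hxn, mul_one] at h1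
    exact h1
  have hnorm : ‖ContinuousLinearMap.adjoint T y‖ = s := le_antisymm hTy hge
  have heq : ContinuousLinearMap.adjoint T y = (s : ℂ) • x := by
    have h1 : inner ℂ (ContinuousLinearMap.adjoint T y) x = ((‖ContinuousLinearMap.adjoint T y‖ : ℝ) : ℂ) * (‖x‖ : ℝ) := by
      rw [hinner, hnorm, hxn]; simp
    have h2 := (inner_eq_norm_mul_iff (𝕜 := ℂ)).mp h1
    rw [hxn, hnorm] at h2
    simpa using h2
  refine ⟨x, y, s, hsnn, hxn, hyn, hTx, ?_, hbound⟩
  intro u
  rw [hadj, heq, inner_smul_left]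
  simp


/-- The operator `u ↦ (Σ_j Σ_k B_k i j • A^k u_j)_i` on `PiLp 2`. -/
def matOp (A : H →L[ℂ] H) {m N : ℕ} (B : Fin N → Matrix (Fin m) (Fin m) ℂ) :
    PiLp 2 (fun _ : Fin m => H) →L[ℂ] PiLp 2 (fun _ : Fin m => H) :=
  LinearMap.toContinuousLinearMap
    { toFun := fun v => WithLp.toLp 2 (fun i : Fin m => ∑ j : Fin m, ∑ k : Fin N, B k i j • (A ^ (k : ℕ)) (v j))
      map_add' := fun x y => by
        ext i
        simp [smul_add, Finset.sum_add_distrib]
      map_smul' := fun c x => by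
        ext i
        simp only [RingHom.id_apply, PiLp.smul_apply, Finset.smul_sum, map_smul]
        refine Finset.sum_congr rfl fun j _ => Finset.sum_congr rfl fun k _ => ?_
        rw [smul_comm] }

lemma matOp_apply (A : H →L[ℂ] H) {m N : ℕ} (B : Fin N → Matrix (Fin m) (Fin m) ℂ)
    (v : PiLp 2 (fun _ : Fin m => H)) :
    matOp A B v = WithLp.toLp 2 (fun i : Fin m => ∑ j : Fin m, ∑ k : Fin N, B k i j • (A ^ (k : ℕ)) (v j)) :=
  rfl

/-- The normalised bound. -/
lemma crouzeix_of_curve_aux (A : H →L[ℂ] H) (C : SCurve) (hA : InsideCurve A C) (u₀ : H) (hu₀ : ‖u₀‖ = 1)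
    {m N : ℕ} (B : Fin N → Matrix (Fin m) (Fin m) ℂ)
    (hV : ∀ β, ‖Matrix.toEuclideanCLM (n := Fin m) (𝕜 := ℂ) (∑ k : Fin N, C.σ β ^ (k : ℕ) • B k)‖ ≤ 1)
    (v : PiLp 2 (fun _ : Fin m => H)) :
    ‖matOp A B v‖ ≤ 2 * ‖v‖ := by
  obtain ⟨d, hd⟩ := exists_coreData A C hA u₀ hu₀
  rcases Nat.eq_zero_or_pos m with rfl | hm
  · have : matOp A B v = 0 := by
      ext i
      exact i.elim0
    rw [this, norm_zero]
    positivity
  haveI : Nontrivial (PiLp 2 (fun _ : Fin m => H)) := by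
    refine ⟨⟨0, WithLp.toLp 2 (fun _ => u₀), fun h => ?_⟩⟩
    have h1 := congrArg (fun w : PiLp 2 (fun _ : Fin m => H) => w ⟨0, hm⟩) h
    simp only [PiLp.zero_apply] at h1
    have h2 : u₀ = 0 := h1.symm
    rw [h2, norm_zero] at hu₀
    exact zero_ne_one hu₀
  obtain ⟨x, y, s, hs, hx, hy, hTx, hTy, hb⟩ := exists_singular_pair (matOp A B)
  have hs2 : s ≤ 2 := by
    refine d.singular_le_two B (by rw [hd]; exact hV) (fun j => x j) (fun i => y i) s hs ?_ ?_ ?_ ?_
    · have := PiLp.norm_sq_eq_of_L2 (fun _ : Fin m => H) x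
      rw [hx] at this
      simpa using this.symm
    · have := PiLp.norm_sq_eq_of_L2 (fun _ : Fin m => H) y
      rw [hy] at this
      simpa using this.symm
    · intro i
      have h1 := congrArg (fun w : PiLp 2 (fun _ : Fin m => H) => w i) hTx
      simpa [matOp_apply] using h1
    · intro u
      have h1 := hTy (WithLp.toLp 2 u)
      simp only [PiLp.inner_apply, matOp_apply] at h1
      exact h1
  calc ‖matOp A B v‖ ≤ s * ‖v‖ := hb v
    _ ≤ 2 * ‖v‖ := by gcongr

/-- Crouzeix for a curve: if the numerical range of `A` is inside `C` and the matrix polynomial is bounded by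
`M` on the curve, then `‖P[A]‖ ≤ 2M`. -/
theorem crouzeix_of_curve (A : H →L[ℂ] H) (C : SCurve) (hA : InsideCurve A C) (u₀ : H) (hu₀ : ‖u₀‖ = 1)
    {m N : ℕ} (B : Fin N → Matrix (Fin m) (Fin m) ℂ) (M : ℝ)
    (hV : ∀ β, ‖Matrix.toEuclideanCLM (n := Fin m) (𝕜 := ℂ) (∑ k : Fin N, C.σ β ^ (k : ℕ) • B k)‖ ≤ M)
    (v : PiLp 2 (fun _ : Fin m => H)) :
    ‖(WithLp.toLp 2 (fun i : Fin m => ∑ j : Fin m, ∑ k : Fin N, B k i j • (A ^ (k : ℕ)) (v j))
        : PiLp 2 (fun _ : Fin m => H))‖ ≤ 2 * M * ‖v‖ := by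
  rw [← matOp_apply]
  have hM : 0 ≤ M := (norm_nonneg _).trans (hV 0)
  -- the bound for every positive `M' ≥ M`
  have key : ∀ M' : ℝ, 0 < M' → M ≤ M' → ‖matOp A B v‖ ≤ 2 * M' * ‖v‖ := by
    intro M' hM' hMM'
    have hc : (M' : ℂ) ≠ 0 := by exact_mod_cast hM'.ne'
    let B' : Fin N → Matrix (Fin m) (Fin m) ℂ := fun k => (M' : ℂ)⁻¹ • B k
    have hV' : ∀ β, ‖Matrix.toEuclideanCLM (n := Fin m) (𝕜 := ℂ) (∑ k : Fin N, C.σ β ^ (k : ℕ) • B' k)‖ ≤ 1 := by
      intro β
      have h1 : (∑ k : Fin N, C.σ β ^ (k : ℕ) • B' k) = (M' : ℂ)⁻¹ • ∑ k : Fin N, C.σ β ^ (k : ℕ) • B k := by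
        rw [Finset.smul_sum]
        refine Finset.sum_congr rfl fun k _ => ?_
        simp only [B']
        rw [smul_comm]
      rw [h1, map_smul, norm_smul, norm_inv, Complex.norm_real, Real.norm_eq_abs, abs_of_pos hM',
        inv_mul_le_iff₀ hM', mul_one]
      exact (hV β).trans hMM'
    have h2 := crouzeix_of_curve_aux A C hA u₀ hu₀ B' hV' v
    have h3 : matOp A B' v = (M' : ℂ)⁻¹ • matOp A B v := by
      ext i
      simp only [matOp_apply, PiLp.smul_apply, Finset.smul_sum, B', Matrix.smul_apply, smul_assoc]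
    rw [h3, norm_smul, norm_inv, Complex.norm_real, Real.norm_eq_abs, abs_of_pos hM',
      inv_mul_le_iff₀ hM'] at h2
    linarith
  rcases hM.lt_or_eq with hpos | hzero
  · exact key M hpos le_rfl
  · subst hzero
    by_contra hcon
    push Not at hcon
    simp only [mul_zero, zero_mul] at hcon
    have hvpos : 0 < ‖v‖ := by
      have h1 := key 1 one_pos zero_le_one
      by_contra hv
      have hv0 : ‖v‖ = 0 := le_antisymm (not_lt.mp hv) (norm_nonneg _)
      rw [hv0, mul_zero] at h1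
      linarith
    have h2 := key (‖matOp A B v‖ / (4 * ‖v‖)) (by positivity) (by positivity)
    have h3 : 2 * (‖matOp A B v‖ / (4 * ‖v‖)) * ‖v‖ = ‖matOp A B v‖ / 2 := by
      field_simp
      ring
    rw [h3] at h2
    linarith

end Crest.Agent.Crouzeix
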