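import Mathlib

set_option autoImplicit false
open scoped ComplexConjugate InnerProductSpace

namespace Crest.Agent.Crouzeix

variable {H : Type*} [NormedAddCommGroup H] [InnerProductSpace ℂ H]

/-- The numerical range of `A` (with Mathlib's inner product convention). -/
def numRangeSet (A : H →L[ℂ] H) : Set ℂ := {z | ∃ x : H, ‖x‖ = 1 ∧ z = inner ℂ x (A x)}

/-- Existence of a unimodular phase killing a prescribed imaginary part. -/
private lemma exists_phase (p q : ℂ) :
    ∃ u : ℂ, ‖u‖ = 1 ∧ (conj u * p + u * q).im = 0 := by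
  set α : ℝ := p.im + q.im
  set β : ℝ := q.re - p.re
  by_cases h : α = 0 ∧ β = 0
  · refine ⟨1, by simp, ?_⟩
    obtain ⟨h1, h2⟩ := h
    simp only [map_one, one_mul, Complex.add_im]
    simpa [α] using h1
  · have hn : 0 < α ^ 2 + β ^ 2 := by
      by_contra hc
      have hc' : α ^ 2 + β ^ 2 ≤ 0 := not_lt.mp hc
      apply h
      constructor <;> nlinarith [sq_nonneg α, sq_nonneg β]
    set r : ℝ := Real.sqrt (α ^ 2 + β ^ 2)
    have hr : 0 < r := Real.sqrt_pos.mpr hn
    have hr2 : r ^ 2 = α ^ 2 + β ^ 2 := Real.sq_sqrt hn.le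
    refine ⟨⟨-β / r, α / r⟩, ?_, ?_⟩
    · rw [Complex.norm_eq_sqrt_sq_add_sq]
      simp only
      rw [Real.sqrt_eq_one]
      field_simp
      nlinarith
    · simp only [Complex.add_im, Complex.mul_im, Complex.conj_re, Complex.conj_im]
      field_simp
      simp only [α, β]
      ring

/-- Toeplitz–Hausdorff: the numerical range is convex. -/
theorem convex_numRangeSet (A : H →L[ℂ] H) : Convex ℝ (numRangeSet A) := by
  rintro a ⟨x, hx, rfl⟩ b ⟨y, hy, rfl⟩ α β hα hβ hαβ
  set a : ℂ := inner ℂ x (A x) with ha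
  set b : ℂ := inner ℂ y (A y) with hb
  by_cases hab : a = b
  · refine ⟨x, hx, ?_⟩
    rw [← hab, ← add_smul, hαβ, one_smul]
  -- the operator `A' = A - a`
  set B : H → H := fun v => A v - (a : ℂ) • v with hB
  have hBadd : ∀ v w, B (v + w) = B v + B w := by
    intro v w; simp only [hB, map_add, smul_add]; abel
  have hBsmul : ∀ (c : ℂ) v, B (c • v) = c • B v := by
    intro c v; simp only [hB, map_smul, smul_sub, smul_smul, mul_comm]
  have hx2 : inner ℂ x x = (1 : ℂ) := by
    rw [inner_self_eq_norm_sq_to_K, hx]; simp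
  have hy2 : inner ℂ y y = (1 : ℂ) := by
    rw [inner_self_eq_norm_sq_to_K, hy]; simp
  have hBx : inner ℂ x (B x) = 0 := by
    simp only [hB, inner_sub_right, inner_smul_right, hx2, ha]; ring
  have hBy : inner ℂ y (B y) = b - a := by
    simp only [hB, inner_sub_right, inner_smul_right, hy2, hb]; ring
  have hba : b - a ≠ 0 := sub_ne_zero.mpr (Ne.symm hab)
  obtain ⟨u, hu, him⟩ := exists_phase (inner ℂ x (B y) / (b - a)) (inner ℂ y (B x) / (b - a))
  have huu : conj u * u = 1 := by
    rw [← Complex.normSq_eq_conj_mul_self, Complex.normSq_eq_norm_sq, hu]; simp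
  set x' : H := u • x with hx'
  -- cross term
  set r : ℝ := (conj u * (inner ℂ x (B y) / (b - a)) + u * (inner ℂ y (B x) / (b - a))).re with hr
  have hcross : inner ℂ x' (B y) + inner ℂ y (B x') = (r : ℂ) * (b - a) := by
    have : conj u * (inner ℂ x (B y) / (b - a)) + u * (inner ℂ y (B x) / (b - a)) = (r : ℂ) := by
      apply Complex.ext <;> simp [hr, him]
    rw [← this, hx', hBsmul, inner_smul_left, inner_smul_right]
    field_simp
  have hx'x' : inner ℂ x' (B x') = 0 := by
    rw [hx', hBsmul, inner_smul_left, inner_smul_right, hBx]; ring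
  have hx'n : ‖x'‖ = 1 := by rw [hx', norm_smul, hu, hx, one_mul]
  -- the path
  set w : ℝ → H := fun s => ((1 - s : ℝ) : ℂ) • x' + ((s : ℝ) : ℂ) • y with hw
  have hwne : ∀ s ∈ Set.Icc (0 : ℝ) 1, w s ≠ 0 := by
    intro s hs h0
    rcases eq_or_lt_of_le hs.1 with h | hs0
    · subst h
      simp only [hw, Complex.ofReal_zero, zero_smul, sub_zero, Complex.ofReal_one, one_smul,
        add_zero] at h0
      rw [h0, norm_zero] at hx'n
      exact zero_ne_one hx'n
    have hsC : ((s : ℝ) : ℂ) ≠ 0 := by exact_mod_cast hs0.ne'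
    -- y is a scalar multiple of x'
    have hy' : y = (-(((1 - s : ℝ) : ℂ) / (s : ℂ))) • x' := by
      have := h0
      simp only [hw] at this
      have h2 : ((s : ℝ) : ℂ) • y = (-((1 - s : ℝ) : ℂ)) • x' := by
        rw [neg_smul]; exact eq_neg_of_add_eq_zero_right this
      calc y = ((s : ℝ) : ℂ)⁻¹ • (((s : ℝ) : ℂ) • y) := by
            rw [smul_smul, inv_mul_cancel₀ hsC, one_smul]
        _ = _ := by rw [h2, smul_smul]; congr 1; field_simp
    set c : ℂ := -(((1 - s : ℝ) : ℂ) / (s : ℂ)) with hc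
    have hcn : ‖c‖ = 1 := by
      have := hy
      rw [hy', norm_smul, hx'n, mul_one] at this
      exact this
    have : inner ℂ y (B y) = 0 := by
      rw [hy', hBsmul, inner_smul_left, inner_smul_right, hx'x']; ring
    rw [hBy] at this
    exact hba this
  set τ : ℝ → ℝ := fun s => (s ^ 2 + (1 - s) * s * r) / ‖w s‖ ^ 2 with hτ
  have hwcont : Continuous w := by
    simp only [hw]; fun_prop
  have hτcont : ContinuousOn τ (Set.Icc 0 1) := by
    apply ContinuousOn.div
    · fun_prop
    · exact (hwcont.norm.pow 2).continuousOn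
    · intro s hs
      exact pow_ne_zero _ (norm_ne_zero_iff.mpr (hwne s hs))
  have hτ0 : τ 0 = 0 := by simp [hτ]
  have hτ1 : τ 1 = 1 := by
    simp only [hτ, hw]
    simp [hy]
  have hβ01 : β ∈ Set.Icc (0 : ℝ) 1 := ⟨hβ, by linarith⟩
  obtain ⟨s, hs, hsβ⟩ : β ∈ τ '' Set.Icc (0 : ℝ) 1 := by
    have := intermediate_value_Icc (a := (0 : ℝ)) (b := 1) zero_le_one hτcont
    apply this
    rw [hτ0, hτ1]; exact hβ01
  -- formula for `⟨w, B w⟩`
  have hwB : inner ℂ (w s) (B (w s)) = ((s ^ 2 + (1 - s) * s * r : ℝ) : ℂ) * (b - a) := by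
    simp only [hw]
    rw [hBadd, hBsmul ((1 - s : ℝ) : ℂ) x', hBsmul ((s : ℝ) : ℂ) y]
    simp only [inner_add_left, inner_add_right, inner_smul_left, inner_smul_right, hx'x', hBy,
      Complex.conj_ofReal]
    have h3 : ((1 - s : ℝ) : ℂ) * ((s : ℝ) : ℂ) * (inner ℂ x' (B y) + inner ℂ y (B x'))
        = ((1 - s : ℝ) : ℂ) * ((s : ℝ) : ℂ) * ((r : ℂ) * (b - a)) := by rw [hcross]
    push_cast at h3 ⊢
    linear_combination h3
  have hwn : ‖w s‖ ≠ 0 := norm_ne_zero_iff.mpr (hwne s hs)
  refine ⟨((‖w s‖ : ℝ) : ℂ)⁻¹ • w s, ?_, ?_⟩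
  · rw [norm_smul, norm_inv, Complex.norm_real, norm_norm]
    exact inv_mul_cancel₀ hwn
  · have hnC : ((‖w s‖ : ℝ) : ℂ) ≠ 0 := by exact_mod_cast hwn
    have hww : inner ℂ (w s) (w s) = ((‖w s‖ : ℝ) : ℂ) ^ 2 := by
      rw [inner_self_eq_norm_sq_to_K]; rfl
    have hA : inner ℂ (w s) (A (w s)) = inner ℂ (w s) (B (w s)) + a * inner ℂ (w s) (w s) := by
      simp only [hB, inner_sub_right, inner_smul_right]; ring
    rw [map_smul, inner_smul_left, inner_smul_right, hA, hwB, hww]
    have hα' : α = 1 - β := by linarith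
    rw [← hsβ] at hα'
    rw [Complex.real_smul, Complex.real_smul, hα', ← hsβ]
    simp only [hτ, map_inv₀, Complex.conj_ofReal]
    push_cast
    field_simp
    ring

end Crest.Agent.Crouzeix
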