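/-
WP: compactness of the numerical range and compression to a finite dimensional (Krylov) subspace.
Convexity is in `ToeplitzHausdorff.lean`.
-/
import Crest.Agent.Crouzeix.ToeplitzHausdorff

set_option autoImplicit false

open Complex MeasureTheory Set Filter Topology
open scoped Real ComplexConjugate InnerProductSpace

noncomputable section

namespace Crest.Agent.Crouzeix

variable {H : Type*} [NormedAddCommGroup H] [InnerProductSpace ℂ H]

theorem isCompact_numRangeSet [FiniteDimensional ℂ H] (A : H →L[ℂ] H) :
    IsCompact (numRangeSet A) := by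
  have : ProperSpace H := FiniteDimensional.proper_rclike ℂ H
  have hs : IsCompact (Metric.sphere (0 : H) 1) := isCompact_sphere 0 1
  have himg : numRangeSet A = (fun x : H => (inner ℂ x (A x) : ℂ)) '' Metric.sphere (0 : H) 1 := by
    ext z
    constructor
    · rintro ⟨x, hx, rfl⟩
      exact ⟨x, by simpa using hx, rfl⟩
    · rintro ⟨x, hx, rfl⟩
      exact ⟨x, by simpa using hx, rfl⟩
  rw [himg]
  apply hs.image
  have : Continuous fun x : H => (inner ℂ x (A x) : ℂ) := by fun_prop
  exact this

/-- Compression to a finite dimensional subspace containing the Krylov vectors: given finitely many vectors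
`v j`, and `d`, there is a finite dimensional space `F` (a submodule of `H`, with the inherited structure), with an
operator `A'` on `F`, `numRangeSet A' ⊆ numRangeSet A`, and vectors `v' j : F` with `(v' j : H) = v j`,
`((A' ^ k) (v' j) : H) = (A ^ k) (v j)` for `k ≤ d`. Take `F = span {A^i v_j : i ≤ d}`, `A' = P_F A |_F`. -/
theorem exists_compression [CompleteSpace H] (A : H →L[ℂ] H) {m : ℕ} (d : ℕ) (v : Fin m → H) :
    ∃ (F : Submodule ℂ H) (_ : FiniteDimensional ℂ F) (A' : F →L[ℂ] F) (v' : Fin m → F),
      numRangeSet A' ⊆ numRangeSet A ∧ (∀ j, (v' j : H) = v j) ∧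
      ∀ j, ∀ k ≤ d, (((A' ^ k) (v' j) : F) : H) = (A ^ k) (v j) := by
  classical
  let gens : Set H := (fun p : Fin (d + 1) × Fin m => (A ^ (p.1 : ℕ)) (v p.2)) '' Set.univ
  have hfin : gens.Finite := (Set.finite_univ).image _
  let F : Submodule ℂ H := Submodule.span ℂ gens
  have hF : FiniteDimensional ℂ F := FiniteDimensional.span_of_finite ℂ hfin
  have hmem : ∀ j, ∀ k ≤ d, (A ^ k) (v j) ∈ F := by
    intro j k hk
    apply Submodule.subset_span
    exact ⟨(⟨k, Nat.lt_succ_of_le hk⟩, j), Set.mem_univ _, rfl⟩
  have : F.HasOrthogonalProjection := Submodule.HasOrthogonalProjection.ofCompleteSpace F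
  let P : H →L[ℂ] F := F.orthogonalProjectionOnto
  let A' : F →L[ℂ] F := P ∘L A ∘L F.subtypeL
  have hP : ∀ w : F, ((P (w : H) : F)) = w := fun w => Submodule.orthogonalProjectionOnto_mem_subspace_eq_self w
  let v' : Fin m → F := fun j => ⟨v j, by simpa using hmem j 0 (Nat.zero_le d)⟩
  refine ⟨F, hF, A', v', ?_, fun j => rfl, ?_⟩
  · rintro z ⟨u, hu, rfl⟩
    refine ⟨(u : H), by simpa using hu, ?_⟩
    show (inner ℂ u (P (A (u : H))) : ℂ) = _
    exact Submodule.inner_orthogonalProjectionOnto_eq_of_mem_left u (A (u : H))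
  · intro j k
    induction k with
    | zero =>
      intro _
      simp [v']
    | succ k ih =>
      intro hk
      have h1 := ih (by omega)
      have h2 := hmem j (k + 1) hk
      rw [pow_succ']
      show ((P (A (((A' ^ k) (v' j) : F) : H)) : F) : H) = _
      rw [h1]
      have h3 : A ((A ^ k) (v j)) = (A ^ (k + 1)) (v j) := by
        rw [pow_succ']; rfl
      rw [h3]
      have := hP ⟨_, h2⟩
      exact congrArg (fun w : F => (w : H)) this

end Crest.Agent.Crouzeix
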