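import Mathlib

set_option autoImplicit false
set_option linter.unusedSectionVars false

open scoped ComplexOrder Matrix ComplexConjugate
open Polynomial

namespace Crest.Agent.Crouzeix.OpCore

/-- Frobenius square norm. -/
noncomputable def frobSq {a b : Type*} [Fintype a] [Fintype b] (x : Matrix a b ℂ) : ℝ :=
  ∑ i, ∑ j, ‖x i j‖ ^ 2

/-- Frobenius inner product. -/
noncomputable def fip {a b : Type*} [Fintype a] [Fintype b] (x y : Matrix a b ℂ) : ℂ :=
  ∑ i, ∑ j, star (x i j) * y i j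

lemma frobSq_nonneg {a b : Type*} [Fintype a] [Fintype b] (x : Matrix a b ℂ) : 0 ≤ frobSq x :=
  Finset.sum_nonneg fun _ _ => Finset.sum_nonneg fun _ _ => sq_nonneg _

lemma star_mul_self_eq {z : ℂ} : star z * z = ((‖z‖ ^ 2 : ℝ) : ℂ) := by
  rw [Complex.star_def, ← Complex.normSq_eq_conj_mul_self, Complex.normSq_eq_norm_sq]

lemma star_mul_self_eq' {z : ℂ} : star z * z = (‖z‖ : ℂ) ^ 2 := by
  rw [star_mul_self_eq]; push_cast; rfl

lemma fip_self {a b : Type*} [Fintype a] [Fintype b] (x : Matrix a b ℂ) :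
    fip x x = (frobSq x : ℂ) := by
  simp only [fip, frobSq, star_mul_self_eq]
  push_cast
  rfl

variable {Ω : Type*} [TopologicalSpace Ω]

/-- The real part as a continuous complex function. -/
noncomputable def reF (f : C(Ω, ℂ)) : C(Ω, ℂ) :=
  ⟨fun ω => ((f ω).re : ℂ), by fun_prop⟩

/-- The imaginary part as a continuous complex function. -/
noncomputable def imF (f : C(Ω, ℂ)) : C(Ω, ℂ) :=
  ⟨fun ω => ((f ω).im : ℂ), by fun_prop⟩

@[simp] lemma reF_apply (f : C(Ω, ℂ)) (ω : Ω) : reF f ω = ((f ω).re : ℂ) := rfl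
@[simp] lemma imF_apply (f : C(Ω, ℂ)) (ω : Ω) : imF f ω = ((f ω).im : ℂ) := rfl

lemma re_add_im_F (f : C(Ω, ℂ)) : f = reF f + (Complex.I • imF f) := by
  ext ω
  simp only [ContinuousMap.add_apply, ContinuousMap.smul_apply, reF_apply, imF_apply, smul_eq_mul]
  rw [mul_comm, Complex.re_add_im]

lemma star_F (f : C(Ω, ℂ)) : star f = reF f - (Complex.I • imF f) := by
  ext ω
  apply Complex.ext <;> simp

/-- Positive linear functionals on continuous functions. -/
structure PosFun (Ω : Type*) [TopologicalSpace Ω] where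
  m : C(Ω, ℂ) →ₗ[ℂ] ℂ
  nonneg : ∀ f : C(Ω, ℂ), (∀ ω, 0 ≤ f ω) → 0 ≤ m f

namespace PosFun

variable (μ : PosFun Ω)

lemma im_eq_zero_of_real (f : C(Ω, ℂ)) (hf : ∀ ω, (f ω).im = 0) : (μ.m f).im = 0 := by
  -- decompose into positive and negative parts
  let g : C(Ω, ℂ) := ⟨fun ω => ((max (f ω).re 0 : ℝ) : ℂ), by fun_prop⟩
  let h : C(Ω, ℂ) := ⟨fun ω => ((max (-(f ω).re) 0 : ℝ) : ℂ), by fun_prop⟩
  have hfgh : f = g - h := by
    ext ω
    apply Complex.ext
    · simp only [ContinuousMap.sub_apply, Complex.sub_re, g, h, ContinuousMap.coe_mk,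
        Complex.ofReal_re]
      rcases le_total 0 (f ω).re with h0 | h0
      · rw [max_eq_left h0, max_eq_right (by linarith)]; ring
      · rw [max_eq_right h0, max_eq_left (by linarith)]; ring
    · simp [g, h, hf]
  have hg : 0 ≤ μ.m g := μ.nonneg g fun ω => by
    simp only [g, ContinuousMap.coe_mk]
    exact_mod_cast le_max_right _ _
  have hh : 0 ≤ μ.m h := μ.nonneg h fun ω => by
    simp only [h, ContinuousMap.coe_mk]
    exact_mod_cast le_max_right _ _
  rw [hfgh, map_sub, Complex.sub_im, ← (Complex.nonneg_iff.mp hg).2, ← (Complex.nonneg_iff.mp hh).2]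
  ring

lemma m_star (f : C(Ω, ℂ)) : μ.m (star f) = star (μ.m f) := by
  have h1 := μ.im_eq_zero_of_real (reF f) (by simp)
  have h2 := μ.im_eq_zero_of_real (imF f) (by simp)
  conv_rhs => rw [re_add_im_F f]
  rw [star_F, map_sub, map_add, map_smul]
  apply Complex.ext <;> simp [h1, h2]

lemma re_mono (f g : C(Ω, ℂ)) (hf : ∀ ω, (f ω).im = 0) (hg : ∀ ω, (g ω).im = 0)
    (hfg : ∀ ω, (f ω).re ≤ (g ω).re) : (μ.m f).re ≤ (μ.m g).re := by
  have : 0 ≤ μ.m (g - f) := μ.nonneg _ fun ω => by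
    rw [Complex.nonneg_iff]
    simp only [ContinuousMap.sub_apply, Complex.sub_re, Complex.sub_im, hf, hg]
    exact ⟨by linarith [hfg ω], by simp⟩
  rw [map_sub] at this
  have := (Complex.nonneg_iff.mp this).1
  simp only [Complex.sub_re] at this
  linarith

lemma re_nonneg (f : C(Ω, ℂ)) (hf : ∀ ω, (f ω).im = 0) (hfp : ∀ ω, 0 ≤ (f ω).re) :
    0 ≤ (μ.m f).re := by
  have : 0 ≤ μ.m f := μ.nonneg _ fun ω => by
    rw [Complex.nonneg_iff]
    exact ⟨hfp ω, (hf ω).symm⟩
  exact (Complex.nonneg_iff.mp this).1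


end PosFun

section Forms

variable {L : Type*} [Fintype L] [DecidableEq L]

/-- Pointwise evaluation of a matrix of continuous functions. -/
noncomputable def evM {a b : Type*} (ω : Ω) (Z : Matrix a b C(Ω, ℂ)) : Matrix a b ℂ := Z.map fun f => f ω

@[simp] lemma evM_apply {a b : Type*} (ω : Ω) (Z : Matrix a b C(Ω, ℂ)) (i : a) (j : b) :
    evM ω Z i j = Z i j ω := rfl

lemma evM_mul {a b c : Type*} [Fintype b] (ω : Ω) (Z : Matrix a b C(Ω, ℂ))
    (W : Matrix b c C(Ω, ℂ)) : evM ω (Z * W) = evM ω Z * evM ω W := by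
  ext i j
  simp [Matrix.mul_apply, ContinuousMap.sum_apply]

lemma evM_add {a b : Type*} (ω : Ω) (Z W : Matrix a b C(Ω, ℂ)) :
    evM ω (Z + W) = evM ω Z + evM ω W := by
  ext i j; simp

lemma evM_conjTranspose {a b : Type*} (ω : Ω) (Z : Matrix a b C(Ω, ℂ)) :
    evM ω Zᴴ = (evM ω Z)ᴴ := by
  ext i j; simp [Matrix.conjTranspose_apply]

lemma trace_apply (ω : Ω) (Z : Matrix L L C(Ω, ℂ)) :
    (Matrix.trace Z) ω = Matrix.trace (evM ω Z) := by
  simp [Matrix.trace, ContinuousMap.sum_apply]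

lemma trace_conjTranspose_mul_self (z : Matrix L L ℂ) :
    Matrix.trace (zᴴ * z) = (frobSq z : ℂ) := by
  simp only [Matrix.trace, Matrix.diag, Matrix.mul_apply, Matrix.conjTranspose_apply, frobSq,
    star_mul_self_eq]
  push_cast
  exact Finset.sum_comm

lemma trace_self_apply (Z : Matrix L L C(Ω, ℂ)) (ω : Ω) :
    (Matrix.trace (Zᴴ * Z)) ω = (frobSq (evM ω Z) : ℂ) := by
  rw [trace_apply, evM_mul, evM_conjTranspose, trace_conjTranspose_mul_self]

namespace PosFun

variable (μ : PosFun Ω)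

/-- The sesquilinear form `m tr (Zᴴ W)`. -/
noncomputable def tf (Z W : Matrix L L C(Ω, ℂ)) : ℂ := μ.m (Matrix.trace (Zᴴ * W))

/-- Its real part. -/
noncomputable def rb (Z W : Matrix L L C(Ω, ℂ)) : ℝ := (μ.tf Z W).re

/-- The quadratic form. -/
noncomputable def qf (Z : Matrix L L C(Ω, ℂ)) : ℝ := μ.rb Z Z

lemma qf_nonneg (Z : Matrix L L C(Ω, ℂ)) : 0 ≤ μ.qf Z := by
  apply μ.re_nonneg
  · intro ω; rw [trace_self_apply]; simp
  · intro ω; rw [trace_self_apply]; simpa using frobSq_nonneg _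

lemma tf_im_self (Z : Matrix L L C(Ω, ℂ)) : (μ.tf Z Z).im = 0 := by
  apply μ.im_eq_zero_of_real
  intro ω; rw [trace_self_apply]; simp

lemma tf_swap (Z W : Matrix L L C(Ω, ℂ)) : μ.tf W Z = star (μ.tf Z W) := by
  unfold tf
  rw [← μ.m_star, ← Matrix.trace_conjTranspose, Matrix.conjTranspose_mul, Matrix.conjTranspose_conjTranspose]

lemma rb_comm (Z W : Matrix L L C(Ω, ℂ)) : μ.rb W Z = μ.rb Z W := by
  unfold rb; rw [tf_swap]; simp

lemma tf_add_right (Z W W' : Matrix L L C(Ω, ℂ)) : μ.tf Z (W + W') = μ.tf Z W + μ.tf Z W' := by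
  unfold tf; rw [Matrix.mul_add, Matrix.trace_add, map_add]

lemma tf_smul_right (c : ℂ) (Z W : Matrix L L C(Ω, ℂ)) : μ.tf Z (c • W) = c * μ.tf Z W := by
  unfold tf
  have h : Zᴴ * c • W = c • (Zᴴ * W) := by
    ext i j ω
    simp [Matrix.mul_apply, Finset.mul_sum, ContinuousMap.sum_apply, mul_left_comm]
  rw [h, Matrix.trace_smul, map_smul, smul_eq_mul]

lemma rb_add_right (Z W W' : Matrix L L C(Ω, ℂ)) : μ.rb Z (W + W') = μ.rb Z W + μ.rb Z W' := by
  unfold rb; rw [tf_add_right, Complex.add_re]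

lemma rb_add_left (Z Z' W : Matrix L L C(Ω, ℂ)) : μ.rb (Z + Z') W = μ.rb Z W + μ.rb Z' W := by
  rw [rb_comm, rb_add_right, rb_comm μ W Z, rb_comm μ W Z']

lemma rb_smul_right (t : ℝ) (Z W : Matrix L L C(Ω, ℂ)) :
    μ.rb Z ((t : ℂ) • W) = t * μ.rb Z W := by
  unfold rb; rw [tf_smul_right, Complex.re_ofReal_mul]

lemma rb_smul_left (t : ℝ) (Z W : Matrix L L C(Ω, ℂ)) :
    μ.rb ((t : ℂ) • Z) W = t * μ.rb Z W := by
  rw [rb_comm, rb_smul_right, rb_comm]

lemma qf_add (Z W : Matrix L L C(Ω, ℂ)) : μ.qf (Z + W) = μ.qf Z + 2 * μ.rb Z W + μ.qf W := by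
  unfold qf
  rw [rb_add_left, rb_add_right, rb_add_right, rb_comm μ W Z]
  ring

lemma qf_smul (t : ℝ) (W : Matrix L L C(Ω, ℂ)) : μ.qf ((t : ℂ) • W) = t ^ 2 * μ.qf W := by
  unfold qf
  rw [rb_smul_left, rb_smul_right]
  ring

/-- Cauchy–Schwarz. -/
lemma rb_sq_le (Z W : Matrix L L C(Ω, ℂ)) : μ.rb Z W ^ 2 ≤ μ.qf Z * μ.qf W := by
  have h : ∀ t : ℝ, 0 ≤ μ.qf W * (t * t) + (2 * μ.rb Z W) * t + μ.qf Z := by
    intro t
    have := μ.qf_nonneg (Z + (t : ℂ) • W)
    rw [qf_add, rb_smul_right, qf_smul] at this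
    nlinarith
  have := discrim_le_zero h
  rw [discrim] at this
  nlinarith

lemma rb_le_sqrt (Z W : Matrix L L C(Ω, ℂ)) :
    μ.rb Z W ≤ Real.sqrt (μ.qf Z) * Real.sqrt (μ.qf W) := by
  rw [← Real.sqrt_mul (μ.qf_nonneg Z)]
  exact Real.le_sqrt_of_sq_le (μ.rb_sq_le Z W)

lemma sqrt_qf_add_le (Z W : Matrix L L C(Ω, ℂ)) :
    Real.sqrt (μ.qf (Z + W)) ≤ Real.sqrt (μ.qf Z) + Real.sqrt (μ.qf W) := by
  have hZ := Real.sqrt_nonneg (μ.qf Z)
  have hW := Real.sqrt_nonneg (μ.qf W)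
  apply Real.sqrt_le_iff.mpr ⟨by positivity, ?_⟩
  rw [qf_add]
  have := μ.rb_le_sqrt Z W
  have h1 := Real.sq_sqrt (μ.qf_nonneg Z)
  have h2 := Real.sq_sqrt (μ.qf_nonneg W)
  nlinarith

/-- Pointwise comparison passes to the quadratic forms. -/
lemma qf_le_of_pointwise (c : ℝ) (Z W : Matrix L L C(Ω, ℂ))
    (h : ∀ ω, frobSq (evM ω Z) ≤ c * frobSq (evM ω W)) : μ.qf Z ≤ c * μ.qf W := by
  have : (μ.m (Matrix.trace (Zᴴ * Z))).re ≤ (μ.m ((c : ℂ) • Matrix.trace (Wᴴ * W))).re := by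
    apply μ.re_mono
    · intro ω; rw [trace_self_apply]; simp
    · intro ω; simp only [ContinuousMap.smul_apply, trace_self_apply]; simp
    · intro ω
      simp only [ContinuousMap.smul_apply, trace_self_apply, smul_eq_mul, Complex.ofReal_re]
      rw [← Complex.ofReal_mul, Complex.ofReal_re]
      exact h ω
  rw [map_smul, smul_eq_mul, Complex.re_ofReal_mul] at this
  exact this

lemma qf_le_of_pointwise₂ (c : ℝ) (Z W W' : Matrix L L C(Ω, ℂ))
    (h : ∀ ω, frobSq (evM ω Z) ≤ c * (frobSq (evM ω W) + frobSq (evM ω W'))) :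
    μ.qf Z ≤ c * (μ.qf W + μ.qf W') := by
  have : (μ.m (Matrix.trace (Zᴴ * Z))).re ≤
      (μ.m ((c : ℂ) • (Matrix.trace (Wᴴ * W) + Matrix.trace (W'ᴴ * W')))).re := by
    apply μ.re_mono
    · intro ω; rw [trace_self_apply]; simp
    · intro ω
      simp only [ContinuousMap.smul_apply, ContinuousMap.add_apply, trace_self_apply]; simp
    · intro ω
      simp only [ContinuousMap.smul_apply, ContinuousMap.add_apply, trace_self_apply, smul_eq_mul,
        Complex.ofReal_re]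
      rw [← Complex.ofReal_add, ← Complex.ofReal_mul, Complex.ofReal_re]
      exact h ω
  rw [map_smul, smul_eq_mul, Complex.re_ofReal_mul, map_add, Complex.add_re] at this
  exact this

lemma qf_conjTranspose (Z : Matrix L L C(Ω, ℂ)) : μ.qf Zᴴ = μ.qf Z := by
  unfold qf rb tf
  rw [Matrix.conjTranspose_conjTranspose, Matrix.trace_mul_comm]

end PosFun


end Forms

section Pointwise

variable {N L : Type*} [Fintype N] [DecidableEq N] [Fintype L] [DecidableEq L]

lemma trace_conjT_mul_self' {a b : Type*} [Fintype a] [Fintype b] [DecidableEq b]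
    (z : Matrix a b ℂ) : Matrix.trace (zᴴ * z) = (frobSq z : ℂ) := by
  simp only [Matrix.trace, Matrix.diag, Matrix.mul_apply, Matrix.conjTranspose_apply, frobSq,
    star_mul_self_eq]
  push_cast
  exact Finset.sum_comm

/-- The pointwise inequality in factored form. -/
lemma frobSq_factored_le (X Y : Matrix N L ℂ) :
    frobSq (Yᴴ * X) ≤ (1 / 2 : ℝ) * (frobSq (Xᴴ * X) + frobSq (Yᴴ * Y)) := by
  obtain ⟨P, hP⟩ : ∃ P, P = X * Xᴴ := ⟨_, rfl⟩
  obtain ⟨S, hS⟩ : ∃ S, S = Y * Yᴴ := ⟨_, rfl⟩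
  have hPh : Pᴴ = P := by rw [hP, Matrix.conjTranspose_mul, Matrix.conjTranspose_conjTranspose]
  have hSh : Sᴴ = S := by rw [hS, Matrix.conjTranspose_mul, Matrix.conjTranspose_conjTranspose]
  have t1 : (frobSq (Xᴴ * X) : ℂ) = Matrix.trace (P * P) := by
    rw [← trace_conjT_mul_self', Matrix.conjTranspose_mul, Matrix.conjTranspose_conjTranspose, hP]
    have : Xᴴ * X * (Xᴴ * X) = (Xᴴ * (X * Xᴴ)) * X := by simp only [Matrix.mul_assoc]
    rw [this, Matrix.trace_mul_comm]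
    simp only [Matrix.mul_assoc]
  have t2 : (frobSq (Yᴴ * Y) : ℂ) = Matrix.trace (S * S) := by
    rw [← trace_conjT_mul_self', Matrix.conjTranspose_mul, Matrix.conjTranspose_conjTranspose, hS]
    have : Yᴴ * Y * (Yᴴ * Y) = (Yᴴ * (Y * Yᴴ)) * Y := by simp only [Matrix.mul_assoc]
    rw [this, Matrix.trace_mul_comm]
    simp only [Matrix.mul_assoc]
  have t3 : (frobSq (Yᴴ * X) : ℂ) = Matrix.trace (P * S) := by
    rw [← trace_conjT_mul_self', Matrix.conjTranspose_mul, Matrix.conjTranspose_conjTranspose, hP, hS]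
    have : Xᴴ * Y * (Yᴴ * X) = Xᴴ * (Y * Yᴴ * X) := by simp only [Matrix.mul_assoc]
    rw [this, Matrix.trace_mul_comm]
    have : Y * Yᴴ * X * Xᴴ = (Y * Yᴴ) * (X * Xᴴ) := by simp only [Matrix.mul_assoc]
    rw [this, Matrix.trace_mul_comm]
  have t4 : (frobSq (P - S) : ℂ) = Matrix.trace (P * P) - 2 * Matrix.trace (P * S)
      + Matrix.trace (S * S) := by
    rw [← trace_conjT_mul_self', Matrix.conjTranspose_sub, hPh, hSh, Matrix.sub_mul, Matrix.mul_sub,
      Matrix.mul_sub, Matrix.trace_sub, Matrix.trace_sub, Matrix.trace_sub,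
      Matrix.trace_mul_comm S P]
    ring
  rw [← t1, ← t2, ← t3] at t4
  have t5 : frobSq (P - S) = frobSq (Xᴴ * X) - 2 * frobSq (Yᴴ * X) + frobSq (Yᴴ * Y) := by
    exact_mod_cast t4
  have := frobSq_nonneg (P - S)
  linarith

open scoped MatrixOrder in
lemma psd_factor (Mω : Matrix N N ℂ) (hM : Mω.PosSemidef) : ∃ B : Matrix N N ℂ, Mω = Bᴴ * B := by
  have h0 : 0 ≤ Mω := Matrix.nonneg_iff_posSemidef.mpr hM
  refine ⟨CFC.sqrt Mω, ?_⟩
  have hh : (CFC.sqrt Mω)ᴴ = CFC.sqrt Mω :=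
    (Matrix.nonneg_iff_posSemidef.mp (CFC.sqrt_nonneg Mω)).1
  rw [hh, CFC.sqrt_mul_sqrt_self _ h0]

/-- The pointwise inequality `|yᴴ M x|² ≤ ½ (|xᴴ M x|² + |yᴴ M y|²)` for psd `M`. -/
lemma frobSq_sandwich_le (Mω : Matrix N N ℂ) (hM : Mω.PosSemidef) (x y : Matrix N L ℂ) :
    frobSq (yᴴ * Mω * x) ≤ (1 / 2 : ℝ) * (frobSq (xᴴ * Mω * x) + frobSq (yᴴ * Mω * y)) := by
  obtain ⟨B, rfl⟩ : ∃ B : Matrix N N ℂ, Mω = Bᴴ * B := psd_factor Mω hM
  have e1 : yᴴ * (Bᴴ * B) * x = (B * y)ᴴ * (B * x) := by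
    rw [Matrix.conjTranspose_mul]; simp only [Matrix.mul_assoc]
  have e2 : xᴴ * (Bᴴ * B) * x = (B * x)ᴴ * (B * x) := by
    rw [Matrix.conjTranspose_mul]; simp only [Matrix.mul_assoc]
  have e3 : yᴴ * (Bᴴ * B) * y = (B * y)ᴴ * (B * y) := by
    rw [Matrix.conjTranspose_mul]; simp only [Matrix.mul_assoc]
  rw [e1, e2, e3]
  exact frobSq_factored_le _ _

end Pointwise

/-- Abstract data for the operator chain. -/
structure Data (Ω : Type*) [TopologicalSpace Ω] {N : Type*} [Fintype N] [DecidableEq N]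
    (A : Matrix N N ℂ) extends PosFun Ω where
  G : C(Ω, ℂ)
  D : Matrix N N C(Ω, ℂ)
  moment : ∀ (k : ℕ) (i j : N), m (G ^ k * D i j) = (A ^ k) i j
  bilin : ∀ i j k l, m (D i j * D k l) = (if i = j then 1 else 0) * (if k = l then 1 else 0)
  D_pos : ∀ ω, (evM ω D + (evM ω D)ᴴ).PosSemidef
  cauchy : ∀ (f : C(Ω, ℂ)), (∀ ω, (f ω).im = 0) → ∀ ε : ℝ, 0 < ε →
    ∃ (r : C(Ω, ℂ)) (p : ℂ[X]), (∀ ω, (r ω).im = 0) ∧
      (m (star (r - f) * (r - f))).re ≤ ε ∧
      (∀ i j, m (r * D i j) = aeval A p i j) ∧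
      (m (star (aeval G p) * aeval G p)).re ≤ (m (r * r)).re

section Chain

variable {N L : Type*} [Fintype N] [DecidableEq N] [Fintype L] [DecidableEq L]
variable {A : Matrix N N ℂ}

/-- Constant matrices of functions. -/
noncomputable def hat {a b : Type*} (x : Matrix a b ℂ) : Matrix a b C(Ω, ℂ) :=
  x.map (algebraMap ℂ C(Ω, ℂ))

@[simp] lemma evM_hat {a b : Type*} (ω : Ω) (x : Matrix a b ℂ) :
    evM ω (hat x : Matrix a b C(Ω, ℂ)) = x := by
  ext i j; simp [hat]

lemma hat_conjTranspose_apply {a b : Type*} (x : Matrix a b ℂ) (i : b) (j : a) :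
    (hat x : Matrix a b C(Ω, ℂ))ᴴ i j = algebraMap ℂ C(Ω, ℂ) (star (x j i)) := by
  ext ω; simp [hat, Matrix.conjTranspose_apply]

/-- The action of a matrix of polynomials on `N × L` matrices. -/
noncomputable def act (A : Matrix N N ℂ) (W : Matrix L L ℂ[X]) (w : Matrix N L ℂ) :
    Matrix N L ℂ :=
  fun i l => ∑ k, ∑ j, (aeval A (W k l)) i j * w j k

lemma act_smul (W : Matrix L L ℂ[X]) (c : ℂ) (w : Matrix N L ℂ) :
    act A W (c • w) = c • act A W w := by
  ext i l
  simp only [act, Matrix.smul_apply, smul_eq_mul, Finset.mul_sum]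
  refine Finset.sum_congr rfl fun _ _ => Finset.sum_congr rfl fun _ _ => ?_
  ring

lemma act_apply (W : Matrix L L ℂ[X]) (w : Matrix N L ℂ) (i : N) (l : L) :
    act A W w i l = ∑ k, (aeval A (W k l) * w) i k := by
  simp [act, Matrix.mul_apply]

lemma mul_act_apply (M : Matrix N N ℂ) (W' : Matrix L L ℂ[X]) (w : Matrix N L ℂ) (i : N) (k : L) :
    (M * act A W' w) i k = ∑ k', (M * aeval A (W' k' k) * w) i k' := by
  simp only [Matrix.mul_apply, act, Finset.mul_sum, Finset.sum_mul]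
  rw [Finset.sum_comm]
  refine Finset.sum_congr rfl fun k' _ => ?_
  rw [Finset.sum_comm]
  refine Finset.sum_congr rfl fun j' _ => Finset.sum_congr rfl fun j _ => ?_
  ring

lemma sum_mul_apply {ι : Type*} [Fintype ι] (f : ι → Matrix N N ℂ) (w : Matrix N L ℂ) (i : N) (k : L) :
    ((∑ x, f x) * w) i k = ∑ x, (f x * w) i k := by
  simp only [Matrix.mul_apply, Matrix.sum_apply, Finset.sum_mul]
  exact Finset.sum_comm

lemma act_comp (W W' : Matrix L L ℂ[X]) (w : Matrix N L ℂ) :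
    act A W (act A W' w) = act A (W' * W) w := by
  ext i l
  rw [act_apply, act_apply]
  simp only [mul_act_apply]
  rw [Finset.sum_comm]
  refine Finset.sum_congr rfl fun k' _ => ?_
  have h : aeval A ((W' * W) k' l) = ∑ k, aeval A (W k l) * aeval A (W' k' k) := by
    rw [Matrix.mul_apply, map_sum]
    refine Finset.sum_congr rfl fun k _ => ?_
    rw [map_mul, ← map_mul, ← map_mul, mul_comm]
  rw [h, sum_mul_apply]


/-- The matrix of functions obtained by evaluating polynomials at `G`. -/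
noncomputable def evalP (G : C(Ω, ℂ)) (W : Matrix L L ℂ[X]) : Matrix L L C(Ω, ℂ) :=
  W.map (aeval G)

lemma evalP_mul (G : C(Ω, ℂ)) (W W' : Matrix L L ℂ[X]) :
    evalP G (W * W') = evalP G W * evalP G W' := by
  ext k l ω
  simp [evalP, Matrix.mul_apply, map_sum, map_mul, ContinuousMap.sum_apply]

lemma evM_evalP (G : C(Ω, ℂ)) (W : Matrix L L ℂ[X]) (ω : Ω) :
    evM ω (evalP G W) = W.map (aeval (G ω)) := by
  ext k l
  simp only [evM_apply, evalP, Matrix.map_apply]
  have := Polynomial.aeval_algHom_apply (ContinuousMap.evalAlgHom ℂ ℂ ω) G (W k l)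
  simp

namespace Data

variable (d : Data Ω A)

lemma moment_poly (p : ℂ[X]) (i j : N) :
    d.m (d.D i j * aeval d.G p) = aeval A p i j := by
  induction p using Polynomial.induction_on' with
  | add p q hp hq =>
    rw [map_add, mul_add, map_add, hp, hq, map_add, Matrix.add_apply]
  | monomial n c =>
    rw [aeval_monomial, aeval_monomial]
    have h1 : d.D i j * (algebraMap ℂ C(Ω, ℂ) c * d.G ^ n) = c • (d.G ^ n * d.D i j) := by
      ext ω; simp; ring
    rw [h1, map_smul, d.moment, smul_eq_mul, Algebra.algebraMap_eq_smul_one, smul_mul_assoc, one_mul,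
      Matrix.smul_apply, smul_eq_mul]

lemma trace_expand_C (y w : Matrix N L ℂ) (Dω : Matrix N N ℂ) (Zω : Matrix L L ℂ) :
    Matrix.trace (yᴴ * Dω * w * Zω) =
      ∑ l, ∑ k, ∑ i, ∑ j, (star (y i l) * w j k) * (Dω i j * Zω k l) := by
  simp only [Matrix.trace, Matrix.diag, Matrix.mul_apply, Matrix.conjTranspose_apply, Finset.sum_mul]
  refine Finset.sum_congr rfl fun l _ => Finset.sum_congr rfl fun k _ => ?_
  rw [Finset.sum_comm]
  refine Finset.sum_congr rfl fun i _ => Finset.sum_congr rfl fun j _ => ?_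
  ring

lemma trace_expand (y w : Matrix N L ℂ) (Z : Matrix L L C(Ω, ℂ)) :
    Matrix.trace ((hat (Ω := Ω) y)ᴴ * d.D * hat (Ω := Ω) w * Z) =
      ∑ l, ∑ k, ∑ i, ∑ j, (star (y i l) * w j k) • (d.D i j * Z k l) := by
  ext ω
  rw [trace_apply, evM_mul, evM_mul, evM_mul, evM_conjTranspose, evM_hat, evM_hat, trace_expand_C]
  simp only [ContinuousMap.sum_apply, ContinuousMap.smul_apply, ContinuousMap.mul_apply, evM_apply,
    smul_eq_mul]

/-- The basic moment identity for a matrix `R` of functions whose moments are those of `Q`. -/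
lemma fip_act_eq (Q : Matrix L L ℂ[X]) (R : Matrix L L C(Ω, ℂ))
    (hRQ : ∀ i j k l, d.m (d.D i j * R k l) = aeval A (Q k l) i j) (y w : Matrix N L ℂ) :
    fip y (act A Q w) = d.m (Matrix.trace ((hat (Ω := Ω) y)ᴴ * d.D * hat (Ω := Ω) w * R)) := by
  rw [trace_expand]
  simp only [map_sum, map_smul, hRQ, smul_eq_mul, fip, act, Finset.mul_sum]
  rw [Finset.sum_comm]
  refine Finset.sum_congr rfl fun l _ => ?_
  rw [Finset.sum_comm]
  refine Finset.sum_congr rfl fun k _ => Finset.sum_congr rfl fun i _ =>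
    Finset.sum_congr rfl fun j _ => ?_
  ring

lemma fip_act_evalP (Q : Matrix L L ℂ[X]) (y w : Matrix N L ℂ) :
    fip y (act A Q w) = d.m (Matrix.trace ((hat (Ω := Ω) y)ᴴ * d.D * hat (Ω := Ω) w * evalP d.G Q)) :=
  d.fip_act_eq Q _ (fun i j k l => d.moment_poly (Q k l) i j) y w


/-- The sandwich `ŷᴴ D x̂`. -/
noncomputable def cc (y x : Matrix N L ℂ) : Matrix L L C(Ω, ℂ) :=
  (hat (Ω := Ω) y)ᴴ * d.D * hat (Ω := Ω) x

/-- The matrix function `E_u = ûᴴ (D + Dᴴ) û`. -/
noncomputable def EE (u : Matrix N L ℂ) : Matrix L L C(Ω, ℂ) :=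
  d.cc u u + (d.cc u u)ᴴ

lemma evM_cc (y x : Matrix N L ℂ) (ω : Ω) : evM ω (d.cc y x) = yᴴ * evM ω d.D * x := by
  rw [cc, evM_mul, evM_mul, evM_conjTranspose, evM_hat, evM_hat]

lemma evM_EE (u : Matrix N L ℂ) (ω : Ω) :
    evM ω (d.EE u) = uᴴ * (evM ω d.D + (evM ω d.D)ᴴ) * u := by
  rw [EE, evM_add, evM_conjTranspose, evM_cc, Matrix.conjTranspose_mul, Matrix.conjTranspose_mul,
    Matrix.conjTranspose_conjTranspose, Matrix.mul_add, Matrix.add_mul]
  simp only [Matrix.mul_assoc]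

lemma evM_gamma (y x : Matrix N L ℂ) (ω : Ω) :
    evM ω (d.cc y x + (d.cc x y)ᴴ) = yᴴ * (evM ω d.D + (evM ω d.D)ᴴ) * x := by
  rw [evM_add, evM_conjTranspose, evM_cc, evM_cc, Matrix.conjTranspose_mul, Matrix.conjTranspose_mul,
    Matrix.conjTranspose_conjTranspose, Matrix.mul_add, Matrix.add_mul]
  simp only [Matrix.mul_assoc]

lemma qf_gamma_le (x y : Matrix N L ℂ) :
    d.toPosFun.qf (d.cc y x + (d.cc x y)ᴴ) ≤
      (1 / 2 : ℝ) * (d.toPosFun.qf (d.EE x) + d.toPosFun.qf (d.EE y)) := by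
  apply d.toPosFun.qf_le_of_pointwise₂
  intro ω
  rw [evM_gamma, evM_EE, evM_EE]
  exact frobSq_sandwich_le _ (d.D_pos ω) x y

lemma cc_apply (y x : Matrix N L ℂ) (k l : L) :
    d.cc y x k l = ∑ i, ∑ j, (star (y i k) * x j l) • d.D i j := by
  ext ω
  have : (d.cc y x k l) ω = (yᴴ * evM ω d.D * x) k l := by
    rw [← evM_cc]; rfl
  rw [this]
  simp only [Matrix.mul_apply, Matrix.conjTranspose_apply, ContinuousMap.sum_apply,
    ContinuousMap.smul_apply, smul_eq_mul, evM_apply, Finset.sum_mul]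
  rw [Finset.sum_comm]
  refine Finset.sum_congr rfl fun i _ => Finset.sum_congr rfl fun j _ => ?_
  ring

lemma m_D_mul_cc (y x : Matrix N L ℂ) (i j : N) (k l : L) :
    d.m (d.D i j * d.cc y x k l) = (if i = j then 1 else 0) * (yᴴ * x) k l := by
  rw [cc_apply, Finset.mul_sum, map_sum]
  simp only [Finset.mul_sum, map_sum, mul_smul_comm, map_smul, d.bilin, smul_eq_mul]
  simp only [Matrix.mul_apply, Matrix.conjTranspose_apply, Finset.mul_sum]
  refine Finset.sum_congr rfl fun i' _ => ?_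
  rw [Finset.sum_eq_single i']
  · simp
  · intro b _ hb
    simp [Ne.symm hb]
  · simp

lemma m_trace_ba (x y : Matrix N L ℂ) :
    d.m (Matrix.trace (d.cc x y * d.cc y x)) = (frobSq (yᴴ * x) : ℂ) := by
  rw [cc, trace_expand]
  simp only [map_sum, map_smul, m_D_mul_cc, smul_eq_mul]
  rw [frobSq]
  push_cast
  rw [Finset.sum_comm]
  refine Finset.sum_congr rfl fun k _ => Finset.sum_congr rfl fun l _ => ?_
  rw [← star_mul_self_eq' ]
  simp only [Matrix.mul_apply, Matrix.conjTranspose_apply, star_sum, star_mul', star_star]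
  rw [Finset.sum_mul]
  refine Finset.sum_congr rfl fun i _ => ?_
  rw [Finset.sum_eq_single i]
  · simp only [if_true, one_mul]
    ring
  · intro b _ hb
    simp [Ne.symm hb]
  · simp


lemma qf_cc_le (x y : Matrix N L ℂ) :
    d.toPosFun.qf (d.cc y x) ≤ (1 / 2 : ℝ) * (d.toPosFun.qf (d.EE x) + d.toPosFun.qf (d.EE y)) := by
  refine le_trans ?_ (d.qf_gamma_le x y)
  rw [PosFun.qf_add]
  have h1 : 0 ≤ d.toPosFun.qf (d.cc x y)ᴴ := d.toPosFun.qf_nonneg _
  have h2 : 0 ≤ d.toPosFun.rb (d.cc y x) (d.cc x y)ᴴ := by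
    have e : d.toPosFun.tf (d.cc y x) (d.cc x y)ᴴ = star (d.m (Matrix.trace (d.cc x y * d.cc y x))) := by
      unfold PosFun.tf
      rw [← d.toPosFun.m_star, ← Matrix.trace_conjTranspose, Matrix.conjTranspose_mul]
    unfold PosFun.rb
    rw [e, m_trace_ba]
    simpa using frobSq_nonneg _
  linarith

lemma re_fip_act (Q : Matrix L L ℂ[X]) (R : Matrix L L C(Ω, ℂ)) (hR : Rᴴ = R)
    (hRQ : ∀ i j k l, d.m (d.D i j * R k l) = aeval A (Q k l) i j) (u : Matrix N L ℂ) :
    (fip u (act A Q u)).re = (1 / 2 : ℝ) * d.toPosFun.rb R (d.EE u) := by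
  rw [d.fip_act_eq Q R hRQ u u]
  unfold PosFun.rb PosFun.tf EE
  rw [hR, Matrix.mul_add, Matrix.trace_add, map_add, Complex.add_re]
  have h1 : Matrix.trace (R * d.cc u u) = Matrix.trace ((hat (Ω := Ω) u)ᴴ * d.D * hat (Ω := Ω) u * R) := by
    rw [Matrix.trace_mul_comm, cc]
  have h2 : Matrix.trace (R * (d.cc u u)ᴴ) =
      star (Matrix.trace ((hat (Ω := Ω) u)ᴴ * d.D * hat (Ω := Ω) u * R)) := by
    rw [← Matrix.trace_conjTranspose, Matrix.conjTranspose_mul, hR, cc]
  rw [h1, h2, d.toPosFun.m_star]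
  simp only [Complex.star_def, Complex.conj_re]
  ring

lemma fip_smul_right (x y : Matrix N L ℂ) (c : ℂ) : fip x (c • y) = c * fip x y := by
  simp only [fip, Matrix.smul_apply, smul_eq_mul, Finset.mul_sum]
  refine Finset.sum_congr rfl fun _ _ => Finset.sum_congr rfl fun _ _ => ?_
  ring

lemma qf_mul_right_le (a : Matrix L L C(Ω, ℂ)) (V : Matrix L L ℂ[X]) (Mb : ℝ)
    (hV : ∀ ω (Z : Matrix L L ℂ), frobSq (Z * V.map (aeval (d.G ω))) ≤ Mb ^ 2 * frobSq Z) :
    d.toPosFun.qf (a * evalP d.G V) ≤ Mb ^ 2 * d.toPosFun.qf a := by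
  apply d.toPosFun.qf_le_of_pointwise
  intro ω
  rw [evM_mul, evM_evalP]
  exact hV ω _

lemma qf_mul_left_le (a : Matrix L L C(Ω, ℂ)) (V : Matrix L L ℂ[X]) (Mb : ℝ)
    (hV : ∀ ω (Z : Matrix L L ℂ), frobSq (V.map (aeval (d.G ω)) * Z) ≤ Mb ^ 2 * frobSq Z) :
    d.toPosFun.qf (evalP d.G V * a) ≤ Mb ^ 2 * d.toPosFun.qf a := by
  apply d.toPosFun.qf_le_of_pointwise
  intro ω
  rw [evM_mul, evM_evalP]
  exact hV ω _

/-- General Cauchy–Schwarz step. -/
lemma rb_bound (Qm Z a : Matrix L L C(Ω, ℂ)) (Mb : ℝ) (hMb : 0 ≤ Mb)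
    (hZ : d.toPosFun.qf Z ≤ Mb ^ 2 * d.toPosFun.qf a) :
    (d.m (Matrix.trace (Qm * Z))).re ≤
      Mb * Real.sqrt (d.toPosFun.qf a) * Real.sqrt (d.toPosFun.qf Qm) := by
  have h1 : (d.m (Matrix.trace (Qm * Z))).re = d.toPosFun.rb Qmᴴ Z := by
    unfold PosFun.rb PosFun.tf
    rw [Matrix.conjTranspose_conjTranspose]
  rw [h1]
  refine le_trans (d.toPosFun.rb_le_sqrt _ _) ?_
  rw [PosFun.qf_conjTranspose]
  have h2 : Real.sqrt (d.toPosFun.qf Z) ≤ Mb * Real.sqrt (d.toPosFun.qf a) := by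
    calc Real.sqrt (d.toPosFun.qf Z) ≤ Real.sqrt (Mb ^ 2 * d.toPosFun.qf a) := Real.sqrt_le_sqrt hZ
      _ = Mb * Real.sqrt (d.toPosFun.qf a) := by
        rw [Real.sqrt_mul (sq_nonneg _), Real.sqrt_sq hMb]
  calc Real.sqrt (d.toPosFun.qf Qm) * Real.sqrt (d.toPosFun.qf Z)
      ≤ Real.sqrt (d.toPosFun.qf Qm) * (Mb * Real.sqrt (d.toPosFun.qf a)) :=
        mul_le_mul_of_nonneg_left h2 (Real.sqrt_nonneg _)
    _ = _ := by ring

/-- The inequality for `E_y`. -/
lemma ineq_y (V Q : Matrix L L ℂ[X]) (R : Matrix L L C(Ω, ℂ)) (hR : Rᴴ = R)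
    (hRQ : ∀ i j k l, d.m (d.D i j * R k l) = aeval A (Q k l) i j)
    (x y : Matrix N L ℂ) (s : ℝ) (hxy : act A V x = (s : ℂ) • y) (Mb : ℝ) (hMb : 0 ≤ Mb)
    (hV : ∀ ω (Z : Matrix L L ℂ), frobSq (Z * V.map (aeval (d.G ω))) ≤ Mb ^ 2 * frobSq Z) :
    s * ((1 / 2 : ℝ) * d.toPosFun.rb R (d.EE y)) ≤
      Mb * Real.sqrt (d.toPosFun.qf (d.cc y x)) * Real.sqrt (d.toPosFun.qf (evalP d.G Q)) := by
  have h1 : fip y (act A Q (act A V x)) = (s : ℂ) * fip y (act A Q y) := by
    rw [hxy, act_smul, fip_smul_right]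
  have h2 : fip y (act A Q (act A V x)) =
      d.m (Matrix.trace (evalP d.G Q * (d.cc y x * evalP d.G V))) := by
    rw [act_comp, d.fip_act_evalP, evalP_mul, ← Matrix.mul_assoc, Matrix.trace_mul_comm, cc]
  have h3 := d.rb_bound (evalP d.G Q) (d.cc y x * evalP d.G V) (d.cc y x) Mb hMb
    (d.qf_mul_right_le _ V Mb hV)
  rw [← h2, h1, Complex.re_ofReal_mul, d.re_fip_act Q R hR hRQ] at h3
  exact h3

/-- The inequality for `E_x`. -/
lemma ineq_x (V Q : Matrix L L ℂ[X]) (R : Matrix L L C(Ω, ℂ)) (hR : Rᴴ = R)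
    (hRQ : ∀ i j k l, d.m (d.D i j * R k l) = aeval A (Q k l) i j)
    (x y : Matrix N L ℂ) (s : ℝ) (hyx : ∀ w, fip y (act A V w) = (s : ℂ) * fip x w)
    (Mb : ℝ) (hMb : 0 ≤ Mb)
    (hV : ∀ ω (Z : Matrix L L ℂ), frobSq (V.map (aeval (d.G ω)) * Z) ≤ Mb ^ 2 * frobSq Z) :
    s * ((1 / 2 : ℝ) * d.toPosFun.rb R (d.EE x)) ≤
      Mb * Real.sqrt (d.toPosFun.qf (d.cc y x)) * Real.sqrt (d.toPosFun.qf (evalP d.G Q)) := by
  have h1 : fip y (act A V (act A Q x)) = (s : ℂ) * fip x (act A Q x) := hyx _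
  have h2 : fip y (act A V (act A Q x)) =
      d.m (Matrix.trace (evalP d.G Q * (evalP d.G V * d.cc y x))) := by
    rw [act_comp, d.fip_act_evalP, evalP_mul, Matrix.trace_mul_comm, Matrix.mul_assoc, cc]
  have h3 := d.rb_bound (evalP d.G Q) (evalP d.G V * d.cc y x) (d.cc y x) Mb hMb
    (d.qf_mul_left_le _ V Mb hV)
  rw [← h2, h1, Complex.re_ofReal_mul, d.re_fip_act Q R hR hRQ] at h3
  exact h3


/-! ### Approximation of a Hermitian matrix of functions -/

/-- A good approximant: `r` real close to `f`, with Faber-type polynomial `p`. -/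
def Good (r : C(Ω, ℂ)) (p : ℂ[X]) (f : C(Ω, ℂ)) (ε : ℝ) : Prop :=
  (∀ ω, (r ω).im = 0) ∧ (d.m (star (r - f) * (r - f))).re ≤ ε ∧
    (∀ i j, d.m (r * d.D i j) = aeval A p i j) ∧
    (d.m (star (aeval d.G p) * aeval d.G p)).re ≤ (d.m (r * r)).re

lemma Good.neg {d : Data Ω A} {r : C(Ω, ℂ)} {p : ℂ[X]} {f : C(Ω, ℂ)} {ε : ℝ}
    (h : d.Good r p f ε) : d.Good (-r) (-p) (-f) ε := by
  obtain ⟨h1, h2, h3, h4⟩ := h
  refine ⟨fun ω => by simp [h1 ω], ?_, fun i j => ?_, ?_⟩
  · have : star (-r - -f) * (-r - -f) = star (r - f) * (r - f) := by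
      ext ω; simp; ring
    rw [this]; exact h2
  · have e : ∀ g : C(Ω, ℂ), -r * g = -(r * g) := fun g => neg_mul r g
    rw [e, map_neg, h3, map_neg, Matrix.neg_apply]
  · have e1 : star (aeval d.G (-p)) * aeval d.G (-p) = star (aeval d.G p) * aeval d.G p := by
      have hh : ∀ a b : C(Ω, ℂ), -a * -b = a * b := fun a b => by ring
      rw [map_neg, star_neg]; exact hh _ _
    have e2 : -r * -r = r * r := by ring
    rw [e1, e2]; exact h4

lemma Good.zero (ε : ℝ) (hε : 0 ≤ ε) : d.Good 0 0 0 ε := by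
  refine ⟨fun ω => by simp, ?_, fun i j => by simp, by simp⟩
  simpa using hε

lemma Good.congr_f {d : Data Ω A} {r : C(Ω, ℂ)} {p : ℂ[X]} {f f' : C(Ω, ℂ)} {ε : ℝ}
    (h : d.Good r p f ε) (hf : f = f') : d.Good r p f' ε := hf ▸ h

lemma qf_eq_sum (Z : Matrix L L C(Ω, ℂ)) :
    d.toPosFun.qf Z = ∑ k, ∑ l, (d.m (star (Z k l) * Z k l)).re := by
  unfold PosFun.qf PosFun.rb PosFun.tf
  have : Matrix.trace (Zᴴ * Z) = ∑ l, ∑ k, star (Z k l) * Z k l := by
    simp [Matrix.trace, Matrix.mul_apply, Matrix.conjTranspose_apply]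
  rw [this, map_sum, Complex.re_sum, Finset.sum_comm]
  refine Finset.sum_congr rfl fun k _ => ?_
  rw [map_sum, Complex.re_sum]


/-- Identity for real functions. -/
lemma star_add_I_mul_self (u v : C(Ω, ℂ)) (hu : ∀ ω, (u ω).im = 0) (hv : ∀ ω, (v ω).im = 0) :
    star (u + Complex.I • v) * (u + Complex.I • v) = star u * u + star v * v := by
  ext ω
  have hu' : (u ω) = ((u ω).re : ℂ) := by apply Complex.ext <;> simp [hu]
  have hv' : (v ω) = ((v ω).re : ℂ) := by apply Complex.ext <;> simp [hv]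
  simp only [ContinuousMap.mul_apply, ContinuousMap.star_apply, ContinuousMap.add_apply,
    ContinuousMap.smul_apply, smul_eq_mul, star_add, star_mul', Complex.star_def, Complex.conj_I]
  rw [hu', hv']
  simp only [Complex.conj_ofReal]
  have : Complex.I * Complex.I = -1 := Complex.I_mul_I
  linear_combination (-(((v ω).re : ℂ)) * ((v ω).re : ℂ)) * this

variable [LinearOrder L]

/-- Symmetric choice of the approximants of the real parts. -/
lemma exists_sym (E : Matrix L L C(Ω, ℂ)) (hE : Eᴴ = E) (ε : ℝ) (hε : 0 < ε) :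
    ∃ (α : L → L → C(Ω, ℂ)) (P : L → L → ℂ[X]),
      (∀ k l, d.Good (α k l) (P k l) (reF (E k l)) ε) ∧ (∀ k l, α k l = α l k) ∧
      (∀ k l, P k l = P l k) := by
  have hsym : ∀ k l, reF (E k l) = reF (E l k) := by
    intro k l
    have : E k l = star (E l k) := by
      conv_lhs => rw [← hE]
      rfl
    rw [this]
    ext ω; simp
  choose r p h1 h2 h3 h4 using fun k l => d.cauchy (reF (E k l)) (by simp) ε hε
  refine ⟨fun k l => if k ≤ l then r k l else r l k, fun k l => if k ≤ l then p k l else p l k,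
    ?_, ?_, ?_⟩
  · intro k l
    by_cases hkl : k ≤ l
    · simp only [hkl, if_true]
      exact ⟨h1 k l, h2 k l, h3 k l, h4 k l⟩
    · simp only [hkl, if_false]
      exact Good.congr_f ⟨h1 l k, h2 l k, h3 l k, h4 l k⟩ (hsym l k)
  · intro k l
    rcases lt_trichotomy k l with h | h | h
    · simp [h.le, not_le.mpr h]
    · rw [h]
    · simp [h.le, not_le.mpr h]
  · intro k l
    rcases lt_trichotomy k l with h | h | h
    · simp [h.le, not_le.mpr h]
    · rw [h]
    · simp [h.le, not_le.mpr h]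

/-- Antisymmetric choice of the approximants of the imaginary parts. -/
lemma exists_antisym (E : Matrix L L C(Ω, ℂ)) (hE : Eᴴ = E) (ε : ℝ) (hε : 0 < ε) :
    ∃ (β : L → L → C(Ω, ℂ)) (S : L → L → ℂ[X]),
      (∀ k l, d.Good (β k l) (S k l) (imF (E k l)) ε) ∧ (∀ k l, β k l = -β l k) ∧
      (∀ k l, S k l = -S l k) := by
  have hanti : ∀ k l, imF (E k l) = -imF (E l k) := by
    intro k l
    have : E k l = star (E l k) := by
      conv_lhs => rw [← hE]
      rfl
    rw [this]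
    ext ω; simp
  have hzero : ∀ k, imF (E k k) = 0 := by
    intro k
    have h := hanti k k
    ext ω
    have h' := congrArg (fun f : C(Ω, ℂ) => (f ω).re) h
    simp only [imF_apply, Complex.ofReal_re, ContinuousMap.neg_apply, Complex.neg_re] at h'
    simp only [imF_apply, ContinuousMap.zero_apply]
    have : (E k k ω).im = 0 := by linarith
    simp [this]
  choose r p h1 h2 h3 h4 using fun k l => d.cauchy (imF (E k l)) (by simp) ε hε
  refine ⟨fun k l => if k < l then r k l else if l < k then -r l k else 0,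
    fun k l => if k < l then p k l else if l < k then -p l k else 0, ?_, ?_, ?_⟩
  · intro k l
    rcases lt_trichotomy k l with h | h | h
    · simp only [h, if_true]
      exact ⟨h1 k l, h2 k l, h3 k l, h4 k l⟩
    · subst h
      simp only [lt_irrefl, if_false]
      exact Good.congr_f (Good.zero d ε hε.le) (hzero k).symm
    · simp only [h, if_true, not_lt.mpr h.le, if_false]
      have : d.Good (r l k) (p l k) (imF (E l k)) ε := ⟨h1 l k, h2 l k, h3 l k, h4 l k⟩
      exact Good.congr_f this.neg (by rw [hanti k l])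
  · intro k l
    rcases lt_trichotomy k l with h | h | h
    · simp [h, not_lt.mpr h.le]
    · subst h; simp
    · simp [h, not_lt.mpr h.le]
  · intro k l
    rcases lt_trichotomy k l with h | h | h
    · simp [h, not_lt.mpr h.le]
    · subst h; simp
    · simp [h, not_lt.mpr h.le]


/-- The Hermitian approximant and its polynomial matrix. -/
lemma exists_approx (E : Matrix L L C(Ω, ℂ)) (hE : Eᴴ = E) (ε : ℝ) (hε : 0 < ε) :
    ∃ (R : Matrix L L C(Ω, ℂ)) (Q : Matrix L L ℂ[X]), Rᴴ = R ∧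
      (∀ i j k l, d.m (d.D i j * R k l) = aeval A (Q k l) i j) ∧
      d.toPosFun.qf (R - E) ≤ ε ∧ d.toPosFun.qf (evalP d.G Q) ≤ d.toPosFun.qf R := by
  classical
  set c : ℝ := 2 * (Fintype.card L : ℝ) ^ 2 + 1 with hc
  have hcpos : 0 < c := by positivity
  obtain ⟨α, P, hα, hαs, hPs⟩ := d.exists_sym E hE (ε / c) (by positivity)
  obtain ⟨β, S, hβ, hβs, hSs⟩ := d.exists_antisym E hE (ε / c) (by positivity)
  have hαr : ∀ k l ω, (α k l ω).im = 0 := fun k l => (hα k l).1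
  have hβr : ∀ k l ω, (β k l ω).im = 0 := fun k l => (hβ k l).1
  obtain ⟨R, hRdef⟩ : ∃ R : Matrix L L C(Ω, ℂ), ∀ k l, R k l = α k l + Complex.I • β k l :=
    ⟨fun k l => α k l + Complex.I • β k l, fun _ _ => rfl⟩
  obtain ⟨Q, hQdef⟩ : ∃ Q : Matrix L L ℂ[X], ∀ k l, Q k l = P k l + C Complex.I * S k l :=
    ⟨fun k l => P k l + C Complex.I * S k l, fun _ _ => rfl⟩
  refine ⟨R, Q, ?_, ?_, ?_, ?_⟩
  · -- Hermitian
    ext k l ω
    have h1 : α l k = α k l := hαs l k
    have h2 : β l k = -β k l := hβs l k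
    rw [Matrix.conjTranspose_apply, hRdef, hRdef, h1, h2]
    have hu : (α k l ω) = ((α k l ω).re : ℂ) := by apply Complex.ext <;> simp [hαr]
    have hv : (β k l ω) = ((β k l ω).re : ℂ) := by apply Complex.ext <;> simp [hβr]
    simp only [ContinuousMap.star_apply, ContinuousMap.add_apply, ContinuousMap.smul_apply,
      ContinuousMap.neg_apply, smul_eq_mul, star_add, star_mul', Complex.star_def, Complex.conj_I,
      star_neg]
    rw [hu, hv]
    simp only [Complex.conj_ofReal]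
    ring
  · -- moments
    intro i j k l
    have h1 := (hα k l).2.2.1 i j
    have h2 := (hβ k l).2.2.1 i j
    have e : d.D i j * (α k l + Complex.I • β k l) =
        α k l * d.D i j + Complex.I • (β k l * d.D i j) := by
      ext ω; simp; ring
    rw [hRdef, hQdef, e, map_add, map_smul, h1, h2, map_add, map_mul, aeval_C, Matrix.add_apply,
      Algebra.algebraMap_eq_smul_one, smul_mul_assoc, one_mul, Matrix.smul_apply]
  · -- distance
    rw [d.qf_eq_sum]
    have hterm : ∀ k l, (d.m (star ((R - E) k l) * ((R - E) k l))).re ≤ 2 * (ε / c) := by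
      intro k l
      have e : (R - E) k l =
          (α k l - reF (E k l)) + Complex.I • (β k l - imF (E k l)) := by
        rw [Matrix.sub_apply, hRdef]
        conv_lhs => rw [re_add_im_F (E k l)]
        rw [smul_sub]
        ring
      rw [e, star_add_I_mul_self _ _ (fun ω => by simp [hαr]) (fun ω => by simp [hβr]), map_add,
        Complex.add_re]
      linarith [(hα k l).2.1, (hβ k l).2.1]
    refine le_trans (Finset.sum_le_sum fun k _ => Finset.sum_le_sum fun l _ => hterm k l) ?_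
    simp only [Finset.sum_const, Finset.card_univ, nsmul_eq_mul]
    have h3 : (Fintype.card L : ℝ) * ((Fintype.card L : ℝ) * (2 * (ε / c))) =
        (2 * (Fintype.card L : ℝ) ^ 2) / c * ε := by
      field_simp
    rw [h3]
    have h4 : (2 * (Fintype.card L : ℝ) ^ 2) / c ≤ 1 := by
      rw [div_le_one hcpos, hc]; linarith
    nlinarith
  · -- the main inequality
    rw [d.qf_eq_sum, d.qf_eq_sum]
    -- the polynomial side
    obtain ⟨p, hp⟩ : ∃ p : L → L → C(Ω, ℂ), ∀ k l, p k l = aeval d.G (P k l) :=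
      ⟨fun k l => aeval d.G (P k l), fun _ _ => rfl⟩
    obtain ⟨σ, hσ⟩ : ∃ σ : L → L → C(Ω, ℂ), ∀ k l, σ k l = aeval d.G (S k l) :=
      ⟨fun k l => aeval d.G (S k l), fun _ _ => rfl⟩
    have hps : ∀ k l, p k l = p l k := fun k l => by rw [hp, hp, hPs]
    have hσs : ∀ k l, σ k l = -σ l k := fun k l => by rw [hσ, hσ, hSs, map_neg]
    have hQG : ∀ k l, evalP d.G Q k l = p k l + Complex.I • σ k l := by
      intro k l
      simp only [evalP, Matrix.map_apply]
      rw [hQdef, map_add, map_mul, aeval_C, hp, hσ, Algebra.algebraMap_eq_smul_one, smul_mul_assoc,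
        one_mul]
    have hexp : ∀ k l, star (evalP d.G Q k l) * evalP d.G Q k l =
        star (p k l) * p k l + star (σ k l) * σ k l +
          Complex.I • (star (p k l) * σ k l - star (σ k l) * p k l) := by
      intro k l
      rw [hQG]
      ext ω
      simp only [ContinuousMap.mul_apply, ContinuousMap.star_apply, ContinuousMap.add_apply,
        ContinuousMap.smul_apply, ContinuousMap.sub_apply, smul_eq_mul, star_add, star_mul',
        Complex.star_def, Complex.conj_I]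
      have : Complex.I * Complex.I = -1 := Complex.I_mul_I
      linear_combination (-(starRingEnd ℂ (σ k l ω)) * σ k l ω) * this
    have hT : ∑ k, ∑ l, d.m (star (p k l) * σ k l) = 0 := by
      have h := Finset.sum_comm (s := (Finset.univ : Finset L)) (t := (Finset.univ : Finset L))
        (f := fun k l => d.m (star (p k l) * σ k l))
      have h2 : ∑ l, ∑ k, d.m (star (p k l) * σ k l) = - ∑ l, ∑ k, d.m (star (p l k) * σ l k) := by
        rw [← Finset.sum_neg_distrib]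
        refine Finset.sum_congr rfl fun l _ => ?_
        rw [← Finset.sum_neg_distrib]
        refine Finset.sum_congr rfl fun k _ => ?_
        rw [← map_neg, hps k l, hσs k l]
        congr 1
        ring
      rw [h2] at h
      have h3 : ∑ k, ∑ l, d.m (star (p k l) * σ k l) = - ∑ k, ∑ l, d.m (star (p k l) * σ k l) := h
      have h4 : (2 : ℂ) * ∑ k, ∑ l, d.m (star (p k l) * σ k l) = 0 := by
        linear_combination h3
      simpa using h4
    have hT' : ∑ k, ∑ l, d.m (star (σ k l) * p k l) = 0 := by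
      have h := Finset.sum_comm (s := (Finset.univ : Finset L)) (t := (Finset.univ : Finset L))
        (f := fun k l => d.m (star (σ k l) * p k l))
      have h2 : ∑ l, ∑ k, d.m (star (σ k l) * p k l) = - ∑ l, ∑ k, d.m (star (σ l k) * p l k) := by
        rw [← Finset.sum_neg_distrib]
        refine Finset.sum_congr rfl fun l _ => ?_
        rw [← Finset.sum_neg_distrib]
        refine Finset.sum_congr rfl fun k _ => ?_
        rw [← map_neg, hps k l, hσs k l]
        congr 1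
        simp only [star_neg]
        ring
      rw [h2] at h
      have h3 : ∑ k, ∑ l, d.m (star (σ k l) * p k l) = - ∑ k, ∑ l, d.m (star (σ k l) * p k l) := h
      have h4 : (2 : ℂ) * ∑ k, ∑ l, d.m (star (σ k l) * p k l) = 0 := by
        linear_combination h3
      simpa using h4
    have hsum : ∑ k, ∑ l, (d.m (star (evalP d.G Q k l) * evalP d.G Q k l)).re =
        ∑ k, ∑ l, ((d.m (star (p k l) * p k l)).re + (d.m (star (σ k l) * σ k l)).re) := by
      have hC : ∑ k, ∑ l, d.m (star (evalP d.G Q k l) * evalP d.G Q k l) =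
          ∑ k, ∑ l, (d.m (star (p k l) * p k l) + d.m (star (σ k l) * σ k l)) +
            Complex.I * (∑ k, ∑ l, d.m (star (p k l) * σ k l) -
              ∑ k, ∑ l, d.m (star (σ k l) * p k l)) := by
        simp only [Finset.mul_sum, ← Finset.sum_sub_distrib, ← Finset.sum_add_distrib]
        refine Finset.sum_congr rfl fun k _ => Finset.sum_congr rfl fun l _ => ?_
        rw [hexp, map_add, map_add, map_smul, map_sub, smul_eq_mul]
      have hre := congrArg Complex.re hC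
      rw [hT, hT', sub_zero, mul_zero, add_zero] at hre
      simpa only [Complex.re_sum, Complex.add_re] using hre
    rw [hsum]
    refine Finset.sum_le_sum fun k _ => Finset.sum_le_sum fun l _ => ?_
    rw [hRdef, star_add_I_mul_self _ _ (hαr k l) (hβr k l), map_add, Complex.add_re]
    have h1 := (hα k l).2.2.2
    have h2 := (hβ k l).2.2.2
    have e1 : star (α k l) = α k l := by
      ext ω
      apply Complex.ext <;> simp [hαr]
    have e2 : star (β k l) = β k l := by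
      ext ω
      apply Complex.ext <;> simp [hβr]
    rw [e1, e2, hp, hσ]
    exact add_le_add h1 h2

/-- The limit step. -/
lemma limit_step (E : Matrix L L C(Ω, ℂ)) (hE : Eᴴ = E) (s C0 : ℝ) (hs : 0 ≤ s) (hC0 : 0 ≤ C0)
    (h : ∀ (R : Matrix L L C(Ω, ℂ)) (Q : Matrix L L ℂ[X]), Rᴴ = R →
      (∀ i j k l, d.m (d.D i j * R k l) = aeval A (Q k l) i j) →
      s * ((1 / 2 : ℝ) * d.toPosFun.rb R E) ≤ C0 * Real.sqrt (d.toPosFun.qf (evalP d.G Q))) :
    s / 2 * Real.sqrt (d.toPosFun.qf E) ≤ C0 := by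
  set b := Real.sqrt (d.toPosFun.qf E) with hb
  have hb0 : 0 ≤ b := Real.sqrt_nonneg _
  have hbb : b * b = d.toPosFun.qf E := Real.mul_self_sqrt (d.toPosFun.qf_nonneg E)
  have key : ∀ δ : ℝ, 0 < δ → s / 2 * (b * b) ≤ C0 * b + δ * (s / 2 * b + C0) := by
    intro δ hδ
    obtain ⟨R, Q, hR, hRQ, hd, hq⟩ := d.exists_approx E hE (δ ^ 2) (by positivity)
    have h1 := h R Q hR hRQ
    have hΔ : R = E + (R - E) := by simp
    have hsqrtΔ : Real.sqrt (d.toPosFun.qf (R - E)) ≤ δ := by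
      rw [show δ = Real.sqrt (δ ^ 2) from (Real.sqrt_sq hδ.le).symm]
      exact Real.sqrt_le_sqrt hd
    have h2 : d.toPosFun.rb R E = b * b + d.toPosFun.rb (R - E) E := by
      conv_lhs => rw [hΔ]
      rw [PosFun.rb_add_left, hbb]
      rfl
    have h3 : -(δ * b) ≤ d.toPosFun.rb (R - E) E := by
      have h4 : d.toPosFun.rb (R - E) E ^ 2 ≤ (δ * b) ^ 2 := by
        refine le_trans (d.toPosFun.rb_sq_le _ _) ?_
        rw [mul_pow, sq b, hbb]
        exact mul_le_mul_of_nonneg_right hd (d.toPosFun.qf_nonneg E)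
      exact (abs_le.mp (abs_le_of_sq_le_sq h4 (by positivity))).1
    have h5 : Real.sqrt (d.toPosFun.qf (evalP d.G Q)) ≤ b + δ := by
      calc Real.sqrt (d.toPosFun.qf (evalP d.G Q)) ≤ Real.sqrt (d.toPosFun.qf R) :=
            Real.sqrt_le_sqrt hq
        _ ≤ b + Real.sqrt (d.toPosFun.qf (R - E)) := by
            conv_lhs => rw [hΔ]
            exact d.toPosFun.sqrt_qf_add_le _ _
        _ ≤ b + δ := by linarith
    have h6 : C0 * Real.sqrt (d.toPosFun.qf (evalP d.G Q)) ≤ C0 * (b + δ) :=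
      mul_le_mul_of_nonneg_left h5 hC0
    have h7 : s * ((1 / 2 : ℝ) * (b * b - δ * b)) ≤ s * ((1 / 2 : ℝ) * d.toPosFun.rb R E) := by
      apply mul_le_mul_of_nonneg_left _ hs
      rw [h2]; linarith
    nlinarith
  have key2 : s / 2 * (b * b) ≤ C0 * b := by
    apply le_of_forall_pos_le_add
    intro η hη
    set K := s / 2 * b + C0 with hK
    have hK0 : 0 ≤ K := by positivity
    have := key (η / (K + 1)) (by positivity)
    refine le_trans this ?_
    have h8 : η / (K + 1) * K ≤ η := by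
      rw [div_mul_eq_mul_div, div_le_iff₀ (by positivity)]
      nlinarith
    linarith
  rcases eq_or_lt_of_le hb0 with h0 | h0
  · rw [← h0]; simpa using hC0
  · have : s / 2 * b * b ≤ C0 * b := by linarith [key2, mul_assoc (s / 2) b b]
    exact le_of_mul_le_mul_right this h0

omit [LinearOrder L] in
lemma act_one (w : Matrix N L ℂ) : act A (1 : Matrix L L ℂ[X]) w = w := by
  ext i l
  rw [act_apply, Finset.sum_eq_single l]
  · simp
  · intro k _ hk
    simp [Matrix.one_apply_ne hk]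
  · simp

omit [LinearOrder L] in
lemma evalP_one : evalP d.G (1 : Matrix L L ℂ[X]) = 1 := by
  ext k l ω
  by_cases h : k = l
  · subst h; simp [evalP]
  · simp [evalP, Matrix.one_apply_ne h]

omit [LinearOrder L] in
lemma m_trace_cc_self (x : Matrix N L ℂ) : d.m (Matrix.trace (d.cc x x)) = (frobSq x : ℂ) := by
  have h := d.fip_act_evalP (1 : Matrix L L ℂ[X]) x x
  rw [act_one, evalP_one, Matrix.mul_one, fip_self] at h
  exact h.symm

omit [LinearOrder L] in
lemma qf_EE_pos (x : Matrix N L ℂ) (hx : frobSq x = 1) : 0 < d.toPosFun.qf (d.EE x) := by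
  have h1 : d.toPosFun.rb (1 : Matrix L L C(Ω, ℂ)) (d.EE x) = 2 := by
    unfold PosFun.rb PosFun.tf EE
    rw [Matrix.conjTranspose_one, Matrix.one_mul, Matrix.trace_add, Matrix.trace_conjTranspose,
      map_add, d.toPosFun.m_star, m_trace_cc_self, hx]
    simp
    norm_num
  have h2 := d.toPosFun.rb_sq_le (1 : Matrix L L C(Ω, ℂ)) (d.EE x)
  rw [h1] at h2
  have h3 := d.toPosFun.qf_nonneg (d.EE x)
  have h4 := d.toPosFun.qf_nonneg (1 : Matrix L L C(Ω, ℂ))
  rcases eq_or_lt_of_le h3 with h0 | h0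
  · rw [← h0] at h2; norm_num at h2
  · exact h0

omit [LinearOrder L] in
lemma EE_herm (u : Matrix N L ℂ) : (d.EE u)ᴴ = d.EE u := by
  unfold EE
  rw [Matrix.conjTranspose_add, Matrix.conjTranspose_conjTranspose, add_comm]

/-- The core inequality: singular values of `V[A]` are at most `2 Mb`. -/
theorem singular_le (V : Matrix L L ℂ[X]) (Mb : ℝ) (hMb : 0 ≤ Mb)
    (hV₁ : ∀ ω (Z : Matrix L L ℂ), frobSq (Z * V.map (aeval (d.G ω))) ≤ Mb ^ 2 * frobSq Z)
    (hV₂ : ∀ ω (Z : Matrix L L ℂ), frobSq (V.map (aeval (d.G ω)) * Z) ≤ Mb ^ 2 * frobSq Z)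
    (x y : Matrix N L ℂ) (hx : frobSq x = 1) (s : ℝ)
    (hxy : act A V x = (s : ℂ) • y) (hyx : ∀ w, fip y (act A V w) = (s : ℂ) * fip x w) :
    s ≤ 2 * Mb := by
  by_contra hcon
  have hs : 2 * Mb < s := not_le.mp hcon
  have hs0 : 0 ≤ s := by linarith
  have hy : s / 2 * Real.sqrt (d.toPosFun.qf (d.EE y)) ≤
      Mb * Real.sqrt (d.toPosFun.qf (d.cc y x)) :=
    d.limit_step (d.EE y) (d.EE_herm y) s _ hs0 (by positivity) (fun R Q hR hRQ =>
      d.ineq_y V Q R hR hRQ x y s hxy Mb hMb hV₁)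
  have hx' : s / 2 * Real.sqrt (d.toPosFun.qf (d.EE x)) ≤
      Mb * Real.sqrt (d.toPosFun.qf (d.cc y x)) :=
    d.limit_step (d.EE x) (d.EE_herm x) s _ hs0 (by positivity) (fun R Q hR hRQ =>
      d.ineq_x V Q R hR hRQ x y s hyx Mb hMb hV₂)
  have hA00 : 0 ≤ d.toPosFun.qf (d.cc y x) := d.toPosFun.qf_nonneg _
  have hle := d.qf_cc_le x y
  generalize d.toPosFun.qf (d.cc y x) = A0 at *
  have hpos := d.qf_EE_pos x hx
  have hBy := d.toPosFun.qf_nonneg (d.EE y)
  -- squares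
  have sq1 : (s / 2) ^ 2 * d.toPosFun.qf (d.EE y) ≤ Mb ^ 2 * A0 := by
    have h := pow_le_pow_left₀ (mul_nonneg (by linarith) (Real.sqrt_nonneg _)) hy 2
    rw [mul_pow, Real.sq_sqrt hBy, mul_pow, Real.sq_sqrt hA00] at h
    exact h
  have sq2 : (s / 2) ^ 2 * d.toPosFun.qf (d.EE x) ≤ Mb ^ 2 * A0 := by
    have h := pow_le_pow_left₀ (mul_nonneg (by linarith) (Real.sqrt_nonneg _)) hx' 2
    rw [mul_pow, Real.sq_sqrt hpos.le, mul_pow, Real.sq_sqrt hA00] at h
    exact h
  have hMs : Mb ^ 2 < (s / 2) ^ 2 := by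
    apply pow_lt_pow_left₀ (by linarith) hMb (by norm_num)
  have hS : 0 < d.toPosFun.qf (d.EE x) + d.toPosFun.qf (d.EE y) := by linarith
  have h3 : Mb ^ 2 * A0 ≤ Mb ^ 2 * ((1 / 2 : ℝ) * (d.toPosFun.qf (d.EE x) + d.toPosFun.qf (d.EE y))) :=
    mul_le_mul_of_nonneg_left hle (sq_nonneg _)
  have h4 : Mb ^ 2 * ((d.toPosFun.qf (d.EE x) + d.toPosFun.qf (d.EE y))) <
      (s / 2) ^ 2 * (d.toPosFun.qf (d.EE x) + d.toPosFun.qf (d.EE y)) :=
    mul_lt_mul_of_pos_right hMs hS
  nlinarith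

end Data

end Chain

end Crest.Agent.Crouzeix.OpCore
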