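/-
Runge's theorem for compact convex sets, via the curves of `Approx.lean`.
Also: the interior Cauchy formula on an `SCurve`.
-/
import Crest.Agent.Crouzeix.Approx
import Crest.Agent.Crouzeix.Homotopy

set_option autoImplicit false

open Complex MeasureTheory Set Filter Topology
open scoped Real ComplexConjugate InnerProductSpace

noncomputable section

namespace Crest.Agent.Crouzeix

/-- `φ` is a uniform limit of polynomials on `K`. -/
def PolyApprox (K : Set ℂ) (φ : ℂ → ℂ) : Prop :=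
  ∀ ε : ℝ, 0 < ε → ∃ q : Polynomial ℂ, ∀ z ∈ K, ‖q.eval z - φ z‖ ≤ ε

namespace PolyApprox

variable {K : Set ℂ} {φ ψ : ℂ → ℂ}

lemma add (h1 : PolyApprox K φ) (h2 : PolyApprox K ψ) : PolyApprox K (fun z => φ z + ψ z) := by
  intro ε hε
  obtain ⟨p, hp⟩ := h1 (ε / 2) (half_pos hε)
  obtain ⟨q, hq⟩ := h2 (ε / 2) (half_pos hε)
  refine ⟨p + q, fun z hz => ?_⟩
  have := norm_add_le (p.eval z - φ z) (q.eval z - ψ z)
  have h3 := hp z hz
  have h4 := hq z hz
  rw [Polynomial.eval_add, show p.eval z + q.eval z - (φ z + ψ z) = (p.eval z - φ z) + (q.eval z - ψ z) by ring]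
  linarith

lemma const_mul (a : ℂ) (h1 : PolyApprox K φ) : PolyApprox K (fun z => a * φ z) := by
  intro ε hε
  obtain ⟨p, hp⟩ := h1 (ε / (‖a‖ + 1)) (by positivity)
  refine ⟨Polynomial.C a * p, fun z hz => ?_⟩
  rw [Polynomial.eval_mul, Polynomial.eval_C, ← mul_sub, norm_mul]
  have h3 := hp z hz
  calc ‖a‖ * ‖p.eval z - φ z‖ ≤ (‖a‖ + 1) * (ε / (‖a‖ + 1)) :=
        mul_le_mul (by linarith) h3 (norm_nonneg _) (by positivity)
    _ = ε := by field_simp

lemma zero : PolyApprox K (fun _ => 0) := fun ε hε => ⟨0, fun z _ => by simpa using hε.le⟩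

lemma sum {ι : Type*} (s : Finset ι) {f : ι → ℂ → ℂ} (h : ∀ i ∈ s, PolyApprox K (f i)) :
    PolyApprox K (fun z => ∑ i ∈ s, f i z) := by
  classical
  induction s using Finset.induction_on with
  | empty => simpa using zero
  | insert a s ha ih =>
    simp only [Finset.sum_insert ha]
    exact (h a (Finset.mem_insert_self _ _)).add (ih fun i hi => h i (Finset.mem_insert_of_mem hi))

/-- Limits. -/
lemma of_approx (h : ∀ ε : ℝ, 0 < ε → ∃ ψ, PolyApprox K ψ ∧ ∀ z ∈ K, ‖ψ z - φ z‖ ≤ ε) :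
    PolyApprox K φ := by
  intro ε hε
  obtain ⟨ψ, h1, h2⟩ := h (ε / 2) (half_pos hε)
  obtain ⟨q, hq⟩ := h1 (ε / 2) (half_pos hε)
  refine ⟨q, fun z hz => ?_⟩
  have h3 := norm_add_le (q.eval z - ψ z) (ψ z - φ z)
  rw [show q.eval z - ψ z + (ψ z - φ z) = q.eval z - φ z by ring] at h3
  linarith [hq z hz, h2 z hz]

end PolyApprox

/-- Geometric series. -/
lemma polyApprox_inv {K : Set ℂ} {ξ c : ℂ} {r : ℝ} (hr0 : 0 ≤ r) (hr : r < ‖ξ - c‖)
    (hK : ∀ z ∈ K, ‖z - c‖ ≤ r) : PolyApprox K (fun z => (ξ - z)⁻¹) := by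
  intro ε hε
  set R := ‖ξ - c‖ with hR
  have hRpos : 0 < R := lt_of_le_of_lt hr0 hr
  have hne : ξ - c ≠ 0 := norm_pos_iff.1 hRpos
  set θ := r / R with hθ
  have hθ0 : 0 ≤ θ := by positivity
  have hθ1 : θ < 1 := (div_lt_one hRpos).2 hr
  have hlim : Tendsto (fun n : ℕ => θ ^ n * (R⁻¹ * (1 - θ)⁻¹)) atTop (𝓝 (0 * (R⁻¹ * (1 - θ)⁻¹))) :=
    (tendsto_pow_atTop_nhds_zero_of_lt_one hθ0 hθ1).mul_const _
  rw [zero_mul] at hlim
  obtain ⟨n, hn⟩ := (hlim.eventually (gt_mem_nhds hε)).exists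
  refine ⟨∑ k ∈ Finset.range n, (Polynomial.X - Polynomial.C c) ^ k * Polynomial.C (((ξ - c) ^ (k + 1))⁻¹),
    fun z hz => ?_⟩
  set u := (z - c) / (ξ - c) with hu
  have hun : ‖u‖ ≤ θ := by
    rw [hu, norm_div, ← hR]
    exact div_le_div_of_nonneg_right (hK z hz) hRpos.le
  have hu1 : ‖u‖ < 1 := lt_of_le_of_lt hun hθ1
  have hune : 1 - u ≠ 0 := by
    intro h
    have : u = 1 := (sub_eq_zero.1 h).symm
    rw [this] at hu1
    simp at hu1
  have hξz : ξ - z = (ξ - c) * (1 - u) := by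
    rw [hu]; field_simp; ring
  have hsum : (∑ k ∈ Finset.range n, (Polynomial.X - Polynomial.C c) ^ k *
      Polynomial.C (((ξ - c) ^ (k + 1))⁻¹)).eval z = (ξ - c)⁻¹ * ∑ k ∈ Finset.range n, u ^ k := by
    rw [Polynomial.eval_finsetSum, Finset.mul_sum]
    refine Finset.sum_congr rfl fun k _ => ?_
    simp only [Polynomial.eval_mul, Polynomial.eval_pow, Polynomial.eval_sub, Polynomial.eval_X,
      Polynomial.eval_C]
    rw [hu, div_pow, pow_succ]
    field_simp
  have hgeom : (∑ k ∈ Finset.range n, u ^ k) * (1 - u) = 1 - u ^ n := by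
    rw [mul_comm]
    have := mul_neg_geom_sum u n
    rw [this]
  have hdiff : (∑ k ∈ Finset.range n, (Polynomial.X - Polynomial.C c) ^ k *
      Polynomial.C (((ξ - c) ^ (k + 1))⁻¹)).eval z - (ξ - z)⁻¹
      = - ((ξ - c)⁻¹ * (u ^ n * (1 - u)⁻¹)) := by
    rw [hsum, hξz, mul_inv]
    have : ∑ k ∈ Finset.range n, u ^ k = (1 - u ^ n) * (1 - u)⁻¹ := by
      rw [← hgeom]; field_simp
    rw [this]
    ring
  rw [hdiff, norm_neg, norm_mul, norm_mul, norm_inv, norm_inv, norm_pow, ← hR]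
  have h1u : 1 - θ ≤ ‖1 - u‖ := by
    have := norm_sub_norm_le (1 : ℂ) u
    rw [norm_one] at this
    linarith
  have h1pos : 0 < 1 - θ := by linarith
  have hb : ‖1 - u‖⁻¹ ≤ (1 - θ)⁻¹ := inv_anti₀ h1pos h1u
  calc R⁻¹ * (‖u‖ ^ n * ‖1 - u‖⁻¹) ≤ R⁻¹ * (θ ^ n * (1 - θ)⁻¹) := by
        apply mul_le_mul_of_nonneg_left _ (by positivity)
        exact mul_le_mul (pow_le_pow_left₀ (norm_nonneg _) hun n) hb (by positivity) (by positivity)
    _ = θ ^ n * (R⁻¹ * (1 - θ)⁻¹) := by ring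
    _ ≤ ε := (hn).le

/-- `1/(σ(β₀) - z)` is a uniform limit of polynomials on compact subsets of the interior. -/
lemma polyApprox_inv_curve (C : SCurve) {K : Set ℂ} (hK : IsCompact K) (hin : K ⊆ C.inside) (β₀ : ℝ) :
    PolyApprox K (fun z => (C.σ β₀ - z)⁻¹) := by
  rcases K.eq_empty_or_nonempty with rfl | hne
  · intro ε hε; exact ⟨0, fun z hz => absurd hz (by simp)⟩
  set ξ := C.σ β₀ with hξ
  -- gap
  have hcont1 : ContinuousOn (fun z : ℂ => C.h β₀ - (eI (-β₀) * z).re) K := by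
    apply Continuous.continuousOn
    fun_prop
  obtain ⟨z₀, hz₀, hmin⟩ := hK.exists_isMinOn hne hcont1
  set d := C.h β₀ - (eI (-β₀) * z₀).re with hd
  have hdpos : 0 < d := sub_pos.2 (hin hz₀ β₀)
  obtain ⟨D, hD⟩ := hK.exists_bound_of_continuousOn (f := fun z => z - ξ) (by
    apply Continuous.continuousOn; fun_prop)
  -- the center
  set R : ℝ := (D ^ 2 + 1) / (2 * d) + 1 with hR
  have hRpos : 1 ≤ R := by
    have : 0 ≤ (D ^ 2 + 1) / (2 * d) := by positivity
    linarith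
  set c : ℂ := ξ - (R : ℂ) * eI β₀ with hc
  have hξc : ‖ξ - c‖ = R := by
    rw [hc, sub_sub_cancel, norm_mul, norm_eI, mul_one, Complex.norm_real, Real.norm_eq_abs,
      abs_of_pos (by linarith)]
  have hkey : ∀ z ∈ K, ‖z - c‖ ^ 2 ≤ R ^ 2 - 1 := by
    intro z hz
    have h1 : z - c = (z - ξ) + (R : ℂ) * eI β₀ := by rw [hc]; ring
    have h2 : ‖z - c‖ ^ 2 = ‖z - ξ‖ ^ 2 + 2 * R * (eI (-β₀) * (z - ξ)).re + R ^ 2 := by
      have he : ‖eI (-β₀) * (z - c)‖ = ‖z - c‖ := by rw [norm_mul, norm_eI, one_mul]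
      have he2 : ‖eI (-β₀) * (z - ξ)‖ = ‖z - ξ‖ := by rw [norm_mul, norm_eI, one_mul]
      rw [← he, ← he2, h1, mul_add, ← mul_assoc, mul_comm (eI (-β₀)) (R : ℂ), mul_assoc, eI_neg_mul_self, mul_one]
      set w := eI (-β₀) * (z - ξ)
      rw [← Complex.normSq_eq_norm_sq, ← Complex.normSq_eq_norm_sq, Complex.normSq_apply, Complex.normSq_apply]
      simp
      ring
    have h3 : (eI (-β₀) * (z - ξ)).re ≤ -d := by
      rw [mul_sub, Complex.sub_re, hξ, C.re_σ]
      have := hmin hz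
      have h' : C.h β₀ - (eI (-β₀) * z₀).re ≤ C.h β₀ - (eI (-β₀) * z).re := this
      linarith
    have h4 : ‖z - ξ‖ ^ 2 ≤ D ^ 2 := pow_le_pow_left₀ (norm_nonneg _) (hD z hz) 2
    have h5 : 2 * R * d ≥ D ^ 2 + 1 := by
      have : R * (2 * d) ≥ (D ^ 2 + 1) / (2 * d) * (2 * d) := by
        apply mul_le_mul_of_nonneg_right _ (by positivity)
        linarith
      rw [div_mul_cancel₀ _ (by positivity)] at this
      linarith
    rw [h2]
    nlinarith
  set r : ℝ := Real.sqrt (R ^ 2 - 1) with hr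
  have hrR : r < ‖ξ - c‖ := by
    rw [hξc, hr]
    rw [Real.sqrt_lt' (by linarith)]
    linarith
  refine polyApprox_inv (Real.sqrt_nonneg _) hrR fun z hz => ?_
  exact Real.le_sqrt_of_sq_le (hkey z hz)

/-- Uniform Riemann sums. -/
lemma riemann_unif {K : Set ℂ} (hK : IsCompact K) {Φ : ℝ → ℂ → ℂ}
    (hΦ : ContinuousOn (fun p : ℝ × ℂ => Φ p.1 p.2) (Icc (0 : ℝ) (2 * π) ×ˢ K))
    {ε : ℝ} (hε : 0 < ε) :
    ∃ N : ℕ, 0 < N ∧ ∀ z ∈ K, ‖(∫ β in (0 : ℝ)..(2 * π), Φ β z)
      - ∑ j ∈ Finset.range N, (2 * π / N : ℝ) * Φ (2 * π * j / N) z‖ ≤ ε := by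
  have hcomp : IsCompact (Icc (0 : ℝ) (2 * π) ×ˢ K) := isCompact_Icc.prod hK
  have hUC := hcomp.uniformContinuousOn_of_continuous hΦ
  rw [Metric.uniformContinuousOn_iff] at hUC
  have h2π : (0 : ℝ) < 2 * π := by positivity
  obtain ⟨δ, hδ, hδ'⟩ := hUC (ε / (2 * π)) (by positivity)
  obtain ⟨N, hN⟩ := exists_nat_gt (2 * π / δ)
  have hNpos : (0 : ℝ) < N := lt_trans (by positivity) hN
  have hN0 : 0 < N := by exact_mod_cast hNpos
  refine ⟨N, hN0, fun z hz => ?_⟩
  set a : ℕ → ℝ := fun j => 2 * π * j / N with ha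
  have hstep : (2 * π / N : ℝ) < δ := by
    rw [div_lt_iff₀ hNpos]
    rw [div_lt_iff₀ hδ] at hN
    linarith
  have ha0 : a 0 = 0 := by simp [ha]
  have haN : a N = 2 * π := by simp only [ha]; field_simp
  have hsucc : ∀ j, a (j + 1) = a j + 2 * π / N := by
    intro j; simp only [ha]; push_cast; field_simp
  have hamem : ∀ j ≤ N, a j ∈ Icc (0 : ℝ) (2 * π) := by
    intro j hj
    constructor
    · simp only [ha]; positivity
    · simp only [ha]
      rw [div_le_iff₀ hNpos]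
      have : (j : ℝ) ≤ N := by exact_mod_cast hj
      nlinarith [Real.pi_pos]
  have hcontz : ContinuousOn (fun β => Φ β z) (Icc (0 : ℝ) (2 * π)) := by
    have : ContinuousOn (fun β : ℝ => ((β, z) : ℝ × ℂ)) (Icc (0 : ℝ) (2 * π)) := by fun_prop
    exact hΦ.comp this (fun β hβ => ⟨hβ, hz⟩)
  have hsub : ∀ j < N, Icc (a j) (a (j + 1)) ⊆ Icc (0 : ℝ) (2 * π) := by
    intro j hj
    exact Icc_subset_Icc (hamem j hj.le).1 (hamem (j + 1) hj).2
  have hle : ∀ j, a j ≤ a (j + 1) := by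
    intro j; rw [hsucc]; have : 0 < 2 * π / (N : ℝ) := by positivity
    linarith
  have hint : ∀ j < N, IntervalIntegrable (fun β => Φ β z) volume (a j) (a (j + 1)) := by
    intro j hj
    apply ContinuousOn.intervalIntegrable
    rw [uIcc_of_le (hle j)]
    exact hcontz.mono (hsub j hj)
  have hsum := intervalIntegral.sum_integral_adjacent_intervals hint
  rw [ha0, haN] at hsum
  rw [← hsum, ← Finset.sum_sub_distrib]
  have hbound : ∀ j ∈ Finset.range N, ‖(∫ β in (a j)..(a (j + 1)), Φ β z) - (2 * π / N : ℝ) * Φ (a j) z‖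
      ≤ ε / N := by
    intro j hj
    have hj' := Finset.mem_range.1 hj
    have hconst : (2 * π / N : ℝ) * Φ (a j) z = ∫ β in (a j)..(a (j + 1)), Φ (a j) z := by
      rw [intervalIntegral.integral_const, hsucc]
      simp
    have hint2 : IntervalIntegrable (fun _ : ℝ => Φ (a j) z) volume (a j) (a (j + 1)) :=
      intervalIntegrable_const
    rw [hconst, ← intervalIntegral.integral_sub (hint j hj') hint2]
    have hb : ∀ β ∈ Set.uIoc (a j) (a (j + 1)), ‖Φ β z - Φ (a j) z‖ ≤ ε / (2 * π) := by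
      intro β hβ
      rw [uIoc_of_le (hle j)] at hβ
      have hβmem : (β, z) ∈ Icc (0 : ℝ) (2 * π) ×ˢ K :=
        ⟨hsub j hj' ⟨hβ.1.le, hβ.2⟩, hz⟩
      have h0mem : (a j, z) ∈ Icc (0 : ℝ) (2 * π) ×ˢ K := ⟨hamem j hj'.le, hz⟩
      have hdist : dist (β, z) (a j, z) < δ := by
        rw [Prod.dist_eq, dist_self, max_eq_left dist_nonneg, Real.dist_eq, abs_of_pos (by linarith [hβ.1])]
        have := hβ.2
        rw [hsucc] at this
        linarith
      have := hδ' _ hβmem _ h0mem hdist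
      rw [dist_eq_norm] at this
      exact this.le
    have := intervalIntegral.norm_integral_le_of_norm_le_const hb
    refine this.trans (le_of_eq ?_)
    rw [hsucc, show a j + 2 * π / N - a j = 2 * π / (N : ℝ) by ring, abs_of_pos (by positivity)]
    field_simp
  have := norm_sum_le_of_le (Finset.range N) hbound
  refine this.trans (le_of_eq ?_)
  simp only [Finset.sum_const, Finset.card_range, nsmul_eq_mul]
  field_simp

namespace SCurve

variable (C : SCurve)

/-- The winding number of the curve around an interior point. -/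
lemma integral_dσ_div_inside {z : ℂ} (hz : z ∈ C.inside) :
    ∫ β in (0 : ℝ)..(2 * π), C.dσ β / (C.σ β - z) = 2 * π * I := by
  have := cauchy_ext (C := C) (Ext.const (C := C) (1 : ℂ)) hz
  simpa using this

/-- Interior Cauchy formula: `g` holomorphic on a convex open set containing the curve and `z`. -/
theorem cauchy_inside {V : Set ℂ} (hVo : IsOpen V) (hVc : Convex ℝ V) (hσ : ∀ β, C.σ β ∈ V)
    {g : ℂ → ℂ} (hg : DifferentiableOn ℂ g V) {z : ℂ} (hzV : z ∈ V) (hz : z ∈ C.inside) :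
    ∫ β in (0 : ℝ)..(2 * π), g (C.σ β) * C.dσ β / (C.σ β - z) = 2 * π * I * g z := by
  have hne : ∀ β, C.σ β - z ≠ 0 := fun β => sub_ne_zero.2 (C.σ_ne_of_mem_inside hz β)
  have hG : DifferentiableOn ℂ (dslope g z) V := (Complex.differentiableOn_dslope (hVo.mem_nhds hzV)).2 hg
  obtain ⟨Ψ, hΨ⟩ := hVc.exists_forall_hasDerivWithinAt hG
  have hΨ' : ∀ a ∈ V, HasDerivAt Ψ (dslope g z a) a := fun a ha =>
    (hΨ a ha).hasDerivAt (hVo.mem_nhds ha)
  have hgcont : Continuous fun β => g (C.σ β) :=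
    hg.continuousOn.comp_continuous C.cont_σ hσ
  have hGσ : ∀ β, dslope g z (C.σ β) = (g (C.σ β) - g z) / (C.σ β - z) := by
    intro β
    rw [dslope_of_ne _ (C.σ_ne_of_mem_inside hz β), slope_def_field]
  have hder : ∀ β, HasDerivAt (fun b => Ψ (C.σ b)) (dslope g z (C.σ β) * C.dσ β) β := by
    intro β
    have h1 := ((hΨ' _ (hσ β)).hasFDerivAt.restrictScalars ℝ).comp_hasDerivAt β (C.hasDeriv_σ β)
    exact h1.congr_deriv (by simp [mul_comm])
  have hcontI : Continuous fun β => (g (C.σ β) - g z) / (C.σ β - z) * C.dσ β :=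
    ((hgcont.sub continuous_const).div (C.cont_σ.sub continuous_const) hne).mul C.cont_dσ
  have hzero : ∫ β in (0 : ℝ)..(2 * π), (g (C.σ β) - g z) / (C.σ β - z) * C.dσ β = 0 := by
    have : ∀ β ∈ uIcc (0 : ℝ) (2 * π), HasDerivAt (fun b => Ψ (C.σ b))
        ((g (C.σ β) - g z) / (C.σ β - z) * C.dσ β) β := fun β _ => by
      rw [← hGσ]; exact hder β
    rw [intervalIntegral.integral_eq_sub_of_hasDerivAt this (hcontI.intervalIntegrable _ _)]
    have h2 : C.σ (2 * π) = C.σ 0 := by simpa using C.per_σ 0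
    rw [h2, sub_self]
  have hsplit : ∀ β, g (C.σ β) * C.dσ β / (C.σ β - z)
      = (g (C.σ β) - g z) / (C.σ β - z) * C.dσ β + g z * (C.dσ β / (C.σ β - z)) := by
    intro β
    have := hne β
    field_simp
    ring
  simp_rw [hsplit]
  have hc2 : Continuous fun β => g z * (C.dσ β / (C.σ β - z)) :=
    continuous_const.mul (C.cont_dσ.div (C.cont_σ.sub continuous_const) hne)
  rw [intervalIntegral.integral_add (hcontI.intervalIntegrable _ _) (hc2.intervalIntegrable _ _),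
    hzero, intervalIntegral.integral_const_mul, C.integral_dσ_div_inside hz]
  ring

end SCurve

/-- **Runge for compact convex sets.** -/
theorem runge_convex {K U : Set ℂ} (hK : IsCompact K) (hconv : Convex ℝ K) (hU : IsOpen U) (hKU : K ⊆ U)
    {g : ℂ → ℂ} (hg : DifferentiableOn ℂ g U) : PolyApprox K g := by
  rcases K.eq_empty_or_nonempty with rfl | hne
  · intro ε hε; exact ⟨0, fun z hz => absurd hz (by simp)⟩
  obtain ⟨δ, hδ, hthick⟩ := hK.exists_thickening_subset_open hU hKU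
  set V := Metric.thickening δ K with hV
  have hVo : IsOpen V := Metric.isOpen_thickening
  have hVc : Convex ℝ V := hconv.thickening δ
  have hKV : K ⊆ V := Metric.self_subset_thickening hδ K
  obtain ⟨C, hC1, hC2⟩ := exists_curve_near hK hconv hne (half_pos hδ)
  have hσ : ∀ β, C.σ β ∈ V := by
    intro β
    obtain ⟨w, hw, hwβ⟩ := hC2 β
    rw [hV, Metric.mem_thickening_iff]
    refine ⟨w, hw, ?_⟩
    rw [dist_eq_norm]
    linarith
  have hgV : DifferentiableOn ℂ g V := hg.mono hthick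
  have hgc : Continuous fun β => g (C.σ β) := hgV.continuousOn.comp_continuous C.cont_σ hσ
  set Φ : ℝ → ℂ → ℂ := fun β z => g (C.σ β) * C.dσ β * (C.σ β - z)⁻¹ with hΦ
  have hΦc : ContinuousOn (fun p : ℝ × ℂ => Φ p.1 p.2) (Icc (0 : ℝ) (2 * π) ×ˢ K) := by
    apply ContinuousOn.mul
    · exact ((hgc.comp continuous_fst).mul (C.cont_dσ.comp continuous_fst)).continuousOn
    · apply ContinuousOn.inv₀
      · exact ((C.cont_σ.comp continuous_fst).sub continuous_snd).continuousOn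
      · rintro ⟨β, z⟩ ⟨_, hz⟩
        exact sub_ne_zero.2 (C.σ_ne_of_mem_inside (hC1 hz) β)
  apply PolyApprox.of_approx
  intro ε hε
  -- the Riemann sums
  have h2π : (0 : ℝ) < 2 * π := by positivity
  obtain ⟨N, hN, hR⟩ := riemann_unif hK hΦc (ε := ε * (2 * π)) (by positivity)
  refine ⟨fun z => (2 * π * I)⁻¹ * ∑ j ∈ Finset.range N, ((2 * π / N : ℝ) : ℂ) * Φ (2 * π * j / N) z, ?_, ?_⟩
  · apply PolyApprox.const_mul
    apply PolyApprox.sum
    intro j _
    apply PolyApprox.const_mul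
    simp only [hΦ]
    apply PolyApprox.const_mul
    exact polyApprox_inv_curve C hK hC1 _
  · intro z hz
    have hcauchy := C.cauchy_inside hVo hVc hσ hgV (hKV hz) (hC1 hz)
    have hgz : g z = (2 * π * I)⁻¹ * ∫ β in (0 : ℝ)..(2 * π), Φ β z := by
      have : (fun β => Φ β z) = fun β => g (C.σ β) * C.dσ β / (C.σ β - z) := by
        funext β; simp only [hΦ, div_eq_mul_inv]
      rw [this, hcauchy]
      have : (2 * π * I : ℂ) ≠ 0 := by
        simp [Real.pi_ne_zero, I_ne_zero]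
      field_simp
    rw [hgz, ← mul_sub, norm_mul]
    have hnorm : ‖(2 * π * I : ℂ)⁻¹‖ = (2 * π)⁻¹ := by
      simp [abs_of_pos Real.pi_pos]
    rw [hnorm, norm_sub_rev]
    have := hR z hz
    calc (2 * π)⁻¹ * _ ≤ (2 * π)⁻¹ * (ε * (2 * π)) := mul_le_mul_of_nonneg_left this (by positivity)
      _ = ε := by field_simp

end Crest.Agent.Crouzeix
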